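import Vale.Agent.P290Z.K.SpecG

/-!
# P290Z, part III (K): small solutions of a nonlinear elliptic system, smooth in all variables

The inverse function theorem in Hölder spaces gives the solution; applied to the translated system
it shows that the solution is smooth in the parameter and the point jointly.
-/

open scoped ContDiff Topology NNReal
open Set Filter Metric

set_option maxSynthPendingDepth 3

noncomputable section

namespace Vale.Agent.P290Z.Kur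

open Vale.Agent.P272.K Vale.Agent.P272.K.LIN Vale.Agent.P290.H158

namespace AB

/-- the implicit function theorem -/
theorem solve (hI : StInvB) {P B C : Type} [NormedAddCommGroup P] [NormedSpace ℝ P]
    [CompleteSpace P] [NormedAddCommGroup B] [NormedSpace ℝ B] [CompleteSpace B]
    [NormedAddCommGroup C] [NormedSpace ℝ C] [CompleteSpace C] {Φ : P × B → C}
    (hΦ : ContDiff ℝ ∞ Φ) (h0 : Φ (0, 0) = 0)
    (hb : Function.Bijective (fderiv ℝ (fun w => Φ (0, w)) 0)) :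
    ∃ U : P → B, U 0 = 0 ∧ (∀ᶠ p in 𝓝 (0 : P), ContDiffAt ℝ ∞ U p ∧ Φ (p, U p) = 0) ∧
      ∃ ε > (0 : ℝ), ∀ p b, ‖p‖ < ε → ‖b‖ < ε → Φ (p, b) = 0 → U p = b := by
  obtain ⟨H, hH0, hH1, hH2⟩ := hI P B C Φ (0, 0) hΦ hb
  have hH3 : H (0, 0) = (0, 0) := by rw [hH1, h0]
  obtain ⟨ε, hε, hεs⟩ := Metric.isOpen_iff.1 H.open_source _ hH0
  have h1 : ∀ p b, (p, b) ∈ H.source → Φ (p, b) = 0 → (H.symm (p, 0)).2 = b := fun p b h h' => by
    have h2 : H (p, b) = (p, 0) := by rw [hH1, h']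
    rw [← h2, H.left_inv h]
  refine ⟨fun p => (H.symm (p, 0)).2, h1 0 0 hH0 h0, ?_, ε, hε, fun p b hp hb => h1 p b (hεs ?_)⟩
  · filter_upwards [(Continuous.prodMk_left (0 : C)).continuousAt
      (H.open_target.mem_nhds (hH3 ▸ H.map_source hH0))] with p hp
    have h2 := H.right_inv hp
    rw [hH1] at h2
    have h3 : (H.symm (p, 0)).1 = p := congrArg Prod.fst h2
    refine ⟨(ContDiffAt.comp (g := H.symm) p (hH2 _ hp)
      (contDiffAt_id.prodMk contDiffAt_const)).snd, ?_⟩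
    have h4 : (p, (H.symm (p, 0)).2) = H.symm (p, 0) := Prod.ext h3.symm rfl
    rw [h4]
    exact congrArg Prod.snd h2
  · rw [mem_ball, Prod.dist_eq, dist_zero_right, dist_zero_right]
    exact max_lt hp hb

theorem lin_aux {P B C : Type} [NormedAddCommGroup P] [NormedSpace ℝ P] [NormedAddCommGroup B]
    [NormedSpace ℝ B] [NormedAddCommGroup C] [NormedSpace ℝ C] {T : B →L[ℝ] C} (K : B →L[ℝ] C)
    (hT : Function.Bijective T) {Q : P × B → C} (hQ : ContDiff ℝ ∞ Q)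
    (h : Q 0 = 0 ∧ HasFDerivAt (fun w => Q (0, w)) (0 : B →L[ℝ] C) 0) :
    ∃ G : P × B → C, ContDiff ℝ ∞ G ∧ (∀ r, G r = T r.2 - K r.2 + Q r) ∧ G (0, 0) + K 0 = 0 ∧
      Function.Bijective (fderiv ℝ (fun w => G (0, w) + K w) 0) := by
  have h2 : (fun w => T w - K w + Q (0, w) + K w) = fun w => T w + Q (0, w) := by
    funext w
    abel
  refine ⟨fun r => T r.2 - K r.2 + Q r,
    ((T.contDiff.comp contDiff_snd).sub (K.contDiff.comp contDiff_snd)).add hQ, fun _ => rfl,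
    (congrFun h2 0).trans ?_, ?_⟩
  · rw [map_zero, zero_add]
    exact h.1
  · rw [h2, (T.hasFDerivAt.fun_add h.2).fderiv, add_zero]
    exact hT

section hol

variable {Y : Type} {w : Y → Y → ℝ≥0}

/-- constants -/
def constL (V : Type) [NormedAddCommGroup V] [NormedSpace ℝ V] : V →L[ℝ] Hol w V :=
  LinearMap.mkContinuous
    { toFun := fun c => Hol.const c
      map_add' := fun _ _ => Hol.ext fun _ => rfl
      map_smul' := fun _ _ => Hol.ext fun _ => rfl } 1 fun c => by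
    rw [one_mul]
    exact Hol.norm_const_le c

/-- pairs of functions -/
def pr : Hol w ℝ × Hol w ℝ →L[ℝ] Hol w (ℝ × ℝ) :=
  (Hol.map (ContinuousLinearMap.inl ℝ ℝ ℝ)).coprod (Hol.map (ContinuousLinearMap.inr ℝ ℝ ℝ))

theorem pr_apply (f : Hol w ℝ × Hol w ℝ) (x : Y) : pr f x = (f.1 x, f.2 x) := by
  change ((f.1 x, 0) : ℝ × ℝ) + (0, f.2 x) = _
  simp

theorem pr_bij : Function.Bijective (pr (w := w)) := by
  refine ⟨fun f g h => ?_, fun k => ⟨(Hol.map (ContinuousLinearMap.fst ℝ ℝ ℝ) k,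
    Hol.map (ContinuousLinearMap.snd ℝ ℝ ℝ) k), Hol.ext fun x => pr_apply _ x⟩⟩
  have h1 : ∀ x, (f.1 x, f.2 x) = (g.1 x, g.2 x) := fun x => by
    rw [← pr_apply, ← pr_apply, h]
  exact Prod.ext (Hol.ext fun x => congrArg Prod.fst (h1 x))
    (Hol.ext fun x => congrArg Prod.snd (h1 x))

variable {P B : Type} [NormedAddCommGroup P] [NormedSpace ℝ P] [NormedAddCommGroup B]
  [NormedSpace ℝ B]

/-- an operator which vanishes to first order at every point -/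
theorem dq_zero {W J : Type} [NormedAddCommGroup W] [NormedSpace ℝ W] [NormedAddCommGroup J]
    [NormedSpace ℝ J] {Q : P × B × B → Hol w W} (hQ : ContDiff ℝ ∞ Q)
    (hlo : ∀ x, ∃ (j : B →L[ℝ] J) (f : J × J → W), (f =o[𝓝 0] fun j => j) ∧
      ∀ u v, Q (0, u, v) x = f (j u, j v)) :
    Q 0 = 0 ∧ HasFDerivAt (fun w => Q (0, w)) (0 : B × B →L[ℝ] Hol w W) 0 := by
  have key : ∀ x, (fun w => Q (0, w) x) =o[𝓝 0] fun w => w := by
    intro x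
    obtain ⟨j, f, hf, hj⟩ := hlo x
    have h1 : Tendsto (j.prodMap j) (𝓝 0) (𝓝 0) := by
      have := (j.prodMap j).continuous.tendsto 0
      rwa [map_zero] at this
    exact ((hf.comp_tendsto h1).trans_isBigO ((j.prodMap j).isBigO_id _)).congr_left fun w =>
      (hj w.1 w.2).symm
  have h0 : Q 0 = 0 := Hol.ext fun x => by
    have := ((key x).bound one_pos).self_of_nhds
    rw [norm_zero, mul_zero] at this
    exact norm_le_zero_iff.1 this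
  have h1 : DifferentiableAt ℝ (fun w => Q (0, w)) 0 :=
    ((hQ.comp (contDiff_const.prodMk contDiff_id)).differentiable (by simp)).differentiableAt
  refine ⟨h0, ?_⟩
  have h2 : fderiv ℝ (fun w => Q (0, w)) 0 = 0 := by
    refine ContinuousLinearMap.ext fun k => Hol.ext fun x => ?_
    have h3 := (Hol.evalL (w := w) (V := W) x).hasFDerivAt.comp 0 h1.hasFDerivAt
    have h4 : HasFDerivAt (fun w => Q (0, w) x) (0 : B × B →L[ℝ] W) 0 := by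
      refine HasFDerivAt.of_isLittleO ((key x).congr (fun k => ?_) fun w => (sub_zero w).symm)
      have h5 : Q (0, 0) x = 0 := congrArg (fun f : Hol w W => f x) h0
      rw [h5]
      simp
    exact DFunLike.congr_fun (h3.unique h4) k
  exact h2 ▸ h1.hasFDerivAt

/-- the abstract form of the argument -/
theorem core (hI : StInvB) [CompleteSpace B] [FiniteDimensional ℝ P] {E J ι : Type} [Finite ι]
    [NormedAddCommGroup E] [NormedSpace ℝ E] [FiniteDimensional ℝ E] [NormedAddCommGroup J]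
    [NormedSpace ℝ J] (ev : Y → B →L[ℝ] ℝ) (x₀ : Y) {T : B →L[ℝ] Hol w ℝ}
    (hT : Function.Bijective T) {Q : P × B × B → Hol w (ℝ × ℝ)} (hQ : ContDiff ℝ ∞ Q)
    (hlo : ∀ x, ∃ (j : B →L[ℝ] J) (f : J × J → ℝ × ℝ), (f =o[𝓝 0] fun j => j) ∧
      ∀ u v, Q (0, u, v) x = f (j u, j v)) (Θ : ι → E → Y → Y)
    (hP : ∀ i, ∃ δ > (0 : ℝ), ∃ C : ℝ, ∀ s : E, ‖s‖ < δ → ∀ v : B, ∃ (k : B) (a : ℝ),
      (∀ x, ev x k = ev (Θ i s x) v + a) ∧ ev x₀ k = ev x₀ v ∧ ‖k‖ ≤ C * ‖v‖)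
    (hTr : ∀ G : P × B × B → Hol w (ℝ × ℝ), ContDiff ℝ ∞ G →
      (∀ p u v x, G (p, u, v) x = (T u x - ev x₀ u, T v x - ev x₀ v) + Q (p, u, v) x) →
      ∀ i, ∃ δ > (0 : ℝ), ∃ G' : (P × E) × B × B → Hol w (ℝ × ℝ), ContDiff ℝ ∞ G' ∧
        (∀ p k, G' ((p, 0), k) = G (p, k)) ∧
        ∀ (p : P) (s : E), ‖s‖ < δ → ∀ (u v u' v' : B) (a b : ℝ),
          (∀ x, ev x u' = ev (Θ i s x) u + a) → (∀ x, ev x v' = ev (Θ i s x) v + b) →
          ∀ x, G' ((p, s), u', v') x = G (p, u, v) (Θ i s x)) :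
    ∃ U V : P → B, U 0 = 0 ∧ V 0 = 0 ∧ ∀ᶠ p in 𝓝 (0 : P), ContDiffAt ℝ ∞ U p ∧
      ContDiffAt ℝ ∞ V p ∧ (∀ x, (T (U p) x, T (V p) x) + Q (p, U p, V p) x = 0) ∧
      ∀ i, (∃ S : P × E → B, ContDiffAt ℝ ∞ S (p, 0) ∧
          ∀ᶠ r in 𝓝 ((p, 0) : P × E), ∃ a, ∀ x, ev x (S r) = ev (Θ i r.2 x) (U r.1) + a) ∧
        ∃ S : P × E → B, ContDiffAt ℝ ∞ S (p, 0) ∧
          ∀ᶠ r in 𝓝 ((p, 0) : P × E), ∃ a, ∀ x, ev x (S r) = ev (Θ i r.2 x) (V r.1) + a := by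
  have hcp : CompleteSpace P := FiniteDimensional.complete ℝ _
  have hcq : CompleteSpace (P × E) := FiniteDimensional.complete ℝ _
  obtain ⟨K, hK⟩ : ∃ K : B × B →L[ℝ] Hol w (ℝ × ℝ), ∀ k x, K k x = (ev x₀ k.1, ev x₀ k.2) :=
    ⟨(constL _).comp ((ev x₀).prodMap (ev x₀)), fun _ _ => rfl⟩
  obtain ⟨G, hG, hG1, hz, hD⟩ := lin_aux (T := pr.comp (T.prodMap T)) K
    (pr_bij.comp (hT.prodMap hT)) hQ (dq_zero hQ hlo)
  have hG2 : ∀ p u v x, G (p, u, v) x = (T u x - ev x₀ u, T v x - ev x₀ v) + Q (p, u, v) x := by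
    intro p u v x
    rw [hG1]
    change pr (T u, T v) x - K (u, v) x + Q (p, u, v) x = _
    rw [pr_apply, hK, Prod.mk_sub_mk]
  obtain ⟨U, hU0, hU, -⟩ := solve hI (Φ := fun r => G r + K r.2)
    (hG.add (K.contDiff.comp contDiff_snd)) hz hD
  have hUt : Tendsto U (𝓝 0) (𝓝 0) := by
    have := hU.self_of_nhds.1.continuousAt.tendsto
    rwa [hU0] at this
  have hi : ∀ i, ∀ᶠ p in 𝓝 (0 : P), ∃ S : P × E → B × B, ContDiffAt ℝ ∞ S (p, 0) ∧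
      ∀ᶠ r in 𝓝 ((p, 0) : P × E), (∃ a, ∀ x, ev x (S r).1 = ev (Θ i r.2 x) (U r.1).1 + a) ∧
        ∃ a, ∀ x, ev x (S r).2 = ev (Θ i r.2 x) (U r.1).2 + a := by
    intro i
    obtain ⟨δ, hδ, G', h2, h3, h4⟩ := hTr G hG hG2 i
    obtain ⟨δ', hδ', C, hC⟩ := hP i
    have h3' : ∀ k, G' (0, k) = G (0, k) := h3 0
    obtain ⟨S, -, hS, ε, hε, hεs⟩ := solve hI (Φ := fun r => G' r + K r.2)
      (h2.add (K.contDiff.comp contDiff_snd)) (by rw [h3']; exact hz)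
      (by simp only [h3']; exact hD)
    have h5 : ∀ᶠ r in 𝓝 (0 : P × E), (∃ a, ∀ x, ev x (S r).1 = ev (Θ i r.2 x) (U r.1).1 + a) ∧
        ∃ a, ∀ x, ev x (S r).2 = ev (Θ i r.2 x) (U r.1).2 + a := by
      have e1 : Tendsto (fun r : P × E => r.1) (𝓝 0) (𝓝 0) := continuous_fst.tendsto _
      have e2 : Tendsto (fun r : P × E => ‖r.2‖) (𝓝 0) (𝓝 0) :=
        tendsto_zero_iff_norm_tendsto_zero.1 (continuous_snd.tendsto (0 : P × E))
      have e3 : Tendsto (fun r : P × E => |C| * ‖U r.1‖) (𝓝 0) (𝓝 0) := by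
        have := ((hUt.comp e1).norm).const_mul |C|
        rwa [norm_zero, mul_zero] at this
      filter_upwards [e1.eventually hU, e2.eventually (gt_mem_nhds hδ),
        e2.eventually (gt_mem_nhds hδ'), ball_mem_nhds _ hε,
        e3.eventually (gt_mem_nhds hε)] with r r1 r2 r3 r4 r5
      obtain ⟨u', a, ha1, ha2, ha3⟩ := hC r.2 r3 (U r.1).1
      obtain ⟨v', b, hb1, hb2, hb3⟩ := hC r.2 r3 (U r.1).2
      have f1 : S r = (u', v') := by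
        refine hεs r _ (mem_ball_zero_iff.1 r4) (max_lt (ha3.trans_lt ?_) (hb3.trans_lt ?_))
          (Hol.ext fun x => ?_)
        · exact (mul_le_mul (le_abs_self C) (norm_fst_le _) (norm_nonneg _)
            (abs_nonneg C)).trans_lt r5
        · exact (mul_le_mul (le_abs_self C) (norm_snd_le _) (norm_nonneg _)
            (abs_nonneg C)).trans_lt r5
        · have f3 : G (r.1, (U r.1).1, (U r.1).2) (Θ i r.2 x) + K (U r.1) (Θ i r.2 x) = 0 :=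
            congrArg (fun f : Hol w (ℝ × ℝ) => f (Θ i r.2 x)) r1.2
          change G' ((r.1, r.2), u', v') x + K (u', v') x = 0
          rw [h4 r.1 r.2 r2 _ _ _ _ a b ha1 hb1, hK, ha2, hb2, ← f3, hK]
      rw [f1]
      exact ⟨⟨a, ha1⟩, b, hb1⟩
    filter_upwards [((Continuous.prodMk_left (0 : E)).tendsto (0 : P)).eventually
      (hS.and h5.eventually_nhds)] with p hp
    exact ⟨S, hp.1.1, hp.2⟩
  refine ⟨fun p => (U p).1, fun p => (U p).2, congrArg Prod.fst hU0, congrArg Prod.snd hU0, ?_⟩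
  filter_upwards [hU, eventually_all.2 hi] with p hp hp'
  refine ⟨hp.1.fst, hp.1.snd, fun x => ?_, fun i => ?_⟩
  · have h3 : G (p, (U p).1, (U p).2) x + K (U p) x = 0 :=
      congrArg (fun f : Hol w (ℝ × ℝ) => f x) hp.2
    rw [hG2, hK, ← Prod.mk_sub_mk, add_right_comm, sub_add_cancel] at h3
    exact h3
  · obtain ⟨S, h1, h2⟩ := hp' i
    exact ⟨⟨_, h1.fst, h2.mono fun r hr => hr.1⟩, _, h1.snd, h2.mono fun r hr => hr.2⟩

end hol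

variable {E : Type} [NormedAddCommGroup E] [NormedSpace ℝ E] [FiniteDimensional ℝ E] {X : Type}
  [TopologicalSpace X] [ChartedSpace E X] {P : Type} [NormedAddCommGroup P] [NormedSpace ℝ P]
  (𝒞 : Cov E X) {α : ℝ}

/-- evaluation -/
def ev (α : ℝ) (x : X) : 𝒞.C2 α →L[ℝ] ℝ := (Hol.evalL x).comp (𝒞.incl α)

theorem ev_apply (x : X) (v : 𝒞.C2 α) : ev 𝒞 α x v = 𝒞.fn v x := rfl

theorem abs_fn_le (v : 𝒞.C2 α) (x : X) : ‖𝒞.fn v x‖ ≤ ‖v‖ :=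
  (Hol.norm_apply_le (𝒞.incl α v) x).trans (𝒞.norm_incl_le v)

omit [FiniteDimensional ℝ E] in
/-- joint smoothness may be checked in the charts of a cover -/
theorem jsm_of_cov [RSm E X] {u : P → X → ℝ} {N : Set P}
    (h : ∀ p ∈ N, ∀ i, ∀ y ∈ ball (𝒞.c i) (𝒞.r i),
      ContDiffAt ℝ ∞ (fun r : P × E => u r.1 ((𝒞.e i).symm r.2)) (p, y)) : JSm E u N := by
  intro p hp e he y hy
  have hx := e.map_target hy
  obtain ⟨i, hi, hb⟩ := 𝒞.cover (e.symm y)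
  have h1 := RSm.trans e he _ (𝒞.mem i) _ hx hi
  have h2 := symm_trans_eq hi hx
  rw [e.right_inv hy] at h1 h2
  have h3 : ContDiffAt ℝ ∞ (fun r : P × E => (r.1, 𝒞.e i (e.symm r.2))) (p, y) :=
    contDiffAt_fst.prodMk (ContDiffAt.comp (g := fun z => 𝒞.e i (e.symm z)) (p, y) h1
      contDiffAt_snd)
  refine ((h p hp i _ hb).comp (p, y) h3).congr_of_eventuallyEq ?_
  filter_upwards [(continuous_snd.tendsto (p, y)).eventually h2] with r hr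
  simp only [Function.comp]
  rw [(𝒞.e i).left_inv hr.1]

theorem Th_symm (i : Fin 𝒞.N) (s : E) {y : E} (hy : y ∈ (𝒞.e i).target) :
    Th 𝒞 i s ((𝒞.e i).symm y) = (𝒞.e i).symm (y + chi 𝒞 i y • s) := by
  rw [Th, if_pos ((𝒞.e i).map_target hy), (𝒞.e i).right_inv hy, th]

/-- the translation trick -/
theorem smooth_of_trans [Nontrivial E] {B : Type} [NormedAddCommGroup B] [NormedSpace ℝ B]
    (ev : X → B →L[ℝ] ℝ) (i : Fin 𝒞.N) {U : P → B} {p : P} (hU : ContDiffAt ℝ ∞ U p)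
    (h : ∃ S : P × E → B, ContDiffAt ℝ ∞ S (p, 0) ∧
      ∀ᶠ r in 𝓝 ((p, 0) : P × E), ∃ a, ∀ x, ev x (S r) = ev (Th 𝒞 i r.2 x) (U r.1) + a)
    {y : E} (hy : y ∈ ball (𝒞.c i) (𝒞.r i)) :
    ContDiffAt ℝ ∞ (fun r : P × E => ev ((𝒞.e i).symm r.2) (U r.1)) (p, y) := by
  obtain ⟨S, hS, h⟩ := h
  have hr := 𝒞.r_pos i
  obtain ⟨v, hv⟩ := exists_norm_eq E (c := 2 * 𝒞.r i) (by positivity)
  have hd : dist (𝒞.c i + v) (𝒞.c i) = 2 * 𝒞.r i := by rw [dist_eq_norm, add_sub_cancel_left, hv]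
  have h1 : 𝒞.c i + v ∈ (𝒞.e i).target := 𝒞.sub i (by rw [mem_closedBall, hd]; linarith)
  have h2 : chi 𝒞 i (𝒞.c i + v) = 0 :=
    (chi 𝒞 i).zero_of_le_dist (by rw [hd]; change 3 / 2 * 𝒞.r i ≤ _; linarith)
  have h3 : chi 𝒞 i y = 1 := (chi 𝒞 i).one_of_mem_closedBall (ball_subset_closedBall hy)
  have h4 : y ∈ (𝒞.e i).target := 𝒞.sub' (by linarith) hy
  have h5 : ContDiffAt ℝ ∞ (fun r : P × E => ((r.1, r.2 - y) : P × E)) (p, y) :=
    contDiffAt_fst.prodMk (contDiffAt_snd.sub contDiffAt_const)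
  have h6 : ContDiffAt ℝ ∞ (fun r : P × E => S (r.1, r.2 - y)) (p, y) :=
    ContDiffAt.comp (g := S) (p, y) (by rwa [sub_self]) h5
  have h7 : ContDiffAt ℝ ∞ (fun r : P × E => ev ((𝒞.e i).symm y) (S (r.1, r.2 - y)) -
      ev ((𝒞.e i).symm (𝒞.c i + v)) (S (r.1, r.2 - y)) +
      ev ((𝒞.e i).symm (𝒞.c i + v)) (U r.1)) (p, y) :=
    (((ev _).contDiff.contDiffAt.comp _ h6).sub ((ev _).contDiff.contDiffAt.comp _ h6)).add
      ((ev _).contDiff.contDiffAt.comp _ (ContDiffAt.comp (g := U) (p, y) hU contDiffAt_fst))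
  refine h7.congr_of_eventuallyEq ?_
  have h8 := h5.continuousAt.tendsto
  rw [sub_self] at h8
  filter_upwards [h8.eventually h] with r ⟨a, ha⟩
  rw [ha, ha, Th_symm 𝒞 i _ h4, Th_symm 𝒞 i _ h1, h2, h3, one_smul, zero_smul, add_zero,
    add_sub_cancel]
  ring

omit [NormedSpace ℝ P] in
/-- the operator at a point is a function of the jets -/
theorem exists_jet {W : Type} [NormedAddCommGroup W] {q : Expr E X P W}
    {𝒬 : P × 𝒞.C2 α × 𝒞.C2 α → Hol (𝒞.w α) W} (hr : q.Rep 𝒞 α 𝒬)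
    (hlo : ∀ e ∈ atlas E X, ∀ y ∈ e.target,
      (fun j : J2 E × J2 E => q e (0, y, j)) =o[𝓝 0] fun j => j) (x : X) :
    ∃ (j : 𝒞.C2 α →L[ℝ] J2 E) (f : J2 E × J2 E → W), (f =o[𝓝 0] fun j => j) ∧
      ∀ u v, 𝒬 (0, u, v) x = f (j u, j v) := by
  obtain ⟨i, hi, hb⟩ := 𝒞.cover x
  have hj : ∀ v : 𝒞.C2 α, j2 (𝒞.e i) (𝒞.fn v) x = (𝒞.J α i v x).2 := fun v => by
    rw [𝒞.J_apply, 𝒞.Jf_of_ball hi (𝒞.ball_sub hb)]
    rfl
  refine ⟨(ContinuousLinearMap.snd ℝ ℝ _).comp ((Hol.evalL x).comp (𝒞.J α i)), _,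
    hlo _ (𝒞.mem i) _ ((𝒞.e i).map_source hi), fun u v => ?_⟩
  rw [hr 0 u v _ (𝒞.mem i) x hi, Expr.val, hj, hj]
  rfl

/-- translates with the same value at `x₀` -/
theorem exists_pull [CompactSpace X] [T2Space X] [RSm E X] (h0 : 0 < α) (h1 : α ≤ 1)
    (hP : StPullC2) (i : Fin 𝒞.N) (x₀ : X) : ∃ δ > (0 : ℝ), ∃ C : ℝ, ∀ s : E, ‖s‖ < δ →
      ∀ v : 𝒞.C2 α, ∃ (w : 𝒞.C2 α) (a : ℝ), (∀ x, 𝒞.fn w x = 𝒞.fn v (Th 𝒞 i s x) + a) ∧
        𝒞.fn w x₀ = 𝒞.fn v x₀ ∧ ‖w‖ ≤ C * ‖v‖ := by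
  obtain ⟨δ, hδ, C, hC⟩ := hP E X 𝒞 α h0 h1 i
  let o : 𝒞.C2 α := 𝒞.ofSmooth h0 h1 (fun _ => 1) (ckFn_const (1 : ℝ))
  refine ⟨δ, hδ, C + 2 * ‖o‖, fun s hs v => ?_⟩
  obtain ⟨w, hw, hn⟩ := hC s hs v
  have h2 : ∀ x, 𝒞.fn (w + (𝒞.fn v x₀ - 𝒞.fn v (Th 𝒞 i s x₀)) • o) x =
      𝒞.fn v (Th 𝒞 i s x) + (𝒞.fn v x₀ - 𝒞.fn v (Th 𝒞 i s x₀)) := fun x => by
    rw [𝒞.fn_add, 𝒞.fn_smul, hw, 𝒞.fn_ofSmooth, mul_one]
  refine ⟨_, _, h2, by rw [h2]; ring, (norm_add_le _ _).trans ?_⟩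
  have h3 : ‖𝒞.fn v x₀ - 𝒞.fn v (Th 𝒞 i s x₀)‖ ≤ ‖v‖ + ‖v‖ :=
    (norm_sub_le _ _).trans (add_le_add (abs_fn_le 𝒞 v _) (abs_fn_le 𝒞 v _))
  have h4 := mul_le_mul_of_nonneg_right h3 (norm_nonneg o)
  rw [norm_smul]
  linarith

/-- the full expression -/
def full (D : LOp E X) (q : Expr E X P (ℝ × ℝ)) : Expr E X P (ℝ × ℝ) := fun e r =>
  (D.A.a e r.2.1 r.2.2.1.2 + D.b e r.2.1 r.2.2.1.1,
    D.A.a e r.2.1 r.2.2.2.2 + D.b e r.2.1 r.2.2.2.1) + q e r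

omit [FiniteDimensional ℝ E] in
theorem full_sm (D : LOp E X) {q : Expr E X P (ℝ × ℝ)} (hq : q.Sm) : (full D q).Sm := by
  intro e he r hr
  have ha : ContDiffAt ℝ ∞ (fun r : P × E × J2 E × J2 E => D.A.a e r.2.1) r :=
    ContDiffAt.comp (g := D.A.a e) r (D.A.smooth e he _ hr) contDiffAt_snd.fst
  have hb : ContDiffAt ℝ ∞ (fun r : P × E × J2 E × J2 E => D.b e r.2.1) r :=
    ContDiffAt.comp (g := D.b e) r (D.bsmooth e he _ hr) contDiffAt_snd.fst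
  exact (((ha.clm_apply contDiffAt_snd.snd.fst.snd).add
    (hb.clm_apply contDiffAt_snd.snd.fst.fst)).prodMk
    ((ha.clm_apply contDiffAt_snd.snd.snd.snd).add
      (hb.clm_apply contDiffAt_snd.snd.snd.fst))).add (hq e he r hr)

omit [FiniteDimensional ℝ E] [NormedAddCommGroup P] [NormedSpace ℝ P] in
theorem full_val {D : LOp E X} (hc : ∀ x, D.c x = 0) (q : Expr E X P (ℝ × ℝ)) (p : P)
    {u v : X → ℝ} (hu : CkFn E 2 u) (hv : CkFn E 2 v) {e : OpenPartialHomeomorph X E}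
    (he : e ∈ atlas E X) {x : X} (hx : x ∈ e.source) :
    (full D q).val e p u v x = (D.Q u x, D.Q v x) + q.val e p u v x := by
  rw [D.eq _ hu e he x hx, D.eq _ hv e he x hx, D.A.eq _ hu e he x hx, D.A.eq _ hv e he x hx, hc,
    zero_mul, zero_mul, add_zero, add_zero]
  rfl

/-- the solution in the Hölder spaces -/
theorem exists_sol [Nontrivial E] [CompactSpace X] [T2Space X] [RSm E X] [FiniteDimensional ℝ P]
    (h0 : 0 < α) (h1 : α ≤ 1) (hI : StInvB) (hP : StPullC2) (hT : StTrans) {D : LOp E X}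
    {q : Expr E X P (ℝ × ℝ)} (hc : ∀ x, D.c x = 0) (hq : q.Sm)
    (hlo : ∀ e ∈ atlas E X, ∀ y ∈ e.target,
      (fun j : J2 E × J2 E => q e (0, y, j)) =o[𝓝 0] fun j => j) {x₀ : X}
    {T : 𝒞.C2 α →L[ℝ] Hol (𝒞.w α) ℝ} (hT1 : Function.Bijective T)
    (hT2 : ∀ v x, T v x = D.Q (𝒞.fn v) x + 𝒞.fn v x₀)
    {𝒬 : P × 𝒞.C2 α × 𝒞.C2 α → Hol (𝒞.w α) (ℝ × ℝ)} (h𝒬 : ContDiff ℝ ∞ 𝒬) (hr : q.Rep 𝒞 α 𝒬) :
    ∃ U V : P → 𝒞.C2 α, U 0 = 0 ∧ V 0 = 0 ∧ ∀ᶠ p in 𝓝 (0 : P),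
      (∀ x, (T (U p) x, T (V p) x) + 𝒬 (p, U p, V p) x = 0) ∧ ∀ i, ∀ y ∈ ball (𝒞.c i) (𝒞.r i),
        ContDiffAt ℝ ∞ (fun r : P × E => 𝒞.fn (U r.1) ((𝒞.e i).symm r.2)) (p, y) ∧
        ContDiffAt ℝ ∞ (fun r : P × E => 𝒞.fn (V r.1) ((𝒞.e i).symm r.2)) (p, y) := by
  have hcs := 𝒞.completeSpace_C2 h0
  obtain ⟨U, V, hU0, hV0, h⟩ := core hI (ev 𝒞 α) x₀ hT1 h𝒬 (exists_jet 𝒞 hr hlo) (Th 𝒞)
    (fun i => exists_pull 𝒞 h0 h1 hP i x₀) fun G hG hG' =>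
      hT E X P (ℝ × ℝ) (full D q) 𝒞 α G h0 h1 (full_sm D hq) hG fun p u v e he x hx => by
        rw [full_val hc q p (𝒞.fn_ck u) (𝒞.fn_ck v) he hx, ← hr p u v e he x hx, hG', hT2, hT2,
          ev_apply, ev_apply, add_sub_cancel_right, add_sub_cancel_right]
  exact ⟨U, V, hU0, hV0, h.mono fun p hp => ⟨hp.2.2.1, fun i y hy =>
    ⟨smooth_of_trans 𝒞 (ev 𝒞 α) i hp.1 (hp.2.2.2 i).1 hy,
      smooth_of_trans 𝒞 (ev 𝒞 α) i hp.2.1 (hp.2.2.2 i).2 hy⟩⟩⟩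

end AB

open AB in
theorem ab (hI : StInvB) (hB : StBij) (hO : StOpr) (hP : StPullC2) (hT : StTrans) : StAB := by
  intro E _ _ _ _ X _ _ _ _ _ _ P _ _ _ D q hc hq hcomp hlo
  obtain ⟨𝒞⟩ := Cov.nonempty E X
  obtain ⟨α, h0, h1⟩ : ∃ α : ℝ, 0 < α ∧ α < 1 := ⟨1 / 2, by norm_num, by norm_num⟩
  obtain ⟨x₀⟩ : Nonempty X := inferInstance
  obtain ⟨T, hT1, hT2⟩ := hB E X D 𝒞 α h0 h1 hc x₀
  obtain ⟨𝒬, h𝒬, hr⟩ := hO E X P (ℝ × ℝ) q 𝒞 α h0 h1.le hq hcomp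
  obtain ⟨U, V, hU0, hV0, h⟩ := exists_sol 𝒞 h0 h1.le hI hP hT hc hq hlo hT1 hT2 h𝒬 hr
  obtain ⟨N, hN1, hN2, hN3⟩ := _root_.mem_nhds_iff.1 h
  refine ⟨N, fun p => 𝒞.fn (U p), fun p => 𝒞.fn (V p),
    fun p => -(𝒞.fn (U p) x₀, 𝒞.fn (V p) x₀), hN2, hN3, fun x => ?_,
    jsm_of_cov 𝒞 fun p hp i y hy => ((hN1 hp).2 i y hy).1,
    jsm_of_cov 𝒞 fun p hp i y hy => ((hN1 hp).2 i y hy).2, fun p hp e he x hx => ?_⟩
  · beta_reduce
    rw [hU0, hV0]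
    exact ⟨rfl, rfl⟩
  · have h3 := (hN1 hp).1 x
    rw [hr p (U p) (V p) e he x hx, hT2, hT2, ← Prod.mk_add_mk, add_right_comm] at h3
    exact eq_neg_of_add_eq_zero_left h3

end Vale.Agent.P290Z.Kur
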