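import Vale.Agent.P290Z.K.SpecL

/-!
# P290Z, part III (K): the inverse function theorem with parameters, pull backs, linear algebra
-/

open scoped ContDiff Topology ComplexConjugate
open Set Filter

noncomputable section

namespace Vale.Agent.P290Z.Kur

namespace InvP

variable {P E F : Type} [NormedAddCommGroup P] [NormedSpace ℝ P] [NormedAddCommGroup E]
  [NormedSpace ℝ E] [NormedAddCommGroup F] [NormedSpace ℝ F] {Φ : P × E → F} {q : P × E}

theorem slice (h : ContDiffAt ℝ ∞ Φ q) : ContDiffAt ℝ ∞ (fun y => Φ (q.1, y)) q.2 :=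
  ContDiffAt.comp (g := Φ) q.2 h (contDiffAt_const.prodMk contDiffAt_id)

theorem contDiffAt_Dv (h : ContDiffAt ℝ ∞ Φ q) : ContDiffAt ℝ ∞ (Dv Φ) q :=
  ContDiffAt.fderiv (f := fun (q : P × E) y => Φ (q.1, y)) (g := Prod.snd) (n := ∞)
    (ContDiffAt.comp (g := Φ) (q, q.2) h (contDiffAt_fst.fst.prodMk contDiffAt_snd))
    contDiffAt_snd (by simp)

theorem Dv_apply (h : DifferentiableAt ℝ Φ q) (v : E) : Dv Φ q v = fderiv ℝ Φ q (0, v) :=
  DFunLike.congr_fun (HasFDerivAt.comp (g := Φ) (f := fun y => (q.1, y)) q.2 h.hasFDerivAt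
    (hasFDerivAt_prodMk_right q.1 q.2)).fderiv v

/-- the derivative of `q ↦ (q.1, Φ q)` is invertible -/
theorem exists_equiv [FiniteDimensional ℝ P] [FiniteDimensional ℝ E]
    (h : ContDiffAt ℝ ∞ Φ q) (hb : Function.Bijective (Dv Φ q)) :
    ∃ e : (P × E) ≃L[ℝ] P × F, HasFDerivAt (fun q => (q.1, Φ q)) (e : P × E →L[ℝ] P × F) q := by
  have hd := h.differentiableAt (by simp)
  have h1 : Function.Bijective ((ContinuousLinearMap.fst ℝ P E).prod (fderiv ℝ Φ q)) := by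
    refine ⟨(injective_iff_map_eq_zero _).2 fun u hu => ?_, fun w => ?_⟩
    · have h2 : u.1 = 0 := congrArg Prod.fst hu
      have h3 : fderiv ℝ Φ q (u.1, u.2) = 0 := congrArg Prod.snd hu
      rw [h2, ← Dv_apply hd] at h3
      exact Prod.ext h2 ((injective_iff_map_eq_zero _).1 hb.1 _ h3)
    · obtain ⟨v, hv⟩ := hb.2 (w.2 - fderiv ℝ Φ q (w.1, 0))
      refine ⟨(w.1, v), Prod.ext rfl ?_⟩
      rw [Dv_apply hd, eq_sub_iff_add_eq, ← map_add, Prod.mk_add_mk, zero_add, add_zero] at hv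
      exact hv
  exact ⟨(LinearEquiv.ofBijective ((ContinuousLinearMap.fst ℝ P E).prod (fderiv ℝ Φ q) :
    P × E →ₗ[ℝ] P × F) h1).toContinuousLinearEquiv, hasFDerivAt_fst.prodMk hd.hasFDerivAt⟩

end InvP

theorem invP : StInvP := by
  intro P E F _ _ _ _ _ _ _ _ _ Φ q₀ O hO hΦ hb
  have h0 := hΦ.self_of_nhds
  obtain ⟨e, he⟩ := InvP.exists_equiv h0 hb
  have h1 : ∀ᶠ q in 𝓝 q₀, Function.Bijective (Dv Φ q) := by
    have h2 : range ((↑) : (E ≃L[ℝ] F) → E →L[ℝ] F) ∈ 𝓝 (Dv Φ q₀) :=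
      ContinuousLinearEquiv.isOpen.mem_nhds
        ⟨(LinearEquiv.ofBijective (Dv Φ q₀ : E →ₗ[ℝ] F) hb).toContinuousLinearEquiv, rfl⟩
    filter_upwards [(InvP.contDiffAt_Dv h0).continuousAt h2] with q ⟨e, he⟩
    rw [← he]
    exact e.bijective
  obtain ⟨U, hU, hUo, hq⟩ := mem_nhds_iff.1 (inter_mem hO (hΦ.and h1))
  have h3 : ContDiffAt ℝ ∞ (fun q => (q.1, Φ q)) q₀ := contDiffAt_fst.prodMk h0
  refine ⟨(h3.toOpenPartialHomeomorph _ he (by simp)).restrOpen U hUo,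
    ⟨h3.mem_toOpenPartialHomeomorph_source he _, hq⟩, fun q h => (hU h.2).1, fun _ => rfl,
    fun q h => (hU h.2).2, fun r hr => ?_⟩
  generalize hH : (h3.toOpenPartialHomeomorph _ he (by simp)).restrOpen U hUo = H at hr ⊢
  have h4 : (H : P × E → P × F) = fun q => (q.1, Φ q) := hH ▸ rfl
  have h5 : H.source ⊆ U := hH ▸ inter_subset_right
  have h6 := (hU (h5 (H.map_target hr))).2
  obtain ⟨e', he'⟩ := InvP.exists_equiv h6.1 h6.2
  refine ⟨H.contDiffAt_symm hr (h4 ▸ he') (h4 ▸ contDiffAt_fst.prodMk h6.1), ?_⟩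
  have h7 := H.right_inv hr
  rw [h4] at h7
  exact congrArg Prod.fst h7

theorem pull_sg : StPull := by
  intro P E F _ _ _ _ _ _ lam Φ q hΦ hl
  refine ⟨(ContDiffAt.comp (g := lam) q hl (contDiffAt_fst.prodMk hΦ)).clm_comp
    (InvP.contDiffAt_Dv hΦ), fun u v => ?_⟩
  have h1 := InvP.slice hΦ
  have h2 := ((InvP.slice hl).differentiableAt (by simp)).hasFDerivAt.comp q.2
    (h1.differentiableAt (by simp)).hasFDerivAt
  have h3 := ((h1.fderiv_right (m := ∞) (by simp)).differentiableAt (by simp)).hasFDerivAt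
  have h4 := (h1.isSymmSndFDerivAt (by simp; exact WithTop.coe_le_coe.2 le_top)).eq u v
  have h5 : ∀ u v, Dv (pull lam Φ) q u v = lam (q.1, Φ q)
      (fderiv ℝ (fderiv ℝ fun y => Φ (q.1, y)) q.2 u v) +
      Dv lam (q.1, Φ q) (Dv Φ q u) (Dv Φ q v) := fun u v =>
    DFunLike.congr_fun (DFunLike.congr_fun (h2.clm_comp h3).fderiv u) v
  rw [sg, sg, h5, h5, h4, add_sub_add_left_eq_sub]

theorem lin : StLin := by
  intro L g hL h
  have h1 : ∀ u, L (Complex.I • u) = Complex.I • L u := fun u => by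
    have h2 : ∀ w, dt (L (Complex.I • u)) w = Complex.I * dt (L u) w := fun w => by
      obtain ⟨v, rfl⟩ := hL w
      rw [h, h]
      simp only [dt, Prod.smul_fst, Prod.smul_snd, smul_eq_mul]
      ring
    exact Prod.ext (by simpa [dt] using h2 (0, 1)) (by simpa [dt] using h2 (1, 0))
  have h2 : ∀ (c : ℂ) u, L (c • u) = c • L u := fun c u => by
    rw [← c.re_add_im, add_smul, add_smul, mul_smul, mul_smul, map_add, ← h1]
    simp only [Complex.coe_smul, map_smul]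
  let L' : CC →L[ℂ] CC := ⟨⟨⟨L, L.map_add⟩, h2⟩, L.continuous⟩
  have h3 : L'.det = g := by
    have h4 := h (1, 0) (0, 1)
    rw [ContinuousLinearMap.det, ← LinearMap.det_toMatrix (Module.Basis.finTwoProd ℂ),
      Matrix.det_fin_two]
    simp only [dt, mul_one, mul_zero, sub_zero] at h4
    simp [LinearMap.toMatrix_apply, L', ← h4, mul_comm]
  refine ⟨L', fun _ => rfl, h3, ?_⟩
  have h4 : L.det = Complex.normSq g := by
    rw [← h3, ← Algebra.norm_complex_apply, ContinuousLinearMap.det, ContinuousLinearMap.det,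
      ← LinearMap.det_restrictScalars]
    rfl
  rw [h4, Complex.normSq_pos]
  rintro rfl
  obtain ⟨u, hu⟩ := hL (1, 0)
  obtain ⟨v, hv⟩ := hL (0, 1)
  simpa [hu, hv, dt] using h u v

end Vale.Agent.P290Z.Kur
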