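import Vale.Agent.P290Z.K.SpecG
import Vale.Agent.P290Z.K.Asm.Co

/-!
# P290Z, part III (K), ASM: the family defined by the coordinates
-/

open scoped Manifold ContDiff Topology
open Set Filter

noncomputable section

namespace Vale.Agent.P290Z.Kur

open Vale.Agent.P290 Vale.Agent.P267 Vale.Agent.P290.H686 Vale.Agent.P290.H805
open Vale.Agent.P290.R2.H596
open Vale.Agent.P267.FL (TwoF)

namespace Asm

variable {X : All.K3} {V : Type} [NormedAddCommGroup V] [NormedSpace ℝ V] {sig : V → TwoF X.X}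
  {T₀ : Set V} (C : NNChart X sig T₀)

/-- the domain -/
def dom : Set (V × X.X) := {p | p.2 ∈ C.e.source ∧ (p.1, C.e p.2) ∈ C.H.source}

/-- the coordinates -/
def cf (t : V) (x : X.X) : CC := (C.H (t, C.e x)).2

/-- their inverse -/
def ci (t : V) (w : CC) : X.X := C.e.symm (C.H.symm (t, w)).2

theorem contOn_e : ContinuousOn (fun p : V × X.X => (p.1, C.e p.2)) {p | p.2 ∈ C.e.source} :=
  continuousOn_fst.prodMk (C.e.continuousOn.comp continuousOn_snd fun _ h => h)

theorem isOpen_dom : IsOpen (dom C) :=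
  (contOn_e C).isOpen_inter_preimage (C.e.open_source.preimage continuous_snd) C.H.open_source

variable {C} {t : V} {x : X.X} {w : CC}

theorem H_eq (h : (t, x) ∈ dom C) : C.H (t, C.e x) = (t, cf C t x) :=
  Prod.ext (C.src _ h.2).2.1 rfl

theorem cf_mem (h : (t, x) ∈ dom C) : (t, cf C t x) ∈ C.H.target :=
  H_eq h ▸ C.H.map_source h.2

theorem symm_eq (h : (t, w) ∈ C.H.target) : C.H.symm (t, w) = (t, (C.H.symm (t, w)).2) := by
  have h1 := (C.src _ (C.H.map_target h)).2.1
  rw [C.H.right_inv h] at h1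
  exact Prod.ext h1.symm rfl

theorem symm_mem (h : (t, w) ∈ C.H.target) : (C.H.symm (t, w)).2 ∈ C.e.target :=
  (C.src _ (C.H.map_target h)).1

theorem e_ci (h : (t, w) ∈ C.H.target) : C.e (ci C t w) = (C.H.symm (t, w)).2 :=
  C.e.right_inv (symm_mem h)

theorem ci_mem (h : (t, w) ∈ C.H.target) : (t, ci C t w) ∈ dom C :=
  ⟨C.e.map_target (symm_mem h), by
    change (t, C.e (ci C t w)) ∈ C.H.source
    rw [e_ci h, ← symm_eq h]
    exact C.H.map_target h⟩

theorem ci_cf (h : (t, x) ∈ dom C) : ci C t (cf C t x) = x := by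
  rw [ci, ← H_eq h, C.H.left_inv h.2]
  exact C.e.left_inv h.1

theorem cf_ci (h : (t, w) ∈ C.H.target) : cf C t (ci C t w) = w := by
  rw [cf, e_ci h, ← symm_eq h, C.H.right_inv h]

theorem contAt_ci {q : V × CC} (h : q ∈ C.H.target) :
    ContinuousAt (fun q : V × CC => ci C q.1 q.2) q :=
  ContinuousAt.comp (f := fun q : V × CC => (C.H.symm q).2)
    (C.e.continuousAt_symm (symm_mem (t := q.1) (w := q.2) h)) (C.H.continuousAt_symm h).snd

theorem ev_target (h : (t, w) ∈ C.H.target) : ∀ᶠ u in 𝓝 w, (t, u) ∈ C.H.target :=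
  (Continuous.prodMk_right t).continuousAt.preimage_mem_nhds (C.H.open_target.mem_nhds h)

theorem hasD (h : (t, x) ∈ dom C) : HasFDerivAt (fun y => (C.H (t, y)).2)
    (Dv (fun q => (C.H q).2) (t, C.e x)) (C.e x) :=
  ((InvP.slice (C.src _ h.2).2.2.1.snd).differentiableAt (by simp)).hasFDerivAt

/-- the coordinates are adapted to the form -/
theorem co (ht : t ∈ T₀) (h : (t, x) ∈ dom C) :
    Co (sig t) (cf C t) (ci C t) (C.g (t, cf C t x)) x := by
  have h1 := cf_mem h
  have d1 := hasD h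
  have d2 : HasFDerivAt (fun w => (C.H.symm (t, w)).2)
      (Dv (fun q => (C.H.symm q).2) (t, cf C t x)) (cf C t x) :=
    ((InvP.slice (C.tgt _ h1).1.snd).differentiableAt (by simp)).hasFDerivAt
  have d3 : HasFDerivAt (fun y => (C.H (t, y)).2) (Dv (fun q => (C.H q).2) (t, C.e x))
      (C.H.symm (t, cf C t x)).2 := by
    rw [← e_ci h1, ci_cf h]
    exact d1
  have d4 : HasFDerivAt (fun w : CC => w) (Dv (fun q => (C.H q).2) (t, C.e x) ∘L
      Dv (fun q => (C.H.symm q).2) (t, cf C t x)) (cf C t x) := by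
    refine (HasFDerivAt.comp (cf C t x) d3 d2).congr_of_eventuallyEq ?_
    filter_upwards [ev_target h1] with u hu
    change u = (C.H (t, (C.H.symm (t, u)).2)).2
    rw [← symm_eq hu, C.H.right_inv hu]
  refine ⟨⟨C.e, C.mem, h.1, _, _, d1.congr_of_eventuallyEq ?_, d2.congr_of_eventuallyEq ?_,
    fun u => DFunLike.congr_fun (d4.unique (hasFDerivAt_id _)) u, fun u v => ?_⟩, ci_cf h,
    ContinuousAt.comp (f := fun w => (t, w)) (contAt_ci h1)
      (Continuous.prodMk_right t).continuousAt, (C.tgt _ h1).2.2.1⟩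
  · filter_upwards [C.e.open_target.mem_nhds (C.e.map_source h.1)] with y hy
    rw [cf, C.e.right_inv hy]
  · filter_upwards [ev_target h1] with u hu using e_ci hu
  · rw [← H_eq h]
    exact (C.src _ h.2).2.2.2.2 ht u v

theorem trans {C' : NNChart X sig T₀} (ht : t ∈ T₀) (h : (t, w) ∈ C.H.target)
    (h' : (t, ci C t w) ∈ dom C') : ∃ L : CC →L[ℂ] CC,
      HasFDerivAt (fun u => cf C' t (ci C t u)) L w ∧
        C.g (t, w) = C'.g (t, cf C' t (ci C t w)) * L.det := by
  have h1 := (co ht (ci_mem h)).trans (co ht h')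
  rwa [cf_ci h] at h1

theorem sm {e : FL.Ch X.X} (he : e ∈ atlas FL.C2 X.X) (hx : x ∈ e.source) (h : (t, x) ∈ dom C) :
    ∀ᶠ q : V × FL.C2 in 𝓝 (t, e x), ContDiffAt ℝ ∞ (fun q : V × FL.C2 =>
      cf C q.1 (e.symm q.2)) q := by
  have c1 : ContinuousAt (fun q : V × FL.C2 => (q.1, e.symm q.2)) (t, e x) :=
    continuousAt_fst.prodMk (ContinuousAt.comp (f := Prod.snd)
      (e.continuousAt_symm (e.map_source hx)) continuousAt_snd)
  have m1 : dom C ∈ 𝓝 (t, e.symm (e x)) := by
    rw [e.left_inv hx]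
    exact (isOpen_dom C).mem_nhds h
  filter_upwards [c1.preimage_mem_nhds m1, continuousAt_snd.preimage_mem_nhds
    (e.open_target.mem_nhds (e.map_source hx))] with q h1 h2
  have h3 := trans_contDiffAt he C.mem (e.map_target h2) h1.1 (n := ∞)
  rw [e.right_inv h2] at h3
  exact (ContDiffAt.comp (f := fun q : V × FL.C2 => (q.1, C.e (e.symm q.2))) q
    (C.src _ h1.2).2.2.1 (contDiffAt_fst.prodMk (h3.comp q contDiffAt_snd))).snd

theorem sm' {e : FL.Ch X.X} (he : e ∈ atlas FL.C2 X.X) (hx : x ∈ e.source) (h : (t, x) ∈ dom C) :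
    ∀ᶠ q : V × CC in 𝓝 (t, cf C t x), ContDiffAt ℝ ∞ (fun q : V × CC => e (ci C q.1 q.2)) q := by
  have m1 : e.source ∈ 𝓝 (ci C t (cf C t x)) := by
    rw [ci_cf h]
    exact e.open_source.mem_nhds hx
  filter_upwards [(contAt_ci (cf_mem h)).preimage_mem_nhds m1,
    C.H.open_target.mem_nhds (cf_mem h)] with q h1 h2
  have h3 := trans_contDiffAt C.mem he (ci_mem (t := q.1) (w := q.2) h2).1 h1 (n := ∞)
  rw [e_ci (t := q.1) (w := q.2) h2] at h3
  exact ContDiffAt.comp (f := fun q : V × CC => (C.H.symm q).2) q h3 (C.tgt _ h2).1.snd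

variable (C) in
/-- the trivialisation over `T` -/
def triv (T : Set V) : OpenPartialHomeomorph (T × X.X) (T × All.C2) where
  toFun a := (a.1, cf C a.1 a.2)
  invFun b := (b.1, ci C b.1 b.2)
  source := {a | ((a.1 : V), a.2) ∈ dom C}
  target := {b | ((b.1 : V), b.2) ∈ C.H.target}
  map_source' _ h := cf_mem h
  map_target' _ h := ci_mem h
  left_inv' _ h := Prod.ext rfl (ci_cf h)
  right_inv' _ h := Prod.ext rfl (cf_ci h)
  open_source := (isOpen_dom C).preimage (continuous_subtype_val.prodMap continuous_id)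
  open_target := C.H.open_target.preimage (continuous_subtype_val.prodMap continuous_id)
  continuousOn_toFun := continuousOn_fst.prodMk (C.H.continuousOn.comp ((contOn_e C).comp
    (continuous_subtype_val.prodMap continuous_id).continuousOn fun _ h => h.1) fun _ h => h.2).snd
  continuousOn_invFun := continuousOn_fst.prodMk fun _ h =>
    (ContinuousAt.comp (f := Prod.map Subtype.val id) (contAt_ci h)
      (continuous_subtype_val.prodMap continuous_id).continuousAt).continuousWithinAt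

variable {T : Set V} (hT : T ⊆ T₀) (ch : T × X.X → NNChart X sig T₀)
  (hc : ∀ a : T × X.X, ((a.1 : V), a.2) ∈ dom (ch a))

/-- the family -/
def fam : Family T (T × X.X) where
  p := Prod.fst
  triv a := triv (ch a) T
  mem := hc
  fst _ _ _ := rfl
  hol a a' t v h h' := by
    have o1 : IsOpen ((fun u => (t, u)) ⁻¹' ((triv (ch a) T).target ∩
        (triv (ch a) T).symm ⁻¹' (triv (ch a') T).source)) :=
      ((triv (ch a) T).isOpen_inter_preimage_symm (triv (ch a') T).open_source).preimage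
        (Continuous.prodMk_right t)
    refine (P268.analyticAt_of_differentiableOn o1 (fun u hu => ?_) ⟨h, h'⟩).contDiffAt
    obtain ⟨L, h1, -⟩ := trans (hT t.2) hu.1 hu.2
    exact h1.differentiableAt.differentiableWithinAt

/-- the family with its two-form -/
def pre : MPre X T where
  F := fam hT ch hc
  p_eq _ := rfl
  vol a q := (ch a).g (q.1, q.2)
  rel a t w h := by
    have h1 := (ch a).tgt _ h
    refine ⟨ContinuousAt.comp (f := Prod.map Subtype.val id) h1.2.1.continuousAt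
      (continuous_subtype_val.prodMap continuous_id).continuousAt, h1.2.2.2 (hT t.2), h1.2.2.1,
      fun a' h' => ?_⟩
    obtain ⟨L, h2, h3⟩ := trans (hT t.2) h h'
    exact h3.trans (congrArg _ (congrArg ContinuousLinearMap.det h2.fderiv.symm))

theorem phi_sm : ContDiff ℝ ∞ fun z : CC => H445.φ z := H445.φ.contDiff.restrict_scalars ℝ

theorem phi_sm' : ContDiff ℝ ∞ fun z : FL.C2 => H445.φ.symm z :=
  H445.φ.symm.contDiff.restrict_scalars ℝ

theorem isSm (t : T) : IsSm ((pre hT ch hc).homeo t) := by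
  refine ⟨((pre hT ch hc).homeo t).continuous, ?_⟩
  rintro e he _ ⟨_, ⟨z, rfl⟩, rfl⟩ x hx hx'
  exact phi_sm.contDiffAt.comp _
    (InvP.slice (q := ((t : V), e x)) (sm (C := ch z.val) he hx hx').self_of_nhds)

theorem isSm' (t : T) : IsSm ((pre hT ch hc).homeo t).symm := by
  refine ⟨((pre hT ch hc).homeo t).symm.continuous, ?_⟩
  rintro _ ⟨_, ⟨z, rfl⟩, rfl⟩ e he y hy hy'
  obtain ⟨x, rfl⟩ := ((pre hT ch hc).homeo t).surjective y
  have h1 : ((t : V), x) ∈ dom (ch z.val) := hy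
  have h2 : ContDiffAt ℝ ∞ (fun w => e (ci (ch z.val) t w)) (cf (ch z.val) t x) :=
    InvP.slice (q := ((t : V), cf (ch z.val) t x)) (sm' he hy' h1).self_of_nhds
  have h3 : H445.φ.symm (H445.φ (cf (ch z.val) t x)) = cf (ch z.val) t x :=
    H445.φ.symm_apply_apply _
  rw [← h3] at h2
  refine (h2.comp _ phi_sm'.contDiffAt).congr_of_eventuallyEq ?_
  filter_upwards [(H445.toFL (fibChart (fam hT ch hc) t z)).open_target.mem_nhds
    ((H445.toFL (fibChart (fam hT ch hc) t z)).map_source hy)] with u hu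
  exact congrArg (fun a : T × X.X => e a.2) (fibChart_symm_val (fam hT ch hc) t z hu)

theorem rep_eq (t : T) (x : X.X) : rep ((pre hT ch hc).homeo t) (ch (t, x)).e
    (H445.toFL (fibChart (fam hT ch hc) t ((pre hT ch hc).homeo t x))) =ᶠ[𝓝 ((ch (t, x)).e x)]
      fun y => H445.φ ((ch (t, x)).H (t, y)).2 := by
  filter_upwards [(ch (t, x)).e.open_target.mem_nhds ((ch (t, x)).e.map_source (hc (t, x)).1)]
    with y hy
  change H445.φ (cf (ch (t, x)) t ((ch (t, x)).e.symm y)) = _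
  rw [cf, (ch (t, x)).e.right_inv hy]

theorem mem_atlas (t : T) (z : Fib (fam hT ch hc) t) :
    fibChart (fam hT ch hc) t z ∈ atlas CC ((pre hT ch hc).k3 t).X := ⟨z, rfl⟩

theorem diffeo (t : T) : IsDiffeo ((pre hT ch hc).homeo t) := by
  refine ⟨isSm hT ch hc t, isSm' hT ch hc t, fun x => det_Df_pos (isSm hT ch hc t) (ch (t, x)).mem
    (H445.mem_atlas_toFL _ (mem_atlas hT ch hc t ((pre hT ch hc).homeo t x))) (hc (t, x)).1
    (hc (t, x)) ?_⟩
  exact ((ch (t, x)).src _ (hc (t, x)).2).2.2.2.1.trans_eq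
    (congrArg ContinuousLinearMap.det (rep_eq hT ch hc t x).fderiv_eq.symm)

theorem sig_eq (t : T) : sig t = pb2 ((pre hT ch hc).homeo t) (omF ((pre hT ch hc).k3 t)) := by
  refine eq_of_E2 fun x => ⟨(ch (t, x)).e, (ch (t, x)).mem, (hc (t, x)).1, fun u v => ?_⟩
  have h1 : cf (ch (t, x)) t x ∈ (fibChart (fam hT ch hc) t ((pre hT ch hc).homeo t x)).target :=
    cf_mem (hc (t, x))
  have h3 := (((H445.φ : CC →L[ℂ] FL.C2).restrictScalars ℝ).hasFDerivAt.comp _
    (hasD (hc (t, x)))).congr_of_eventuallyEq (rep_eq hT ch hc t x)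
  refine (((ch (t, x)).src _ (hc (t, x)).2).2.2.2.2 (hT t.2) u v).trans
    (Eq.trans ?_ (E2_pb (isSm hT ch hc t) (ch (t, x)).mem
      (mem_atlas hT ch hc t ((pre hT ch hc).homeo t x)) (hc (t, x)).1 (hc (t, x)) h3 u v).symm)
  exact congrArg (· * _) ((congrArg (ch (t, x)).g (H_eq (hc (t, x)))).trans
    ((pre hT ch hc).fvol_eq t _ h1).symm)

theorem hol (t : T) (h : sig t = omF X) (x : X.X) : All.Hol ((pre hT ch hc).homeo t) x := by
  obtain ⟨L, h1, -⟩ := (co_chart (chart_mem_atlas CC x) (mem_chart_source CC x)).trans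
    (h ▸ co (hT t.2) (hc (t, x)))
  exact ⟨((pre hT ch hc).homeo t).continuous.continuousAt, h1.differentiableAt⟩

theorem hol' (t : T) (h : sig t = omF X) (y : ((pre hT ch hc).k3 t).X) :
    All.Hol ((pre hT ch hc).homeo t).symm y := by
  obtain ⟨x, rfl⟩ := ((pre hT ch hc).homeo t).surjective y
  obtain ⟨L, h1, -⟩ := (h ▸ co (hT t.2) (hc (t, x))).trans
    (co_chart (chart_mem_atlas CC x) (mem_chart_source CC x))
  refine ⟨((pre hT ch hc).homeo t).symm.continuous.continuousAt,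
    h1.differentiableAt.congr_of_eventuallyEq ?_⟩
  filter_upwards [ev_target (cf_mem (hc (t, x)))] with u hu
  exact congrArg (fun a : T × X.X => chartAt CC x a.2)
    (fibChart_symm_val (fam hT ch hc) t ((pre hT ch hc).homeo t x) hu)

end Asm

open Asm

theorem asm : StAsm := by
  intro X V _ _ _ sig N T₀ v₀ hN h0 h1 hs h2 h3
  obtain ⟨u, v, hu, -, h4, h5, h6⟩ := generalized_tube_lemma (isCompact_singleton (x := v₀))
    (isCompact_univ (X := X.X)) (isOpen_iUnion fun C : NNChart X sig T₀ => isOpen_dom C) (by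
      rintro ⟨_, x⟩ ⟨rfl, -⟩
      exact mem_iUnion.2 (h3 x))
  obtain ⟨r, hr, h7⟩ := Metric.isOpen_iff.1 (hu.inter hN) v₀ ⟨h4 rfl, h0⟩
  have h8 : ∀ t ∈ {t | t ∈ T₀ ∧ ‖t - v₀‖ < r}, t ∈ u ∩ N := fun t ht =>
    h7 (mem_ball_iff_norm.2 ht.2)
  choose ch hc using fun a : {t | t ∈ T₀ ∧ ‖t - v₀‖ < r} × X.X =>
    mem_iUnion.1 (h6 (mk_mem_prod (h8 _ a.1.2).1 (h5 (mem_univ a.2))))
  have hT : {t | t ∈ T₀ ∧ ‖t - v₀‖ < r} ⊆ T₀ := fun _ h => h.1
  refine ⟨r, hr,
    { toMPre := pre hT ch hc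
      sm := fun a t x h e he hx => ⟨_, sm he hx h, Eventually.of_forall fun _ => rfl⟩
      sm' := fun a t x h e he hx => ⟨_, sm' he hx h, Eventually.of_forall fun _ => rfl⟩
      diffeo := diffeo hT ch hc
      sig := sig
      N := N
      isOpen := hN
      sub := fun t ht => (h8 t ht).2
      smFam := hs
      sig_eq := sig_eq hT ch hc }, ⟨h1, by rwa [sub_self, norm_zero]⟩, rfl, rfl,
    hol hT ch hc _ h2, hol' hT ch hc _ h2⟩

end Vale.Agent.P290Z.Kur
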