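import Vale.Agent.P290Z.K.SpecG
import Vale.Agent.P290Z.K.InvP

/-!
# P290Z, part III (K): inverse functions in Banach spaces, jets, the linear isomorphism
-/

open scoped Manifold ContDiff Topology NNReal
open Set Filter Metric

set_option maxSynthPendingDepth 3
set_option linter.unusedSectionVars false

noncomputable section

namespace Vale.Agent.P290Z.Kur

open Vale.Agent.P272.K Vale.Agent.P272.K.LIN Vale.Agent.P290.H158 Vale.Agent.P267.H661

namespace Bij

section banach

variable {P E F : Type*} [NormedAddCommGroup P] [NormedSpace ℝ P] [NormedAddCommGroup E]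
  [NormedSpace ℝ E] [NormedAddCommGroup F] [NormedSpace ℝ F] [CompleteSpace E] [CompleteSpace F]

theorem exists_equiv {T : E →L[ℝ] F} (h : Function.Bijective T) :
    ∃ e : E ≃L[ℝ] F, (e : E →L[ℝ] F) = T :=
  ⟨ContinuousLinearEquiv.ofBijective T (LinearMap.ker_eq_bot.2 h.1) (LinearMap.range_eq_top.2 h.2),
    ContinuousLinearEquiv.coe_ofBijective _ _ _⟩

/-- the Fredholm alternative -/
theorem fredholm {R K : E →L[ℝ] F} (hR : Function.Bijective R) (hK : IsCompactOperator K)
    (h : ∀ v, R v = K v → v = 0) : Function.Bijective (K - R) := by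
  obtain ⟨e, rfl⟩ := exists_equiv hR
  have hS : IsCompactOperator (K.comp (e.symm : F →L[ℝ] E)) := hK.comp_clm _
  rcases hS.hasEigenvalue_or_mem_resolventSet one_ne_zero with h1 | h1
  · obtain ⟨g, hg⟩ := h1.exists_hasEigenvector
    have h2 : K (e.symm g) = g := by simpa using hg.apply_eq_smul
    exact (hg.2 (by simpa using h (e.symm g) (by simp [h2]))).elim
  · rw [spectrum.mem_resolventSet_iff, ContinuousLinearMap.isUnit_iff_bijective] at h1
    convert (neg_bijective.comp h1).comp e.bijective using 1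
    funext v
    simp

end banach

variable {E : Type} [NormedAddCommGroup E] [NormedSpace ℝ E]

theorem jet_quad (a : ℝ) (l : E →L[ℝ] ℝ) {B : E →L[ℝ] E →L[ℝ] ℝ} (hB : ∀ v w, B v w = B w v)
    (c : E) : jet (fun y => a + l (y - c) + (1 / 2 : ℝ) * B (y - c) (y - c)) c = (a, l, B) := by
  have h0 : ∀ y : E, HasFDerivAt (fun y => y - c) (ContinuousLinearMap.id ℝ E) y :=
    fun y => (hasFDerivAt_id y).sub_const c
  have h1 : fderiv ℝ (fun y => a + l (y - c) + (1 / 2 : ℝ) * B (y - c) (y - c))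
      = fun y => l + B (y - c) := funext fun y => by
    refine (((l.hasFDerivAt.comp y (h0 y)).const_add a).fun_add
      ((B.hasFDerivAt_of_bilinear (h0 y) (h0 y)).const_mul (1 / 2 : ℝ))).fderiv.trans ?_
    ext v
    simp [hB v]
    ring
  have h2 := ((B.hasFDerivAt.comp c (h0 c)).const_add l).fderiv
  simp only [jet, h1, sub_self, map_zero, add_zero, mul_zero]
  exact congrArg (fun t => (a, l, t)) h2

variable [FiniteDimensional ℝ E] {X : Type} [TopologicalSpace X] [ChartedSpace E X]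

/-- the strong maximum principle -/
theorem const_of_nonneg [CompactSpace X] [PreconnectedSpace X] (D : LOp E X) (hc : ∀ x, D.c x = 0)
    {u : X → ℝ} (hu : CkFn E 2 u) (hP : ∀ x, 0 ≤ D.Q u x) (x y : X) : u x = u y := by
  have hcu := ckFn_continuous hu
  obtain ⟨x0, -, hx0⟩ := isCompact_univ.exists_isMaxOn ⟨x, mem_univ x⟩ hcu.continuousOn
  have hcl : IsClopen {x | u x = u x0} := by
    refine ⟨isClosed_eq hcu continuous_const, isOpen_iff_mem_nhds.2 fun z hz => ?_⟩
    have he := chart_mem_atlas E z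
    have hs := mem_chart_source E z
    generalize chartAt E z = e at he hs
    have key := smp_open (u := fun y => u (e.symm y)) e.open_target
      (fun y hy => hu.at_target he hy) (fun y hy => (D.A.smooth e he y hy).continuousAt)
      (fun y hy => (D.bsmooth e he y hy).continuousAt) (D.A.pos e he) (fun y hy => by
        have h3 := hP (e.symm y)
        rwa [D.eq u hu e he _ (e.map_target hy), D.A.eq u hu e he _ (e.map_target hy), hc,
          zero_mul, add_zero, e.right_inv hy] at h3) (M := u x0) (fun y _ => hx0 (mem_univ _))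
      (e.map_source hs) (by rw [e.left_inv hs]; exact hz)
    filter_upwards [(e.continuousAt hs).eventually key, e.open_source.mem_nhds hs] with w hw hws
    rwa [e.left_inv hws] at hw
  have h2 := eq_univ_iff_forall.1 (hcl.eq_univ ⟨x0, rfl⟩)
  exact (h2 x).trans (h2 y).symm

theorem eq_zero [CompactSpace X] [PreconnectedSpace X] (D : LOp E X) (hc : ∀ x, D.c x = 0)
    {u : X → ℝ} (hu : CkFn E 2 u) {x₀ : X} (h : ∀ x, D.Q u x + u x₀ = 0) (h0 : u x₀ ≤ 0) (x : X) :
    u x = 0 := by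
  have h1 : u = fun _ => u x₀ :=
    funext fun x => const_of_nonneg D hc hu (fun x => by linarith [h x]) x x₀
  have h2 := h x₀
  rw [D.eq u hu _ (chart_mem_atlas E x₀) _ (mem_chart_source E x₀),
    D.A.eq u hu _ (chart_mem_atlas E x₀) _ (mem_chart_source E x₀), hc, h1] at h2
  rw [h1]
  simpa using h2

end Bij

theorem invB : StInvB := by
  intro P E F _ _ _ _ _ _ _ _ _ Φ q₀ hΦ hb
  have key : ∀ q, Function.Bijective (Dv Φ q) → ∃ e : (P × E) ≃L[ℝ] P × F,
      HasFDerivAt (fun q => (q.1, Φ q)) (e : P × E →L[ℝ] P × F) q := fun q hb => by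
    have hd : DifferentiableAt ℝ Φ q := hΦ.differentiable (by simp) q
    have h1 : Function.Bijective ((ContinuousLinearMap.fst ℝ P E).prod (fderiv ℝ Φ q)) := by
      refine ⟨(injective_iff_map_eq_zero _).2 fun u hu => ?_, fun w => ?_⟩
      · have h2 : u.1 = 0 := congrArg Prod.fst hu
        have h3 : fderiv ℝ Φ q (u.1, u.2) = 0 := congrArg Prod.snd hu
        rw [h2, ← InvP.Dv_apply hd] at h3
        exact Prod.ext h2 ((injective_iff_map_eq_zero _).1 hb.1 _ h3)
      · obtain ⟨v, hv⟩ := hb.2 (w.2 - fderiv ℝ Φ q (w.1, 0))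
        refine ⟨(w.1, v), Prod.ext rfl ?_⟩
        rw [InvP.Dv_apply hd, eq_sub_iff_add_eq, ← map_add, Prod.mk_add_mk, zero_add,
          add_zero] at hv
        exact hv
    obtain ⟨e, he⟩ := Bij.exists_equiv h1
    exact ⟨e, he ▸ hasFDerivAt_fst.prodMk hd.hasFDerivAt⟩
  obtain ⟨e, he⟩ := key q₀ hb
  have h1 : ∀ᶠ q in 𝓝 q₀, Function.Bijective (Dv Φ q) := by
    have h2 : range ((↑) : (E ≃L[ℝ] F) → E →L[ℝ] F) ∈ 𝓝 (Dv Φ q₀) :=
      ContinuousLinearEquiv.isOpen.mem_nhds (Bij.exists_equiv hb)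
    filter_upwards [(InvP.contDiffAt_Dv hΦ.contDiffAt).continuousAt h2] with q ⟨e, he⟩
    rw [← he]
    exact e.bijective
  obtain ⟨U, hU, hUo, hq⟩ := _root_.mem_nhds_iff.1 h1
  have h3 : ContDiff ℝ ∞ fun q => (q.1, Φ q) := contDiff_fst.prodMk hΦ
  refine ⟨(h3.contDiffAt.toOpenPartialHomeomorph _ he (by simp)).restrOpen U hUo,
    ⟨h3.contDiffAt.mem_toOpenPartialHomeomorph_source he _, hq⟩, fun _ => rfl, fun r hr => ?_⟩
  generalize hH : (h3.contDiffAt.toOpenPartialHomeomorph _ he (by simp)).restrOpen U hUo = H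
    at hr ⊢
  have h4 : (H : P × E → P × F) = fun q => (q.1, Φ q) := hH ▸ rfl
  have h5 : H.source ⊆ U := hH ▸ inter_subset_right
  obtain ⟨e', he'⟩ := key _ (hU (h5 (H.map_target hr)))
  exact H.contDiffAt_symm hr (h4 ▸ he') (h4 ▸ h3.contDiffAt)

theorem jetS : StJet := by
  intro E _ _ _ X _ _ _ _ u x hu
  have := FiniteDimensional.proper_real E
  have he := chart_mem_atlas E x
  have hx := mem_chart_source E x
  generalize chartAt E x = e at he hx
  obtain ⟨r, hr, hs⟩ := nhds_basis_closedBall.mem_iff.1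
    (e.open_target.mem_nhds (e.map_source hx))
  let β : ContDiffBump (e x) := ⟨r / 2, r, half_pos hr, half_lt_self hr⟩
  obtain ⟨p, hp, hj⟩ : ∃ p : E → ℝ, ContDiff ℝ ∞ p ∧
      jet p (e x) = jet (fun y => u (e.symm y)) (e x) :=
    ⟨_, by fun_prop, Bij.jet_quad _ _ ((hu e he x hx).isSymmSndFDerivAt (by simp)).eq _⟩
  have h1 : CkFn E ∞ (ext0 e fun y => β y * p y) :=
    ext0_ck le_rfl he (isCompact_closedBall _ r) hs (fun y hy => by
      rw [β.zero_of_le_dist (not_le.1 hy).le, zero_mul]) fun y _ => (β.contDiff.mul hp).contDiffAt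
  refine ⟨_, h1, fun e' he' hx' => congrArg Prod.snd ?_⟩
  rw [jet_change (h1.of_le two_le_inf) he he' hx hx', jet_change hu he he' hx hx', ← hj]
  refine congrArg _ (jet_congr ?_)
  filter_upwards [e.open_target.mem_nhds (e.map_source hx), β.eventuallyEq_one] with y a b
  rw [ext0_of_mem (e.map_target a), e.right_inv a, b, Pi.one_apply, one_mul]

theorem bij : StBij := by
  intro E _ _ _ X _ _ _ _ _ _ D 𝒞 α h0 h1 hc x₀
  have := 𝒞.completeSpace_C2 h0
  have hL : ∀ v x, D.L 𝒞 h0 h1.le v x = D.Q (𝒞.fn v) x := fun v x => by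
    rw [D.L_apply, LOp.B0, hc]
    ring
  let M : Hol (𝒞.w α) ℝ →L[ℝ] Hol (𝒞.w α) ℝ :=
    ContinuousLinearMap.id ℝ _ + (Hol.evalL x₀).smulRight (Hol.const 1)
  have hT : ∀ v x, (M.comp (𝒞.incl α) - (𝒞.incl α - D.L 𝒞 h0 h1.le)) v x
      = D.Q (𝒞.fn v) x + 𝒞.fn v x₀ := fun v x => by
    rw [← hL]
    change 𝒞.fn v x + 𝒞.fn v x₀ * 1 - (𝒞.fn v x - D.L 𝒞 h0 h1.le v x) = _
    ring
  refine ⟨_, Bij.fredholm ?_ ((isCompactOperator_incl 𝒞 h0 h1).clm_comp M) fun v hv => ?_, hT⟩
  · have h2 := linear_bijective h0 h1 (D.ell 𝒞 h0 h1.le) 1 one_pos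
    simp only [one_smul] at h2
    exact h2
  · have key : ∀ v : 𝒞.C2 α, (M.comp (𝒞.incl α) - (𝒞.incl α - D.L 𝒞 h0 h1.le)) v = 0 →
        𝒞.fn v x₀ ≤ 0 → v = 0 := fun v h h' => 𝒞.C2_ext (Bij.eq_zero D hc (𝒞.fn_ck v)
          (fun x => by rw [← hT, h]; rfl) h')
    have h2 : (M.comp (𝒞.incl α) - (𝒞.incl α - D.L 𝒞 h0 h1.le)) v = 0 := sub_eq_zero.2 hv.symm
    rcases le_total (𝒞.fn v x₀) 0 with h3 | h3
    · exact key v h2 h3
    · exact neg_eq_zero.1 (key (-v) (by rw [map_neg, h2, neg_zero]) (neg_nonpos.2 h3))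

end Vale.Agent.P290Z.Kur
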