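import Vale.Agent.P290Z.K.SpecL

/-!
# P290Z, part III (K): holomorphic functions and holomorphic coordinates with parameters
-/

open scoped ContDiff Topology ComplexConjugate
open Set Filter

noncomputable section

namespace Vale.Agent.P290Z.Kur

namespace NNP

section

variable {P E F G : Type} [NormedAddCommGroup P] [NormedSpace ℝ P] [NormedAddCommGroup E]
  [NormedSpace ℝ E] [NormedAddCommGroup F] [NormedSpace ℝ F] [NormedAddCommGroup G]
  [NormedSpace ℝ G]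

theorem slice {f : P × E → F} {q : P × E} (h : ContDiffAt ℝ ∞ f q) :
    ContDiffAt ℝ ∞ (fun y => f (q.1, y)) q.2 :=
  ContDiffAt.comp (f := fun y => (q.1, y)) q.2 h (contDiffAt_const.prodMk contDiffAt_id)

theorem slice' {f : P × E → F} {q : P × E} (h : ContDiffAt ℝ ∞ f q) :
    HasFDerivAt (fun y => f (q.1, y)) (Dv f q) q.2 :=
  ((slice h).differentiableAt (by simp)).hasFDerivAt

theorem Dv_comp {f : P × F → G} {Φ : P × E → F} {q : P × E} (hΦ : ContDiffAt ℝ ∞ Φ q)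
    (hf : ContDiffAt ℝ ∞ f (q.1, Φ q)) (u : E) :
    Dv (fun q => f (q.1, Φ q)) q u = Dv f (q.1, Φ q) (Dv Φ q u) :=
  congrArg (fun T : E →L[ℝ] G => T u)
    (HasFDerivAt.comp (g := fun y => f (q.1, y)) q.2 (slice' hf) (slice' hΦ)).fderiv

omit [NormedSpace ℝ P] in
theorem Dv_congr {f g : P × E → F} {q : P × E} (h : ∀ᶠ z in 𝓝 q, z.1 = q.1 → f z = g z) :
    Dv f q = Dv g q := by
  have h1 : ContinuousAt (fun y : E => (q.1, y)) q.2 := by fun_prop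
  exact Filter.EventuallyEq.fderiv_eq ((h1.eventually h).mono fun y hy => hy rfl)

omit [NormedAddCommGroup P] [NormedSpace ℝ P] in
theorem Dv_snd (q : P × E) (u : E) : Dv (fun q : P × E => q.2) q u = u :=
  congrArg (fun T : E →L[ℝ] E => T u) (hasFDerivAt_id (𝕜 := ℝ) q.2).fderiv

theorem contDiffAt_Dv {f : P × E → F} {q : P × E} (h : ContDiffAt ℝ ∞ f q) :
    ContDiffAt ℝ ∞ (Dv f) q :=
  ContDiffAt.fderiv (f := fun (q : P × E) y => f (q.1, y)) (g := Prod.snd) (n := ∞)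
    (ContDiffAt.comp (f := fun z : (P × E) × E => (z.1.1, z.2)) (q, q.2) h (by fun_prop))
    contDiffAt_snd (by simp)

variable [FiniteDimensional ℝ P] [FiniteDimensional ℝ E] [FiniteDimensional ℝ F]

theorem diffeo (hI : StInvP) {Φ : P × E → F} {q₀ : P × E}
    (h : ∀ᶠ q in 𝓝 q₀, ContDiffAt ℝ ∞ Φ q) (hb : Function.Bijective (Dv Φ q₀)) :
    ∃ K : P × F → P × E, K (q₀.1, Φ q₀) = q₀ ∧ Tendsto K (𝓝 (q₀.1, Φ q₀)) (𝓝 q₀) ∧
      (∀ᶠ q in 𝓝 q₀, K (q.1, Φ q) = q) ∧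
      (∀ᶠ r in 𝓝 (q₀.1, Φ q₀), ((K r).1, Φ (K r)) = r ∧ Function.Surjective (Dv Φ (K r))) ∧
      ∀ f : P × E → ℂ, (∀ᶠ q in 𝓝 q₀, ContDiffAt ℝ ∞ f q) → ∀ᶠ r in 𝓝 (q₀.1, Φ q₀),
        ContDiffAt ℝ ∞ (fun r => f (K r)) r ∧
          ∀ u, Dv f (K r) u = Dv (fun r => f (K r)) r (Dv Φ (K r) u) := by
  obtain ⟨H, h1, -, h2, h3, h4⟩ := hI P E F Φ q₀ univ univ_mem h hb
  have h5 : H.target ∈ 𝓝 (q₀.1, Φ q₀) := h2 q₀ ▸ H.open_target.mem_nhds (H.map_source h1)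
  have h6 : Tendsto H.symm (𝓝 (q₀.1, Φ q₀)) (𝓝 q₀) := h2 q₀ ▸ H.tendsto_symm h1
  have h7 : ∀ q ∈ H.source, ∀ᶠ z in 𝓝 q, H.symm (z.1, Φ z) = z := fun q hq =>
    (H.eventually_left_inverse hq).mono fun z hz => h2 z ▸ hz
  refine ⟨H.symm, (h7 q₀ h1).self_of_nhds, h6, h7 q₀ h1, ?_, fun f hf => ?_⟩
  · filter_upwards [h5] with r hr
    exact ⟨h2 _ ▸ H.right_inv hr, (h3 _ (H.map_target hr)).2.2⟩
  · filter_upwards [h5, h6.eventually hf] with r hr a1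
    have a2 : ContDiffAt ℝ ∞ (fun r => f (H.symm r)) r := a1.comp r (h4 r hr).1
    have a3 : ((H.symm r).1, Φ (H.symm r)) = r := h2 _ ▸ H.right_inv hr
    refine ⟨a2, fun u => ?_⟩
    have a4 := Dv_comp (h3 _ (H.map_target hr)).1 (a3.symm ▸ a2) u
    rw [a3] at a4
    rw [← a4, Dv_congr ((h7 _ (H.map_target hr)).mono fun z hz _ => congrArg f hz)]

end

theorem null_comp {E F : Type} {σ : F → F → ℂ} {τ : E → E → ℂ} {L : E → F}
    (h : ∀ u v, τ u v = σ (L u) (L v)) (hσ : Null σ) : Null τ := fun a b c d => by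
  simp only [h]
  exact hσ _ _ _ _

theorem null_of {E F : Type} {σ : F → F → ℂ} {τ : E → E → ℂ} {L : E → F}
    (h : ∀ u v, τ u v = σ (L u) (L v)) (hL : Function.Surjective L) (hτ : Null τ) : Null σ :=
  hL.forall₂.2 fun a b => hL.forall₂.2 fun c d => by
    simp only [← h]
    exact hτ _ _ _ _

theorem kills_comp {E F : Type} {σ : F → F → ℂ} {τ : E → E → ℂ} {L : E → F} {l : F → ℂ}
    {m : E → ℂ} (h : ∀ u v, τ u v = σ (L u) (L v)) (h' : ∀ u, m u = l (L u)) (hσ : Kills l σ) :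
    Kills m τ := fun a b c => by
  simp only [h, h']
  exact hσ _ _ _

theorem kills_of {E F : Type} {σ : F → F → ℂ} {τ : E → E → ℂ} {L : E → F} {l : F → ℂ}
    {m : E → ℂ} (h : ∀ u v, τ u v = σ (L u) (L v)) (h' : ∀ u, m u = l (L u))
    (hL : Function.Surjective L) (hτ : Kills m τ) : Kills l σ :=
  hL.forall₃.2 fun a b c => by
    simp only [← h, ← h']
    exact hτ _ _ _

theorem kills_mul {E : Type} {σ : E → E → ℂ} {l : E → ℂ} (h : Kills l σ) (c : ℂ) :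
    Kills (fun u => c * l u) σ := fun u v w => by
  linear_combination c * h u v w

theorem eq_dt {τ : CC → CC → ℂ} (h₁ : Kills (fun u => u.1) τ) (h₂ : Kills (fun u => u.2) τ)
    (u v : CC) : τ u v = τ (1, 0) (0, 1) * dt u v := by
  have a1 := h₁ u v (1, 0)
  have a2 := h₂ u (1, 0) (0, 1)
  have a3 := h₂ v (1, 0) (0, 1)
  simp only [dt] at *
  linear_combination a1 + v.1 * a2 - u.1 * a3

/-- the coefficient of an exact form of type `(2, 0)` is holomorphic -/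
theorem hol_coef {f : CC → CC →L[ℝ] ℂ} {γ : CC → ℂ} {y : CC} (hf : ContDiffAt ℝ ∞ f y)
    (hγ : DifferentiableAt ℝ γ y)
    (h : ∀ᶠ z in 𝓝 y, ∀ u v, fderiv ℝ f z u v - fderiv ℝ f z v u = γ z * dt u v) :
    DifferentiableAt ℂ γ y := by
  have h1 : HasFDerivAt (fderiv ℝ f) (fderiv ℝ (fderiv ℝ f) y) y :=
    ((hf.fderiv_right (m := ∞) (by simp)).differentiableAt (by simp)).hasFDerivAt
  have h2 := hf.isSymmSndFDerivAt (by
    rw [minSmoothness_of_isRCLikeNormedField]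
    exact WithTop.coe_le_coe.2 le_top)
  have h3 : ∀ a u v, fderiv ℝ (fderiv ℝ f) y a u v - fderiv ℝ (fderiv ℝ f) y a v u =
      fderiv ℝ γ y a * dt u v := fun a u v => by
    have a1 := fun u v : CC => (h1.clm_apply (hasFDerivAt_const u y)).clm_apply
      (hasFDerivAt_const v y)
    have a2 := ((a1 u v).sub (a1 v u)).unique ((hγ.hasFDerivAt.mul_const (dt u v)).congr_of_eventuallyEq
      (h.mono fun z hz => hz u v))
    simpa [mul_comm] using congrArg (fun T : CC →L[ℝ] ℂ => T a) a2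
  refine (hasFDerivAt_of_restrictScalars ℝ (f' := fderiv ℝ γ y (1, 0) • ContinuousLinearMap.fst ℂ ℂ ℂ
    + fderiv ℝ γ y (0, 1) • ContinuousLinearMap.snd ℂ ℂ ℂ) hγ.hasFDerivAt
    (ContinuousLinearMap.ext fun a => ?_)).differentiableAt
  have a1 := h3 a (1, 0) (0, 1)
  have a2 := h3 (1, 0) (0, 1) a
  have a3 := h3 (0, 1) a (1, 0)
  rw [h2 (1, 0) a] at a2
  rw [h2 (0, 1) a, h2 (0, 1) (1, 0)] at a3
  simp only [dt] at a1 a2 a3
  change fderiv ℝ γ y (1, 0) * a.1 + fderiv ℝ γ y (0, 1) * a.2 = fderiv ℝ γ y a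
  linear_combination a1 + a2 + a3

end NNP

open NNP

theorem holFn (hA : StLeafA) (hB : StLeafB) (hC : StLeafC) (hP : StPull) (hI : StInvP) :
    StHolFn := by
  intro P _ _ _ lam x₀ y₀ p T hb hN
  obtain ⟨Φ, hΦ⟩ := hA P lam x₀ y₀ p hb
  have e0 : Φ (x₀, y₀) = y₀ := hΦ.self_of_nhds.2.1 rfl
  have t1 : Tendsto (fun q => (q.1, Φ q)) (𝓝 (x₀, y₀)) (𝓝 (x₀, y₀)) := by
    simpa [e0] using (continuousAt_fst.prodMk hΦ.self_of_nhds.1.continuousAt).tendsto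
  have d1 : ∀ᶠ q in 𝓝 (x₀, y₀), q.1 = x₀ → ∀ u, Dv Φ q u = u :=
    hΦ.eventually_nhds.mono fun q hq h u => by
      rw [Dv_congr (g := fun q => q.2) (hq.mono fun z hz a => hz.2.1 (a.trans h)), Dv_snd]
  have p1 : ∀ᶠ q in 𝓝 (x₀, y₀), ContDiffAt ℝ ∞ (pull lam Φ) q ∧
      ∀ u v, sg (pull lam Φ) q u v = sg lam (q.1, Φ q) (Dv Φ q u) (Dv Φ q v) := by
    filter_upwards [hΦ, t1.eventually hb.2] with q a1 a2
    exact hP P CC CC lam Φ q a1.1 a2.1
  obtain ⟨a, b, e, ha, hab⟩ := hB P (pull lam Φ) x₀ y₀ p ⟨hb.1, by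
    filter_upwards [hΦ, p1, d1, hb.2] with q a1 a2 a3 a4
    refine ⟨a2.1, fun h u v => ?_⟩
    rw [a2.2, a3 h, a3 h, a1.2.1 h, a4.2 h]⟩ (by
    filter_upwards [hΦ, p1] with q a1 a2
    rw [a2.2, a1.2.2])
  have s1 : ∀ᶠ q in 𝓝 (x₀, y₀), ContDiffAt ℝ ∞ (fun q : P × CC => (a q, q.2.2)) q ∧
      ∀ u, Dv (fun q : P × CC => (a q, q.2.2)) q u = (Dv a q u, u.2) :=
    hab.mono fun q hq => ⟨hq.1.prodMk (by fun_prop), fun u => congrArg (fun T : CC →L[ℝ] CC => T u)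
      ((slice' hq.1).prodMk hasFDerivAt_snd).fderiv⟩
  obtain ⟨K, -, k1, k2, k3, k4⟩ := diffeo hI (s1.mono fun q hq => hq.1) (by
    refine Function.bijective_iff_has_inverse.2 ⟨fun u => (-(p y₀)⁻¹ * u.1, u.2), fun u => ?_,
      fun u => ?_⟩ <;> simp [s1.self_of_nhds.2, ha, ← mul_assoc, hb.1])
  have n1 : ∀ᶠ r in 𝓝 (x₀, a (x₀, y₀), y₀.2), ∀ u v, sg (pull lam Φ) (K r) u v =
      nf (fun u => u.1) (Dv (fun r => b (K r)) r) (e (r.1, r.2.2))
        (Dv (fun q : P × CC => (a q, q.2.2)) (K r) u)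
        (Dv (fun q : P × CC => (a q, q.2.2)) (K r) v) := by
    filter_upwards [k1.eventually hab, k1.eventually s1, k3, k4 b (hab.mono fun q hq => hq.2.1)]
      with r a1 a2 a3 a4 u v
    have a7 : (K r).1 = r.1 := (Prod.ext_iff.1 a3.1).1
    have a8 : (K r).2.2 = r.2.2 := (Prod.ext_iff.1 (Prod.ext_iff.1 a3.1).2).2
    rw [a1.2.2.2.2, a7, a8]
    simp only [nf, Wd, a4.2, a2.2]
  obtain ⟨s, hs⟩ := hC P (fun r => b (K r)) e x₀ (a (x₀, y₀), y₀.2) T (by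
    filter_upwards [k1.eventually hab, k1.eventually p1, k1.eventually (t1.eventually hN), k3,
      k4 b (hab.mono fun q hq => hq.2.1), n1] with r a1 a2 a3 a4 a5 a6
    have a7 : (K r).1 = r.1 := (Prod.ext_iff.1 a4.1).1
    have a8 : (K r).2.2 = r.2.2 := (Prod.ext_iff.1 (Prod.ext_iff.1 a4.1).2).2
    rw [a7, a8] at a1
    exact ⟨a5.1, a1.2.2.1, a1.2.2.2.1, fun h => null_of a6 a4.2 (null_comp a2.2 (a3 (a7 ▸ h)))⟩)
  have t2 : Tendsto (fun q : P × CC => (q.1, a q, q.2.2)) (𝓝 (x₀, y₀))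
      (𝓝 (x₀, a (x₀, y₀), y₀.2)) := continuousAt_fst.prodMk s1.self_of_nhds.1.continuousAt
  have s2 : ∀ᶠ q in 𝓝 (x₀, y₀), ContDiffAt ℝ ∞ (fun q : P × CC => s (q.1, a q, q.2.2)) q ∧
      (q.1 = x₀ → s (q.1, a q, q.2.2) = a q) ∧
      (q.1 ∈ T → Kills (Dv (fun q : P × CC => s (q.1, a q, q.2.2)) q) (sg (pull lam Φ) q)) := by
    filter_upwards [t2.eventually hs, t2.eventually n1, k2, s1] with q a1 a2 a3 a4
    rw [a3] at a2
    exact ⟨a1.1.comp q (contDiffAt_fst.prodMk a4.1), a1.2.1,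
      fun h => kills_comp a2 (Dv_comp a4.1 a1.1) (a1.2.2 h)⟩
  obtain ⟨K', k0, j1, -, j3, j4⟩ := diffeo hI (hΦ.mono fun q hq => hq.1) (by
    rw [show ⇑(Dv Φ (x₀, y₀)) = id from funext (d1.self_of_nhds rfl)]
    exact Function.bijective_id)
  replace j4 := j4 _ (s2.mono fun q hq => hq.1)
  simp only [e0] at k0 j1 j3 j4
  refine ⟨fun r => s ((K' r).1, a (K' r), (K' r).2.2), fun u => ?_, ?_⟩
  · have a1 := j4.self_of_nhds.2 u
    rw [k0, d1.self_of_nhds rfl] at a1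
    rw [← a1, ← ha, Dv_congr (g := a) (s2.mono fun z hz h => hz.2.1 h)]
  · filter_upwards [j1.eventually s2, j1.eventually p1, j3, j4] with r a1 a2 a3 a4
    rw [a3.1] at a2
    exact ⟨a4.1, fun h => kills_of a2.2 a4.2 a3.2 (a1.2.2 ((Prod.ext_iff.1 a3.1).1 ▸ h))⟩

theorem nnp (hH : StHolFn) (hP : StPull) (hI : StInvP) : StNNP := by
  intro P _ _ _ lam x₀ y₀ p T hb hN O hO
  obtain ⟨s₁, d₁, h₁⟩ := hH P lam x₀ y₀ p T hb hN
  have w0 : ∀ q : P × CC, ContDiffAt ℝ ∞ (fun q : P × CC => q.2.swap) q := fun q =>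
    (by fun_prop : ContDiffAt ℝ ∞ (fun q : P × CC => (q.2.2, q.2.1)) q)
  have w1 : ∀ (q : P × CC) u, Dv (fun q : P × CC => q.2.swap) q u = u.swap := fun q u =>
    congrArg (fun T : CC →L[ℝ] CC => T u)
      (ContinuousLinearEquiv.prodComm ℝ ℂ ℂ).hasFDerivAt.fderiv
  have w2 : ∀ y : CC, Tendsto (fun q : P × CC => (q.1, q.2.swap)) (𝓝 (x₀, y)) (𝓝 (x₀, y.swap)) :=
    fun y => continuousAt_fst.prodMk (w0 (x₀, y)).continuousAt
  have w3 : ∀ᶠ q in 𝓝 (x₀, y₀.swap), ContDiffAt ℝ ∞ (pull lam fun q : P × CC => q.2.swap) q ∧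
      ∀ u v, sg (pull lam fun q : P × CC => q.2.swap) q u v =
        sg lam (q.1, q.2.swap) u.swap v.swap := by
    filter_upwards [(w2 y₀.swap).eventually hb.2] with q hq
    simpa only [w1] using hP P CC CC lam _ q (w0 q) hq.1
  obtain ⟨s₂, d₂, h₂⟩ := hH P (pull lam fun q : P × CC => q.2.swap) x₀ y₀.swap
    (fun y => -p y.swap) T ⟨neg_ne_zero.2 hb.1, by
      filter_upwards [w3, (w2 y₀.swap).eventually hb.2] with q a1 a2
      refine ⟨a1.1, fun h u v => ?_⟩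
      rw [a1.2, a2.2 h]
      simp only [dt, Prod.fst_swap, Prod.snd_swap]
      ring⟩ (by
      filter_upwards [w3, (w2 y₀.swap).eventually hN] with q a1 a2 h
      exact null_comp a1.2 (a2 h))
  obtain ⟨Φ, f1, f2⟩ : ∃ Φ : P × CC → CC, (∀ u, Dv Φ (x₀, y₀) u = u) ∧
      ∀ᶠ q in 𝓝 (x₀, y₀), ContDiffAt ℝ ∞ Φ q ∧ (q.1 ∈ T →
        Kills (fun u => (Dv Φ q u).1) (sg lam q) ∧ Kills (fun u => (Dv Φ q u).2) (sg lam q)) := by
    have a1 : ∀ᶠ q in 𝓝 (x₀, y₀), ∀ u, Dv (fun q : P × CC => (-(p y₀)⁻¹ * s₁ q,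
        (p y₀)⁻¹ * s₂ (q.1, q.2.swap))) q u =
          (-(p y₀)⁻¹ * Dv s₁ q u, (p y₀)⁻¹ * Dv s₂ (q.1, q.2.swap) u.swap) := by
      filter_upwards [h₁, (w2 y₀).eventually h₂] with q b1 b2 u
      rw [← w1 q u, ← Dv_comp (w0 q) b2.1]
      exact congrArg (fun T : CC →L[ℝ] CC => T u) (((slice' b1.1).const_mul _).prodMk
        ((slice' (b2.1.comp q (contDiffAt_fst.prodMk (w0 q)))).const_mul _)).fderiv
    refine ⟨_, fun u => (a1.self_of_nhds u).trans ?_, ?_⟩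
    · simp [d₁, d₂, ← mul_assoc, hb.1]
    · filter_upwards [h₁, (w2 y₀).eventually h₂, (w2 y₀).eventually w3, a1] with q b1 b2 b3 b4
      refine ⟨(contDiffAt_const.mul b1.1).prodMk (contDiffAt_const.mul
        (b2.1.comp q (contDiffAt_fst.prodMk (w0 q)))), fun h => ?_⟩
      simp only [b4]
      exact ⟨kills_mul (b1.2 h) _, kills_mul (kills_comp (L := Prod.swap)
        (fun u v => (b3.2 u.swap v.swap).symm) (fun _ => rfl) (b2.2 h)) _⟩
  have f3 : Dv Φ (x₀, y₀) = ContinuousLinearMap.id ℝ CC := ContinuousLinearMap.ext f1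
  have f4 : ∀ᶠ q in 𝓝 (x₀, y₀), 0 < (Dv Φ q).det :=
    (ContinuousLinearMap.continuous_det.continuousAt.comp
      (contDiffAt_Dv f2.self_of_nhds.1).continuousAt).eventually_const_lt (by
        simp [f3, ContinuousLinearMap.det])
  obtain ⟨H, h1, h2, h3, -, h5⟩ := hI P CC CC Φ (x₀, y₀) _
    (inter_mem hO (inter_mem hb.2 (inter_mem f2 f4))) (f2.mono fun q hq => hq.1)
    (f3 ▸ Function.bijective_id)
  have g0 : ∀ r ∈ H.target, (r.1, (H.symm r).2) = H.symm r := fun r hr =>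
    Prod.ext (h5 r hr).2.symm rfl
  have g1 : ∀ r ∈ H.target, ContDiffAt ℝ ∞ (pull lam fun r => (H.symm r).2) r ∧ ∀ u v,
      sg (pull lam fun r => (H.symm r).2) r u v = sg lam (H.symm r)
        (Dv (fun r => (H.symm r).2) r u) (Dv (fun r => (H.symm r).2) r v) := fun r hr =>
    g0 r hr ▸ hP P CC CC lam _ r (h5 r hr).1.snd ((g0 r hr).symm ▸ (h2 (H.map_target hr)).2.1.1)
  have g2 : ∀ r ∈ H.target, ∀ u, Dv Φ (H.symm r) (Dv (fun r => (H.symm r).2) r u) = u :=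
    fun r hr u => by
      rw [← g0 r hr, ← Dv_comp (h5 r hr).1.snd
        ((g0 r hr).symm ▸ (h2 (H.map_target hr)).2.2.1.1), Dv_congr (g := fun r => r.2), Dv_snd]
      filter_upwards [H.open_target.mem_nhds hr] with z hz _
      rw [g0 z hz]
      exact congrArg Prod.snd ((h3 _).symm.trans (H.right_inv hz))
  have g3 : ∀ q ∈ H.source, ∀ u, Dv (fun r => (H.symm r).2) (H q) (Dv Φ q u) = u :=
    fun q hq u => by
      rw [h3, ← Dv_comp (h2 hq).2.2.1.1 (h3 q ▸ (h5 _ (H.map_source hq)).1.snd),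
        Dv_congr (g := fun r => r.2), Dv_snd]
      filter_upwards [H.eventually_left_inverse hq] with z hz _
      rw [← h3, hz]
  have g4 : ∀ r ∈ H.target, r.1 ∈ T → ∀ u v, sg (pull lam fun r => (H.symm r).2) r u v =
      sg (pull lam fun r => (H.symm r).2) r (1, 0) (0, 1) * dt u v := fun r hr h =>
    have a1 := (h2 (H.map_target hr)).2.2.1.2 ((h5 r hr).2.symm ▸ h)
    eq_dt (kills_comp (g1 r hr).2 (fun u => by rw [g2 r hr]) a1.1)
      (kills_comp (g1 r hr).2 (fun u => by rw [g2 r hr]) a1.2)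
  have g5 : ∀ r ∈ H.target, ContDiffAt ℝ ∞
      (fun r => sg (pull lam fun r => (H.symm r).2) r (1, 0) (0, 1)) r := fun r hr =>
    have a1 := contDiffAt_Dv (g1 r hr).1
    ((a1.clm_apply contDiffAt_const).clm_apply contDiffAt_const).sub
      ((a1.clm_apply contDiffAt_const).clm_apply contDiffAt_const)
  have g6 := H.map_source h1
  obtain ⟨W, u1, u2, u3⟩ := eventually_nhds_iff.1 ((g5 _ g6).continuousAt.eventually_ne (y := 0) (by
    have a1 := g3 _ h1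
    simp only [f1] at a1
    rw [(g1 _ g6).2, a1, a1, H.left_inv h1, hb.2.self_of_nhds.2 rfl]
    simpa [dt] using hb.1))
  have g7 : (fun q => (H q).2) = Φ := funext fun q => congrArg Prod.snd (h3 q)
  refine ⟨(H.symm.restrOpen W u2).symm, _, ⟨h1, u3⟩, fun q hq => (h2 hq.1).1, fun q hq => ?_,
    fun r hr => ⟨(h5 r hr.1).1, g5 r hr.1, u1 r hr.2, fun h => ?_⟩⟩
  · change (H q).1 = q.1 ∧ ContDiffAt ℝ ∞ H q ∧ 0 < (Dv (fun q => (H q).2) q).det ∧ (q.1 ∈ T →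
      ∀ u v, sg lam q u v = sg (pull lam fun r => (H.symm r).2) (H q) (1, 0) (0, 1) *
        dt (Dv (fun q => (H q).2) q u) (Dv (fun q => (H q).2) q v))
    rw [g7]
    refine ⟨(Prod.ext_iff.1 (h3 q)).1, funext h3 ▸ contDiffAt_fst.prodMk (h2 hq.1).2.2.1.1,
      (h2 hq.1).2.2.2, fun h u v => ?_⟩
    rw [← g4 _ (H.map_source hq.1) (h3 q ▸ h), (g1 _ (H.map_source hq.1)).2, g3 q hq.1, g3 q hq.1,
      H.left_inv hq.1]
  · have a1 : ContinuousAt (fun y : CC => (r.1, y)) r.2 := by fun_prop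
    exact hol_coef (slice (g1 r hr.1).1) ((slice (g5 r hr.1)).differentiableAt (by simp))
      ((a1.eventually (H.open_target.mem_nhds hr.1)).mono fun z hz => g4 _ hz h)

end Vale.Agent.P290Z.Kur
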