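import Vale.Agent.P290Z.K.SpecG
import Vale.Agent.P290Z.K.Chart.Core

/-!
# P290Z, part III (K): holomorphic coordinates for the forms of a smooth family
-/

open scoped Manifold ContDiff Topology
open Set Filter

noncomputable section

namespace Vale.Agent.P290Z.Kur

open Vale.Agent.P290 Vale.Agent.P267 Vale.Agent.P290.H686 Vale.Agent.P290.H722

theorem Chart.null_of_wd {T : FL.C2 →L[ℝ] FL.C2 →L[ℝ] ℂ} (hT : ∀ v w, T v w = -T w v)
    (h : wd T T (Pi.single 0 1) (Pi.single 0 Complex.I) (Pi.single 1 1) (Pi.single 1 Complex.I)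
      = 0) : Null fun u v => T u v := by
  intro a b c d
  have h1 := wd_comp T T hT hT ((Complex.reCLM ∘L dZ 0).smulRight a +
    (Complex.imCLM ∘L dZ 0).smulRight b + (Complex.reCLM ∘L dZ 1).smulRight c +
    (Complex.imCLM ∘L dZ 1).smulRight d) (Pi.single 0 1) (Pi.single 0 Complex.I) (Pi.single 1 1)
    (Pi.single 1 Complex.I)
  rw [h, mul_zero] at h1
  have h2 : wd T T a b c d = 0 := by simpa using h1
  rw [wd] at h2
  linear_combination (1 / 2 : ℂ) * h2

theorem chartS (h2 : StPoin2) (hN : StNNP) : StChart := by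
  intro X V _ _ _ sig N T₀ v₀ hNo hv hs hc h0 hw x
  have he := chart_mem_atlas FL.C2 x
  have hO : N ×ˢ (chartAt FL.C2 x).target ∈ 𝓝 (v₀, chartAt FL.C2 x x) :=
    prod_mem_nhds (hNo.mem_nhds hv) (chart_target_mem_nhds FL.C2 x)
  obtain ⟨H, g, a1, a2, a3⟩ := Chart.core h2 hN (σ := fun q => E2 (chartAt FL.C2 x) (sig q.1) q.2)
    (p := FL.loc0 1 (chartAt FL.C2 x) (H445.Om X)) (T := T₀) hO (by
      exact (H445.loc_Om X (chart_mem_atlas _ x) (mem_chart_target FL.C2 x)).trans_ne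
        (H445.Om_ne_zero X x)) (by
      filter_upwards [hO] with q hq
      have b1 := (chartAt FL.C2 x).map_target hq.2
      refine ⟨⟨hs _ hq.1 _ he _ hq.2, fun u v => ev2_swap _ _ _ u v, fun u v w => ?_⟩,
        fun e u v => ?_, fun e => Chart.null_of_wd (fun u v => ev2_swap _ _ _ u v) ?_⟩
      · have b2 := (closed_iff' (hs.smooth hq.1)).1 (hc _ hq.1) _ he _ b1 u v w
        rwa [(chartAt FL.C2 x).right_inv hq.2] at b2
      · rw [e, h0, H686.E2, ev2_apply]
        simp [omF, FL.loc11, FL.loc2]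
      · have b2 := loc2_wedge he b1 (sig q.1) (sig q.1)
        rw [(chartAt FL.C2 x).right_inv hq.2] at b2
        rw [← b2, FL.loc2, hw _ hq.1 e, smul_zero, smul_zero, mul_zero])
  exact ⟨⟨chartAt FL.C2 x, he, H, g, fun q hq => ⟨(a2 q hq).1.2, (a2 q hq).2⟩, a3⟩,
    mem_chart_source _ x, a1⟩

end Vale.Agent.P290Z.Kur
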