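import Vale.Agent.P290Z.K.SpecL

/-!
# P290Z, part III (K): the graph equation for germs, from the normalised form
-/

open scoped ContDiff Topology
open Set Filter Metric

noncomputable section

namespace Vale.Agent.P290Z.Kur

theorem graph (h0 : StGraph0) : StGraph := by
  intro P _ _ _ N x₀ z₀ k₀ T hN
  obtain ⟨A, hA⟩ : ∃ A : ℝ → P × ℂ × ℂ × ℂ × ℂ → P × ℂ × ℂ × ℂ × ℂ, ∀ ε r, A ε r =
      (x₀ + ε • r.1, z₀ + ε • r.2.1, k₀ + ε ^ 2 • r.2.2.1, ε • r.2.2.2.1, ε • r.2.2.2.2) :=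
    ⟨_, fun _ _ => rfl⟩
  have : ProperSpace (P × ℂ × ℂ × ℂ × ℂ) := FiniteDimensional.proper_real _
  have h1 := (isCompact_closedBall (0 : P × ℂ × ℂ × ℂ × ℂ) 3
    ).eventually_forall_of_forall_eventually (x₀ := (0 : ℝ))
    (P := fun ε r => ContDiffAt ℝ ∞ N (A ε r) ∧ ((A ε r).1 = x₀ → N (A ε r) = 0) ∧
      ((A ε r).1 ∈ T → DifferentiableAt ℂ
        (fun u : ℂ × ℂ × ℂ => N ((A ε r).1, (A ε r).2.1, u)) (A ε r).2.2)) fun r _ => by
      have hc : Continuous fun p : ℝ × (P × ℂ × ℂ × ℂ × ℂ) => A p.1 p.2 := by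
        simp only [hA]
        fun_prop
      refine (hc.tendsto' (0, r) (x₀, z₀, k₀, 0, 0) ?_).eventually hN
      simp [hA]
  obtain ⟨ε, hg, hε⟩ := ((h1.filter_mono (nhdsWithin_le_nhds (s := Ioi 0))).and
    self_mem_nhdsWithin).exists
  replace hε : ε ≠ 0 := ne_of_gt hε
  obtain ⟨φ, hφ1, hφ2⟩ : ∃ φ : ContDiffBump (0 : P × ℂ × ℂ × ℂ × ℂ), φ.rIn = 1 ∧ φ.rOut = 2 :=
    ⟨⟨1, 2, one_pos, one_lt_two⟩, rfl, rfl⟩
  have hone : ∀ r, ‖r‖ < 1 → φ r = 1 := fun r hr =>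
    φ.one_of_mem_closedBall (by rw [hφ1, mem_closedBall_zero_iff]; exact hr.le)
  have hzero : ∀ r, 2 < ‖r‖ → φ r = 0 := fun r hr =>
    φ.zero_of_le_dist (by rw [hφ2, dist_zero_right]; exact hr.le)
  have hAs : ContDiff ℝ ∞ (A ε) := by
    rw [funext (hA ε)]
    fun_prop
  obtain ⟨k, hk⟩ := h0 P (fun r => φ r • ε⁻¹ • N (A ε r)) {x | x₀ + ε • x ∈ T}
    (contDiff_iff_contDiffAt.2 fun r => by
      by_cases hr : ‖r‖ ≤ 3
      · exact φ.contDiff.contDiffAt.smul (((hg r (mem_closedBall_zero_iff.2 hr)).1.comp r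
          hAs.contDiffAt).const_smul _)
      · refine (contDiffAt_const (c := (0 : ℂ))).congr_of_eventuallyEq ?_
        filter_upwards [(isOpen_lt continuous_const continuous_norm).mem_nhds
          (show 2 < ‖r‖ by linarith [not_le.1 hr])] with s hs
        rw [hzero s hs, zero_smul])
    (fun r => by
      by_cases hr : ‖((0, r) : P × ℂ × ℂ × ℂ × ℂ)‖ ≤ 3
      · rw [(hg _ (mem_closedBall_zero_iff.2 hr)).2.1 (by simp [hA]), smul_zero, smul_zero]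
      · rw [hzero _ (by linarith [not_le.1 hr]), zero_smul])
    (fun x hx hx1 z hz u hu => by
      have h2 : ‖((x, z, u) : P × ℂ × ℂ × ℂ × ℂ)‖ < 1 :=
        max_lt hx1 (max_lt hz hu)
      have h3 := (hg (x, z, u) (mem_closedBall_zero_iff.2 (by linarith))).2.2 (by rw [hA]; exact hx)
      have h4 : DifferentiableAt ℂ (fun u : ℂ × ℂ × ℂ => (A ε (x, z, u)).2.2) u := by
        simp only [hA]
        fun_prop
      refine ((h3.comp u h4).const_smul ε⁻¹).congr_of_eventuallyEq ?_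
      have h5 : Continuous fun u : ℂ × ℂ × ℂ => ‖((x, z, u) : P × ℂ × ℂ × ℂ × ℂ)‖ := by fun_prop
      filter_upwards [(isOpen_lt h5 continuous_const).mem_nhds h2] with s hs
      rw [hone _ hs, one_smul]
      simp only [hA, Pi.smul_apply, Function.comp_apply])
  -- the values of the slots are small
  have hk0 := hk.self_of_nhds
  have hd0 : ∀ w : ℂ, fderiv ℝ k 0 (0, w, 0) = 0 := fun w => by
    have h2 : HasDerivAt (fun t : ℝ => (t • (0, w, 0) : P × ℂ × ℂ)) (0, w, 0) 0 := by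
      simpa using (hasDerivAt_id (0 : ℝ)).smul_const ((0, w, 0) : P × ℂ × ℂ)
    have h3 := HasFDerivAt.comp_hasDerivAt_of_eq (0 : ℝ)
      (hk0.1.differentiableAt (by simp)).hasFDerivAt h2 (by simp)
    refine h3.unique ((hasDerivAt_const (0 : ℝ) (0 : ℂ)).congr_of_eventuallyEq ?_)
    have h4 : Continuous fun t : ℝ => (t • (0, w, 0) : P × ℂ × ℂ) := by fun_prop
    filter_upwards [(h4.tendsto' 0 0 (by simp)).eventually hk] with t ht
    simpa using ht.2.1 (by simp)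
  have hsm : ∀ᶠ q in 𝓝 (0 : P × ℂ × ℂ), ‖((q.1, q.2.1, k q, fderiv ℝ k q (0, 1, 0),
      fderiv ℝ k q (0, Complex.I, 0)) : P × ℂ × ℂ × ℂ × ℂ)‖ < 1 := by
    have h2 : ContinuousAt (fderiv ℝ k) 0 :=
      (hk0.1.fderiv_right (m := 0) (by simp)).continuousAt
    have h3 : ContinuousAt (fun q : P × ℂ × ℂ => ‖((q.1, q.2.1, k q, fderiv ℝ k q (0, 1, 0),
        fderiv ℝ k q (0, Complex.I, 0)) : P × ℂ × ℂ × ℂ × ℂ)‖) 0 :=
      (continuousAt_fst.prodMk (continuousAt_snd.fst.prodMk (hk0.1.continuousAt.prodMk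
        ((h2.clm_apply continuousAt_const).prodMk (h2.clm_apply continuousAt_const))))).norm
    refine h3.eventually_lt continuousAt_const ?_
    simp [hd0, hk0.2.1 rfl]
  obtain ⟨C, hC⟩ : ∃ C : P × ℂ × ℂ →L[ℝ] P × ℂ × ℂ,
      ∀ q, C q = (ε⁻¹ • q.1, ε⁻¹ • q.2.1, (ε ^ 2)⁻¹ • q.2.2) :=
    ⟨(ε⁻¹ • ContinuousLinearMap.id ℝ P).prodMap ((ε⁻¹ • ContinuousLinearMap.id ℝ ℂ).prodMap
      ((ε ^ 2)⁻¹ • ContinuousLinearMap.id ℝ ℂ)), fun _ => rfl⟩
  have hCs : ContDiff ℝ ∞ fun q : P × ℂ × ℂ => C (q - (x₀, z₀, k₀)) := by fun_prop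
  refine ⟨fun q => k₀ + ε ^ 2 • k (C (q - (x₀, z₀, k₀))), ?_⟩
  filter_upwards [(hCs.continuous.tendsto' (x₀, z₀, k₀) 0 (by simp)).eventually (hk.and hsm)]
    with q ⟨⟨h2, h3, h4, h5⟩, h6⟩
  have h7 : HasFDerivAt (fun q => k₀ + ε ^ 2 • k (C (q - (x₀, z₀, k₀))))
      (ε ^ 2 • (fderiv ℝ k (C (q - (x₀, z₀, k₀)))).comp C) q := by
    have h7 : HasFDerivAt (fun q => C (q - (x₀, z₀, k₀))) C q := by
      simp only [map_sub]
      exact C.hasFDerivAt.sub_const _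
    exact (((h2.differentiableAt (by simp)).hasFDerivAt.comp q h7).const_smul (ε ^ 2)).const_add k₀
  have h8 : ∀ w : ℂ, fderiv ℝ (fun q => k₀ + ε ^ 2 • k (C (q - (x₀, z₀, k₀)))) q (0, w, 0) =
      ε • fderiv ℝ k (C (q - (x₀, z₀, k₀))) (0, w, 0) := fun w => by
    rw [h7.fderiv, smul_apply, ContinuousLinearMap.comp_apply,
      show C (0, w, 0) = ε⁻¹ • (0, w, 0) by simp [hC], map_smul, smul_smul, sq,
      mul_inv_cancel_right₀ hε]
  have h9 : ∀ w : ℂ, fderiv ℝ (fun q => k₀ + ε ^ 2 • k (C (q - (x₀, z₀, k₀)))) q (0, 0, w) =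
      fderiv ℝ k (C (q - (x₀, z₀, k₀))) (0, 0, w) := fun w => by
    rw [h7.fderiv, smul_apply, ContinuousLinearMap.comp_apply,
      show C (0, 0, w) = (ε ^ 2)⁻¹ • (0, 0, w) by simp [hC], map_smul, smul_smul,
      mul_inv_cancel₀ (pow_ne_zero 2 hε), one_smul]
  have e1 : x₀ + ε • (C (q - (x₀, z₀, k₀))).1 = q.1 := by simp [hC, smul_smul, hε]
  have e2 : z₀ + ε • (C (q - (x₀, z₀, k₀))).2.1 = q.2.1 := by
    simp only [hC, smul_smul, mul_inv_cancel₀ hε, one_smul, Prod.snd_sub, Prod.fst_sub,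
      add_sub_cancel]
  refine ⟨contDiffAt_const.add ((h2.comp q hCs.contDiffAt).const_smul _), fun hq => ?_, ?_,
    fun hq => ?_⟩
  · rw [h3 (by simp [hC, hq])]
    simp only [hC, smul_smul, mul_inv_cancel₀ (pow_ne_zero 2 hε), one_smul, Prod.snd_sub,
      add_sub_cancel]
  · rw [hone _ h6, one_smul, hA] at h4
    simp only [e1, e2] at h4
    rw [h8, h8, mul_smul_comm, ← smul_add, h4, smul_inv_smul₀ hε]
  · rw [h9, h9]
    exact h5 (by rw [e1]; exact hq)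

end Vale.Agent.P290Z.Kur
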