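import Mathlib

/-!
# P290Z, part III (K): Newlander-Nirenberg in dimension two with parameters, statements

`P` is the space of parameters. Everything is a germ at a point `(x₀, y₀)`.
-/

open scoped ContDiff Topology ComplexConjugate
open Set Filter

noncomputable section

namespace Vale.Agent.P290Z.Kur

/-- the model space -/
abbrev CC : Type := ℂ × ℂ

section defs

variable {P E F : Type} [NormedAddCommGroup E] [NormedSpace ℝ E] [NormedAddCommGroup F]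
  [NormedSpace ℝ F]

/-- the derivative along the fibre -/
def Dv (f : P × E → F) (q : P × E) : E →L[ℝ] F := fderiv ℝ (fun y => f (q.1, y)) q.2

/-- the exterior derivative along the fibre of a one-form -/
def sg (lam : P × E → E →L[ℝ] ℂ) (q : P × E) (u v : E) : ℂ := Dv lam q u v - Dv lam q v u

/-- the pull back of a one-form under a fibre preserving map -/
def pull (lam : P × F → F →L[ℝ] ℂ) (Φ : P × E → F) (q : P × E) : E →L[ℝ] ℂ :=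
  (lam (q.1, Φ q)).comp (Dv Φ q)

end defs

/-- `σ ∧ σ = 0` -/
def Null {E : Type} (σ : E → E → ℂ) : Prop :=
  ∀ a b c d, σ a b * σ c d - σ a c * σ b d + σ a d * σ b c = 0

/-- `l ∧ σ = 0` -/
def Kills {E : Type} (l : E → ℂ) (σ : E → E → ℂ) : Prop :=
  ∀ u v w, l u * σ v w - l v * σ u w + l w * σ u v = 0

/-- `l ∧ m` -/
def Wd {E : Type} (l m : E → ℂ) (u v : E) : ℂ := l u * m v - l v * m u

/-- `dz ∧ dw` -/
def dt (u v : CC) : ℂ := u.1 * v.2 - u.2 * v.1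

/-- the normal form `dc ∧ α + dc̄ ∧ β + e dc ∧ dc̄`, `c` the second coordinate -/
def nf (α β : CC → ℂ) (e : ℂ) (u v : CC) : ℂ :=
  Wd (fun u => u.2) α u v + Wd (fun u => conj u.2) β u v +
    e * Wd (fun u => u.2) (fun u => conj u.2) u v

/-- INV: the inverse function theorem with parameters -/
def StInvP : Prop :=
  ∀ (P E F : Type) [NormedAddCommGroup P] [NormedSpace ℝ P] [FiniteDimensional ℝ P]
    [NormedAddCommGroup E] [NormedSpace ℝ E] [FiniteDimensional ℝ E]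
    [NormedAddCommGroup F] [NormedSpace ℝ F] [FiniteDimensional ℝ F]
    (Φ : P × E → F) (q₀ : P × E) (O : Set (P × E)), O ∈ 𝓝 q₀ →
    (∀ᶠ q in 𝓝 q₀, ContDiffAt ℝ ∞ Φ q) → Function.Bijective (Dv Φ q₀) →
    ∃ H : OpenPartialHomeomorph (P × E) (P × F), q₀ ∈ H.source ∧ H.source ⊆ O ∧
      (∀ q, H q = (q.1, Φ q)) ∧
      (∀ q ∈ H.source, ContDiffAt ℝ ∞ Φ q ∧ Function.Bijective (Dv Φ q)) ∧
      ∀ r ∈ H.target, ContDiffAt ℝ ∞ H.symm r ∧ (H.symm r).1 = r.1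

/-- PULL: the exterior derivative commutes with pull backs -/
def StPull : Prop :=
  ∀ (P E F : Type) [NormedAddCommGroup P] [NormedSpace ℝ P]
    [NormedAddCommGroup E] [NormedSpace ℝ E] [NormedAddCommGroup F] [NormedSpace ℝ F]
    (lam : P × F → F →L[ℝ] ℂ) (Φ : P × E → F) (q : P × E), ContDiffAt ℝ ∞ Φ q →
    ContDiffAt ℝ ∞ lam (q.1, Φ q) → ContDiffAt ℝ ∞ (pull lam Φ) q ∧
      ∀ u v, sg (pull lam Φ) q u v = sg lam (q.1, Φ q) (Dv Φ q u) (Dv Φ q v)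

/-- POIN1: the Poincaré lemma for one-forms, with parameters -/
def StPoin1 : Prop :=
  ∀ (P E : Type) [NormedAddCommGroup P] [NormedSpace ℝ P] [FiniteDimensional ℝ P]
    [NormedAddCommGroup E] [NormedSpace ℝ E] [FiniteDimensional ℝ E]
    (lam : P × E → E →L[ℝ] ℂ) (x₀ : P) (y₀ : E),
    (∀ᶠ q in 𝓝 (x₀, y₀), ContDiffAt ℝ ∞ lam q ∧ ∀ u v, sg lam q u v = 0) →
    ∃ g : P × E → ℂ, ∀ᶠ q in 𝓝 (x₀, y₀), ContDiffAt ℝ ∞ g q ∧ Dv g q = lam q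

/-- POIN2: the Poincaré lemma for two-forms, with parameters -/
def StPoin2 : Prop :=
  ∀ (P E : Type) [NormedAddCommGroup P] [NormedSpace ℝ P] [FiniteDimensional ℝ P]
    [NormedAddCommGroup E] [NormedSpace ℝ E] [FiniteDimensional ℝ E]
    (σ : P × E → E →L[ℝ] E →L[ℝ] ℂ) (x₀ : P) (y₀ : E),
    (∀ᶠ q in 𝓝 (x₀, y₀), ContDiffAt ℝ ∞ σ q ∧ (∀ u v, σ q u v = -σ q v u) ∧
      ∀ u v w, Dv σ q u v w + Dv σ q v w u + Dv σ q w u v = 0) →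
    ∃ lam : P × E → E →L[ℝ] ℂ, ∀ᶠ q in 𝓝 (x₀, y₀), ContDiffAt ℝ ∞ lam q ∧
      ∀ u v, sg lam q u v = σ q u v

/-- GRAPH0: the equation `k_s + i k_t = N (x, z, k, k_s, k_t)`, `z = s + i t`, normalised global
form; `k (x, z, c)`, `c` is the parameter of the solution -/
def StGraph0 : Prop :=
  ∀ (P : Type) [NormedAddCommGroup P] [NormedSpace ℝ P] [FiniteDimensional ℝ P]
    (N : P × ℂ × ℂ × ℂ × ℂ → ℂ) (T : Set P), ContDiff ℝ ∞ N → (∀ r, N (0, r) = 0) →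
    (∀ x ∈ T, ‖x‖ < 1 → ∀ z : ℂ, ‖z‖ < 1 → ∀ u : ℂ × ℂ × ℂ, ‖u‖ < 1 →
      DifferentiableAt ℂ (fun u : ℂ × ℂ × ℂ => N (x, z, u)) u) →
    ∃ k : P × ℂ × ℂ → ℂ, ∀ᶠ q in 𝓝 (0 : P × ℂ × ℂ), ContDiffAt ℝ ∞ k q ∧
      (q.1 = 0 → k q = q.2.2) ∧
      fderiv ℝ k q (0, 1, 0) + Complex.I * fderiv ℝ k q (0, Complex.I, 0) =
        N (q.1, q.2.1, k q, fderiv ℝ k q (0, 1, 0), fderiv ℝ k q (0, Complex.I, 0)) ∧
      (q.1 ∈ T → fderiv ℝ k q (0, 0, Complex.I) = Complex.I * fderiv ℝ k q (0, 0, 1))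

/-- GRAPH: the same for germs -/
def StGraph : Prop :=
  ∀ (P : Type) [NormedAddCommGroup P] [NormedSpace ℝ P] [FiniteDimensional ℝ P]
    (N : P × ℂ × ℂ × ℂ × ℂ → ℂ) (x₀ : P) (z₀ k₀ : ℂ) (T : Set P),
    (∀ᶠ r in 𝓝 ((x₀, z₀, k₀, 0, 0) : P × ℂ × ℂ × ℂ × ℂ), ContDiffAt ℝ ∞ N r ∧
      (r.1 = x₀ → N r = 0) ∧
      (r.1 ∈ T → DifferentiableAt ℂ (fun u : ℂ × ℂ × ℂ => N (r.1, r.2.1, u)) r.2.2)) →
    ∃ k : P × ℂ × ℂ → ℂ, ∀ᶠ q in 𝓝 ((x₀, z₀, k₀) : P × ℂ × ℂ), ContDiffAt ℝ ∞ k q ∧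
      (q.1 = x₀ → k q = q.2.2) ∧
      fderiv ℝ k q (0, 1, 0) + Complex.I * fderiv ℝ k q (0, Complex.I, 0) =
        N (q.1, q.2.1, k q, fderiv ℝ k q (0, 1, 0), fderiv ℝ k q (0, Complex.I, 0)) ∧
      (q.1 ∈ T → fderiv ℝ k q (0, 0, Complex.I) = Complex.I * fderiv ℝ k q (0, 0, 1))

/-- the data: a family of one-forms whose derivative is `p dz ∧ dw` for the parameter `x₀` -/
def Base {P : Type} [NormedAddCommGroup P] [NormedSpace ℝ P] (lam : P × CC → CC →L[ℝ] ℂ) (x₀ : P)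
    (y₀ : CC) (p : CC → ℂ) : Prop :=
  p y₀ ≠ 0 ∧ ∀ᶠ q in 𝓝 (x₀, y₀), ContDiffAt ℝ ∞ lam q ∧
    (q.1 = x₀ → ∀ u v, sg lam q u v = p q.2 * dt u v)

/-- LEAF A: a foliation by graphs on which the form vanishes -/
def StLeafA : Prop :=
  ∀ (P : Type) [NormedAddCommGroup P] [NormedSpace ℝ P] [FiniteDimensional ℝ P]
    (lam : P × CC → CC →L[ℝ] ℂ) (x₀ : P) (y₀ : CC) (p : CC → ℂ), Base lam x₀ y₀ p →
    ∃ Φ : P × CC → CC, ∀ᶠ q in 𝓝 (x₀, y₀), ContDiffAt ℝ ∞ Φ q ∧ (q.1 = x₀ → Φ q = q.2) ∧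
      sg lam (q.1, Φ q) (Dv Φ q (1, 0)) (Dv Φ q (Complex.I, 0)) = 0

/-- LEAF B: the normal form of a form which vanishes on the horizontal lines -/
def StLeafB : Prop :=
  ∀ (P : Type) [NormedAddCommGroup P] [NormedSpace ℝ P] [FiniteDimensional ℝ P]
    (lam : P × CC → CC →L[ℝ] ℂ) (x₀ : P) (y₀ : CC) (p : CC → ℂ), Base lam x₀ y₀ p →
    (∀ᶠ q in 𝓝 (x₀, y₀), sg lam q (1, 0) (Complex.I, 0) = 0) →
    ∃ (a b : P × CC → ℂ) (e : P × ℂ → ℂ), (∀ u, Dv a (x₀, y₀) u = -p y₀ * u.1) ∧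
      ∀ᶠ q in 𝓝 (x₀, y₀), ContDiffAt ℝ ∞ a q ∧ ContDiffAt ℝ ∞ b q ∧
        ContDiffAt ℝ ∞ e (q.1, q.2.2) ∧ (q.1 = x₀ → b q = 0 ∧ e (q.1, q.2.2) = 0) ∧
        ∀ u v, sg lam q u v = nf (Dv a q) (Dv b q) (e (q.1, q.2.2)) u v

/-- LEAF C: a first integral for the normal form with `α = dz` -/
def StLeafC : Prop :=
  ∀ (P : Type) [NormedAddCommGroup P] [NormedSpace ℝ P] [FiniteDimensional ℝ P]
    (b : P × CC → ℂ) (e : P × ℂ → ℂ) (x₀ : P) (y₀ : CC) (T : Set P),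
    (∀ᶠ q in 𝓝 (x₀, y₀), ContDiffAt ℝ ∞ b q ∧ ContDiffAt ℝ ∞ e (q.1, q.2.2) ∧
      (q.1 = x₀ → b q = 0 ∧ e (q.1, q.2.2) = 0) ∧
      (q.1 ∈ T → Null (nf (fun u => u.1) (Dv b q) (e (q.1, q.2.2))))) →
    ∃ s : P × CC → ℂ, ∀ᶠ q in 𝓝 (x₀, y₀), ContDiffAt ℝ ∞ s q ∧ (q.1 = x₀ → s q = q.2.1) ∧
      (q.1 ∈ T → Kills (Dv s q) (nf (fun u => u.1) (Dv b q) (e (q.1, q.2.2))))

/-- HOLFN: one holomorphic function -/
def StHolFn : Prop :=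
  ∀ (P : Type) [NormedAddCommGroup P] [NormedSpace ℝ P] [FiniteDimensional ℝ P]
    (lam : P × CC → CC →L[ℝ] ℂ) (x₀ : P) (y₀ : CC) (p : CC → ℂ) (T : Set P), Base lam x₀ y₀ p →
    (∀ᶠ q in 𝓝 (x₀, y₀), q.1 ∈ T → Null (sg lam q)) →
    ∃ s : P × CC → ℂ, (∀ u, Dv s (x₀, y₀) u = -p y₀ * u.1) ∧
      ∀ᶠ q in 𝓝 (x₀, y₀), ContDiffAt ℝ ∞ s q ∧ (q.1 ∈ T → Kills (Dv s q) (sg lam q))

/-- LIN: a real linear surjection which multiplies `dz ∧ dw` by a constant is complex linear -/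
def StLin : Prop :=
  ∀ (L : CC →L[ℝ] CC) (g : ℂ), Function.Surjective L → (∀ u v, dt (L u) (L v) = g * dt u v) →
    ∃ L' : CC →L[ℂ] CC, (∀ u, L' u = L u) ∧ L'.det = g ∧ 0 < L.det

/-- NNP: holomorphic coordinates with parameters; `g` is the coefficient of the form in these
coordinates, it is holomorphic in them -/
def StNNP : Prop :=
  ∀ (P : Type) [NormedAddCommGroup P] [NormedSpace ℝ P] [FiniteDimensional ℝ P]
    (lam : P × CC → CC →L[ℝ] ℂ) (x₀ : P) (y₀ : CC) (p : CC → ℂ) (T : Set P), Base lam x₀ y₀ p →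
    (∀ᶠ q in 𝓝 (x₀, y₀), q.1 ∈ T → Null (sg lam q)) → ∀ O ∈ 𝓝 (x₀, y₀),
    ∃ (H : OpenPartialHomeomorph (P × CC) (P × CC)) (g : P × CC → ℂ),
      (x₀, y₀) ∈ H.source ∧ H.source ⊆ O ∧
      (∀ q ∈ H.source, (H q).1 = q.1 ∧ ContDiffAt ℝ ∞ H q ∧
        0 < (Dv (fun q => (H q).2) q).det ∧
        (q.1 ∈ T → ∀ u v, sg lam q u v =
          g (H q) * dt (Dv (fun q => (H q).2) q u) (Dv (fun q => (H q).2) q v))) ∧
      ∀ r ∈ H.target, ContDiffAt ℝ ∞ H.symm r ∧ ContDiffAt ℝ ∞ g r ∧ g r ≠ 0 ∧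
        (r.1 ∈ T → DifferentiableAt ℂ (fun w => g (r.1, w)) r.2)

end Vale.Agent.P290Z.Kur
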