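import Vale.Agent.P290Z.K.Graph0.A
import Vale.Agent.P290Z.K.SpecL

/-!
# P290Z, GRAPH0: the nonlinear Cauchy-Riemann equation with parameters
-/

open scoped ContDiff Topology ComplexConjugate
open Set Filter Metric Complex

noncomputable section

namespace Vale.Agent.P290Z.Kur

open Vale.Agent.P247.H74 Vale.Agent.P247.H720 Vale.Agent.P247.H743

namespace G0

variable {P : Type} [NormedAddCommGroup P] [NormedSpace ℝ P]

theorem exists_map [FiniteDimensional ℝ P] {N : P × ℂ × ℂ × ℂ × ℂ → ℂ} (hN : ContDiff ℝ ∞ N) :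
    ∃ M : (P × ℂ × ℂ) × HC 2 → HC 2, ContDiff ℝ ∞ M ∧ ∀ x z c h p, EC 2 p (M ((x, z, c), h)) =
      N (x, ZC (p + equivRealProdCLM z), UC (ZC (p + equivRealProdCLM z)) p (c, h)) := by
  have k : ∀ b, Sm fun (r : (P × ℂ × ℂ) × HC 2) p => EC 2 p (AC b r.2) := fun b =>
    sm_EC ((AC b).contDiff.comp contDiff_snd)
  have h1 : Sm fun (r : (P × ℂ × ℂ) × HC 2) (_ : P2) => (r.1.1, r.1.2.2, mu r.2) :=
    sm_const (by fun_prop)
  have h2 : Sm fun (r : (P × ℂ × ℂ) × HC 2) p => ZC (p + equivRealProdCLM r.1.2.1) :=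
    sm_ZC (by fun_prop)
  have h3 : ContDiff ℝ ∞ fun w : ((P × ℂ × ℂ) × ℂ) × ℂ × ℂ × ℂ => N (w.1.1.1, w.1.2,
      w.1.1.2.1 + (w.2.1 + conjCLE w.1.2 / 2 * w.1.1.2.2), w.2.2.1 + 1 / 2 * w.1.1.2.2,
      w.2.2.2 + -I / 2 * w.1.1.2.2) := hN.comp (by fun_prop)
  obtain ⟨M, h4, h5⟩ := (((h1.prod h2).prod ((k ic).prod ((k (SW 2)).prod (k (TW' 2))))).comp h3).ex
  exact ⟨M, h4, fun x z c h p => h5 _ p⟩

/-- the derivative of the fixed point in the parameter `c` is complex linear -/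
theorem hol {N : P × ℂ × ℂ × ℂ × ℂ → ℂ} {M : (P × ℂ × ℂ) × HC 2 → HC 2} {x : P} {z c : ℂ}
    {ζ : P2 → ℂ} (hM : ∀ c h p, EC 2 p (M ((x, z, c), h)) = N (x, ζ p, UC (ζ p) p (c, h)))
    {ψ : P × ℂ × ℂ → HC 2} {ψ' : P × ℂ × ℂ →L[ℝ] HC 2} (h1 : HasFDerivAt ψ ψ' (x, z, c))
    {M' : (P × ℂ × ℂ) × HC 2 →L[ℝ] HC 2} (h2 : HasFDerivAt M M' ((x, z, c), ψ (x, z, c)))
    (h3 : ∀ᶠ q in 𝓝 (x, z, c), ψ q = M (q, ψ q))
    (h4 : ‖M'.comp (ContinuousLinearMap.inr ℝ _ _)‖ < 1)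
    (h5 : ∀ p, DifferentiableAt ℂ (fun u : ℂ × ℂ × ℂ => N (x, ζ p, u))
      (UC (ζ p) p (c, ψ (x, z, c)))) : ψ' (0, 0, I) = JC 2 (ψ' (0, 0, 1)) := by
  have a1 : ∀ v, ψ' v = M' (v, ψ' v) := fun v => congrArg (fun L => L v) (h1.unique
    ((h2.comp (x, z, c) ((hasFDerivAt_id _).prodMk h1)).congr_of_eventuallyEq h3))
  have a2 : ∀ p v w, EC 2 p (M' ((0, 0, v), w)) = fderiv ℂ (fun u : ℂ × ℂ × ℂ => N (x, ζ p, u))
      (UC (ζ p) p (c, ψ (x, z, c))) (UC (ζ p) p (v, w)) := fun p v w => by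
    have b0 := (hasFDerivAt_const x _).prodMk ((hasFDerivAt_const z _).prodMk
      ((ContinuousLinearMap.fst ℝ ℂ (HC 2)).hasFDerivAt (x := (c, ψ (x, z, c)))))
    have b1 := b0.prodMk (ContinuousLinearMap.snd ℝ ℂ (HC 2)).hasFDerivAt
    have b2 := (EC 2 p).hasFDerivAt.comp _ (h2.comp (c, ψ (x, z, c)) b1)
    have b3 := ((h5 p).hasFDerivAt.restrictScalars ℝ).comp (c, ψ (x, z, c)) (UC (ζ p) p).hasFDerivAt
    exact congrArg (fun L => L (v, w))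
      (b2.unique (b3.congr_of_eventuallyEq (Eventually.of_forall fun r => hM r.1 r.2 p)))
  have a3 : M' ((0, 0, I), JC 2 (ψ' (0, 0, 1))) = JC 2 (ψ' (0, 0, 1)) := EC_ext fun p => by
    rw [a2, EC_J, ← mul_one I, UC_J, map_smul, ← a2, ← a1, mul_one, smul_eq_mul]
  have a4 : M'.comp (ContinuousLinearMap.inr ℝ _ _) (ψ' (0, 0, I) - JC 2 (ψ' (0, 0, 1))) =
      ψ' (0, 0, I) - JC 2 (ψ' (0, 0, 1)) := by
    conv_rhs => rw [a1, ← a3, ← map_sub]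
    simp
  have a5 := (M'.comp (ContinuousLinearMap.inr ℝ _ _)).le_opNorm
    (ψ' (0, 0, I) - JC 2 (ψ' (0, 0, 1)))
  rw [a4] at a5
  exact sub_eq_zero.1 (norm_le_zero_iff.1 (by nlinarith [norm_nonneg (ψ' (0, 0, I) -
    JC 2 (ψ' (0, 0, 1)))]))

end G0

open G0 in
theorem graph0 : StGraph0 := by
  intro P _ _ _ N T hN h0 hT
  have := FiniteDimensional.complete ℝ P
  obtain ⟨M, hM, hE⟩ := exists_map hN
  have z0 : ∀ z c h, M ((0, z, c), h) = 0 := fun z c h => EC_ext fun p => by rw [hE, h0, map_zero]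
  obtain ⟨U, hU, u0, ψ, η, -, s1, s2, s3, s4⟩ := ufp M hM {0} isCompact_singleton
    (by rintro _ rfl h; exact z0 0 0 h)
  have u1 : U ∈ 𝓝 0 := hU.mem_nhds (u0 rfl)
  have p0 : ψ 0 = 0 := (s2 0 (u0 rfl)).trans (z0 0 0 _)
  have t1 : Tendsto ψ (𝓝 0) (𝓝 0) := by
    have := (s1.contDiffAt u1).continuousAt.tendsto
    rwa [p0] at this
  have tr : ∀ x z c, (x, z, c) ∈ U → (x, 0, c) ∈ U →
      ψ (x, z, c) = TC (equivRealProdCLM z) (ψ (x, 0, c)) := fun x z c a b => by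
    refine (s4 _ a _ ((norm_TC _ _).trans_lt (s3 _ b)) (EC_ext fun p => ?_)).symm
    rw [hE, UC_T, EC_T]
    conv_lhs => rw [s2 _ b, hE, map_zero, add_zero]
  have c1 : Continuous fun q : P × ℂ × ℂ => ((q.1, 0, q.2.2) : P × ℂ × ℂ) := by fun_prop
  have e1 : ∀ᶠ q : P × ℂ × ℂ in 𝓝 0, q ∈ U ∧ ((q.1, 0, q.2.2) : P × ℂ × ℂ) ∈ U :=
    inter_mem u1 (c1.continuousAt.preimage_mem_nhds u1)
  have e2 : ∀ᶠ q : P × ℂ × ℂ in 𝓝 0, ‖q‖ < 1 / 6 :=
    (continuous_norm.tendsto' 0 0 norm_zero).eventually_lt_const (by norm_num)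
  have e3 := small (c := fun q : P × ℂ × ℂ => q.2.2) (continuous_snd.snd.tendsto' 0 0 rfl) t1
  have e4 : ∀ᶠ q in 𝓝 0,
      ‖(fderiv ℝ M (q, ψ q)).comp (ContinuousLinearMap.inr ℝ _ _)‖ < 1 := by
    have a1 : (fderiv ℝ M (0, 0)).comp (ContinuousLinearMap.inr ℝ _ _) = 0 :=
      ((hM.differentiable (by simp) _).hasFDerivAt.comp 0 (hasFDerivAt_prodMk_right 0 0)).unique
        ((hasFDerivAt_const 0 0).congr_of_eventuallyEq (Eventually.of_forall (z0 0 0)))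
    have a2 := (((hM.continuous_fderiv (by simp)).clm_comp (continuous_const
      (y := ContinuousLinearMap.inr ℝ (P × ℂ × ℂ) (HC 2)))).norm.tendsto (0, 0)).comp
        (tendsto_id.prodMk_nhds t1)
    rw [a1, norm_zero] at a2
    exact a2.eventually_lt_const one_pos
  refine ⟨fun q => q.2.2 + LC ic (conj q.2.1 / 2) 0 (ψ q), ?_⟩
  filter_upwards [e1.eventually_nhds, e2, e3, e4]
  rintro ⟨x, z, c⟩ e1 e2 e3 e4
  obtain ⟨a, b⟩ := e1.self_of_nhds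
  have s5 := s1.contDiffAt (hU.mem_nhds a)
  have s6 : ContDiffAt ℝ ∞ (fun q : P × ℂ × ℂ => q.2.2 + LC ic (conj q.2.1 / 2) 0 (ψ q)) (x, z, c) := by
    change ContDiffAt ℝ ∞ (fun q : P × ℂ × ℂ =>
      q.2.2 + (EC 2 0 (AC ic (ψ q)) + conjCLE q.2.1 / 2 * mu (ψ q))) _
    fun_prop
  have s7 := (s6.differentiableAt (by simp)).hasFDerivAt
  have hz : ‖z‖ < 1 / 6 := ((norm_fst_le (z, c)).trans (norm_snd_le (x, z, c))).trans_lt e2
  refine ⟨s6, ?_, ?_, fun ht => ?_⟩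
  · rintro rfl
    simp only [(s2 _ a).trans (z0 z c _), map_zero, add_zero]
  · obtain ⟨D, d1, d2, d3⟩ := d_LC (ψ (x, 0, c)) z
    have k : ∀ z, (x, z, c) ∈ U → LC ic (conj z / 2) 0 (ψ (x, z, c)) =
        LC ic (conj z / 2) (equivRealProdCLM z) (ψ (x, 0, c)) := fun z a => by
      rw [tr x z c a b, LC_T incl_trW0, zero_add]
    have d4 := (hasFDerivAt_const x z).prodMk (hasFDerivAt_prodMk_left (𝕜 := ℝ) z c)
    have d5 := (s7.comp z d4).unique ((d1.const_add c).congr_of_eventuallyEq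
      ((d4.continuousAt.eventually e1).mono fun z a => congrArg (c + ·) (k z a.1)))
    have d6 : ∀ v, fderiv ℝ (fun q : P × ℂ × ℂ => q.2.2 + LC ic (conj q.2.1 / 2) 0 (ψ q)) (x, z, c)
        (0, v, 0) = D v := fun v => congrArg (fun L => L v) d5
    rw [d6, d6, d2, d3, LC_div]
    conv_lhs => rw [s2 _ b, hE, map_zero, add_zero, ZC_eq hz, UC_apply]
    simp only [k z a]
  · have d1 := (s5.differentiableAt (by simp)).hasFDerivAt
    have d2 := hol (hE x z) d1 (hM.differentiable (by simp) _).hasFDerivAt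
      (mem_of_superset (hU.mem_nhds a) s2) e4 fun p => hT x ht
        ((norm_fst_le (x, z, c)).trans_lt (e2.trans (by norm_num))) _
        ((norm_ZC _).trans_lt (by norm_num)) _ (e3 _ p)
    have d4 := (hasFDerivAt_const x c).prodMk (hasFDerivAt_prodMk_right (𝕜 := ℝ) z c)
    have d5 := (s7.comp c d4).unique ((hasFDerivAt_id c).add
      ((LC ic (conj z / 2) 0).hasFDerivAt.comp c (d1.comp c d4)))
    have d6 : ∀ v, fderiv ℝ (fun q : P × ℂ × ℂ => q.2.2 + LC ic (conj q.2.1 / 2) 0 (ψ q)) (x, z, c)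
        (0, 0, v) = v + LC ic (conj z / 2) 0 (fderiv ℝ ψ (x, z, c) (0, 0, v)) :=
      fun v => congrArg (fun L => L v) d5
    rw [d6, d6, d2, LC_J, mul_add, mul_one]

end Vale.Agent.P290Z.Kur
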