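import Vale.Agent.P290Z.K.SpecG

/-!
# P290Z, part III (K): the first order operator `al`
-/

open scoped Manifold ContDiff Topology
open Set Filter

set_option linter.unusedSectionVars false

noncomputable section

namespace Vale.Agent.P290Z.Kur

open Vale.Agent.P272.K.LIN (CkFn)
open Vale.Agent.P290.H158 Vale.Agent.P290.H686 Vale.Agent.P267
open Vale.Agent.P267.FL
open Vale.Agent.P267.H469 (t21 del11)

namespace Lm

variable {X : Type} [TopologicalSpace X] [ChartedSpace C2 X] [IsManifold 𝓘(ℂ, C2) ω X]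

/-- the `(2,1)`-part of `du ∧ P` -/
def bt (P : TwoF X) (u : X → ℝ) : X → Fin 2 → ℂ :=
  t21 (del0 fun x => (u x : ℂ)) (dbar0 0 fun x => (u x : ℂ)) P

theorem loc0_zero (e : Ch X) (s : X → ℂ) : loc0 0 e s = fun z => s (e.symm z) := by
  funext z
  rw [loc0, zpow_zero, one_smul]

theorem reg_u {u : X → ℝ} (hu : CkFn C2 ∞ u) : Reg0 ∞ 0 fun x => (u x : ℂ) := fun e he z hz => by
  rw [loc0_zero]
  exact (Complex.ofRealCLM.contDiff.contDiffAt.comp z (hu.at_target he hz)).contDiffWithinAt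

variable {P : TwoF X} {h : X → Matrix (Fin 2) (Fin 2) ℂ} {u : X → ℝ} {σ : X → ℂ}

theorem reg_bt (hP : P.Smooth) (hu : CkFn C2 ∞ u) : Reg1 ∞ 1 (bt P u) :=
  H469.t21_mem (H469.reg_del0 (reg_u hu)) (H469.reg_dbar0 (reg_u hu)) hP.s20 hP.s11

theorem loc_bt (hu : CkFn C2 ∞ u) {e : Ch X} (he : e ∈ atlas C2 X) {y : C2} (hy : y ∈ e.target)
    (j : Fin 2) : loc1 1 e (bt P u) y j =
      pz 0 (fderiv ℝ (fun z => u (e.symm z)) y) * loc11 e P.f11 y 1 j -
      pz 1 (fderiv ℝ (fun z => u (e.symm z)) y) * loc11 e P.f11 y 0 j +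
      pzb j (fderiv ℝ (fun z => u (e.symm z)) y) * loc0 1 e P.f20 y := by
  have h1 := H469.r0mono (reg_u hu) H469.one_le_infty
  have h2 := (hu.at_target he hy).differentiableAt (by simp)
  rw [bt, H469.loc1_t21, H469.del0_law h1 he hy, H469.del0_law h1 he hy,
    H469.dbar0_law h1 he hy, loc0_zero, dz_real h2, dz_real h2, dzb_real h2]

theorem loc0_mul (e : Ch X) (f s : X → ℂ) :
    loc0 1 e (fun x => f x * s x) = fun z => f (e.symm z) * loc0 1 e s z := by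
  funext z
  simp only [loc0, smul_eq_mul]
  ring

theorem bt_eq (hP : P.Smooth) (hc : P.Closed) (e11 : P.f11 = fun y => Complex.I • h y)
    (hu : CkFn C2 ∞ u) : bt P u = dbar0 1 (fun x => (u x : ℂ) * P.f20 x) + del11 (uom h u) := by
  funext x j
  have h1 := H469.d0at (reg_u hu) x
  have h2 : ∀ i, (fun z => loc11 (chartAt C2 x) (uom h u) z i j) =
      fun z => (u ((chartAt C2 x).symm z) : ℂ) * loc11 (chartAt C2 x) P.f11 z i j := fun i => by
    funext z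
    simp only [e11, loc11, uom, Matrix.of_apply, Matrix.smul_apply, smul_eq_mul, Fin.sum_univ_two]
    ring
  have h3 := hc.1 x j
  rw [loc0_zero] at h1
  simp only [TwoF.d21, dbar0] at h3
  simp only [bt, t21, Pi.add_apply, del11, dbar0, del0, loc0_zero, loc0_mul, h2,
    H469.dz_mul' _ h1 (H469.d11at hP.s11 x _ _), H469.dzb_mul' _ h1 (H469.d0at hP.s20 x),
    H469.loc0_at, H469.loc11_at]
  linear_combination (-(u ((chartAt C2 x).symm (chartAt C2 x x)) : ℂ)) * h3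

theorem dbar_bt (hh : IsHerm h) (hP : P.Smooth) (hc : P.Closed)
    (e11 : P.f11 = fun y => Complex.I • h y) (hu : CkFn C2 ∞ u) :
    dbar1 1 (bt P u) = ddu h u := by
  have h1 : Reg0 ∞ 1 fun x => (u x : ℂ) * P.f20 x := fun e he => by
    rw [loc0_mul]
    exact (H469.r0comp (reg_u hu) he).mul (hP.s20 e he)
  rw [bt_eq hP hc e11 hu, H469.dbar1_add (H469.reg_dbar0 h1)
    (H469.reg_del11 (uom_reg le_rfl hh hu)), H469.dbar1_dbar0 h1, zero_add, ddu]

theorem bt_one : bt P (fun _ => 1) = 0 := by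
  funext x j
  simp only [bt, t21, del0, dbar0, loc0_zero, H469.dz_const, H469.dzb_const, zero_mul, sub_self,
    add_zero, Pi.zero_apply]

theorem loc_div (h0 : ∀ x, σ x ≠ 0) (β : X → Fin 2 → ℂ) (e : Ch X) (z : C2) (j : Fin 2) :
    loc1 1 e β z j = loc0 1 e σ z * loc1 0 e (fun x j => β x j / σ x) z j := by
  have := h0 (e.symm z)
  simp only [loc1, loc0, Fin.sum_univ_two, smul_eq_mul, zpow_one, zpow_zero]
  field_simp

theorem loc_ne (h0 : ∀ x, σ x ≠ 0) {e : Ch X} (he : e ∈ atlas C2 X) {z : C2}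
    (hz : z ∈ e.target) : loc0 1 e σ z ≠ 0 := by
  rw [loc0, zpow_one, smul_eq_mul]
  exact mul_ne_zero (jac_det_ne_zero he (e.map_target hz)) (h0 _)

theorem dbar_div (h0 : ∀ x, σ x ≠ 0) (h1 : Reg0 ∞ 1 σ) (h2 : HolOn 1 σ univ)
    {β : X → Fin 2 → ℂ} (hβ : Reg1 ∞ 1 β) (x : X) :
    σ x * dbar1 0 (fun x j => β x j / σ x) x = dbar1 1 β x := by
  have h3 : Reg1 ∞ 0 fun x j => β x j / σ x := fun e he => contDiffOn_pi.2 fun j =>
    (((h1 e he).inv fun z hz => loc_ne h0 he hz).mul (contDiffOn_pi.1 (hβ e he) j)).congr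
      fun z hz => (eq_inv_mul_iff_mul_eq₀ (loc_ne h0 he hz)).2 (loc_div h0 β e z j).symm
  have h4 := (h2 _ (chart_mem_atlas C2 x)).differentiableAt
    (x := chartAt C2 x x) (by simpa using H469.near_target x)
  simp only [dbar1, loc_div h0 β, H469.dzb_mul' _ (H469.d0at h1 x) (H469.d1at h3 x _),
    H469.dzb_hol h4, H469.loc0_at]
  ring

/-- `c ↦ l ∘ c ∘ T` -/
def cfl {H G : Type} [NormedAddCommGroup H] [NormedSpace ℝ H] [NormedAddCommGroup G]
    [NormedSpace ℝ G] (T : H →L[ℝ] ℂ) (l : ℂ →L[ℝ] G) : ℂ →L[ℝ] H →L[ℝ] G :=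
  (ContinuousLinearMap.compL ℝ H ℂ G l).comp
    (((ContinuousLinearMap.compL ℝ H ℂ ℂ).flip T).comp (ContinuousLinearMap.mul ℝ ℂ))

theorem contDiff_cfl {H G : Type} [NormedAddCommGroup H] [NormedSpace ℝ H] [NormedAddCommGroup G]
    [NormedSpace ℝ G] (T : H →L[ℝ] ℂ) (l : ℂ →L[ℝ] G) : ContDiff ℝ ∞ (cfl T l) :=
  (cfl T l).contDiff

/-- `(ξ, ζ) ↦ (T ξ + i T ζ) dz̄_j`, times a complex number -/
def W (T : (C2 →L[ℝ] ℝ) →L[ℝ] ℂ) (j : Fin 2) :
    ℂ →L[ℝ] ((C2 →L[ℝ] ℝ) × (C2 →L[ℝ] ℝ)) →L[ℝ] (C2 →L[ℝ] ℂ) :=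
  cfl (T ∘L ContinuousLinearMap.fst ℝ _ _ + Complex.I • T ∘L ContinuousLinearMap.snd ℝ _ _)
    ((ContinuousLinearMap.id ℝ ℂ).smulRight (dZb j))

theorem contDiffAt_W (T : (C2 →L[ℝ] ℝ) →L[ℝ] ℂ) (j : Fin 2) {f : C2 → ℂ} {y : C2}
    (hf : ContDiffAt ℝ ∞ f y) : ContDiffAt ℝ ∞ (fun y => W T j (f y)) y :=
  (contDiff_cfl _ _).contDiffAt.comp y hf

theorem W_apply (T : (C2 →L[ℝ] ℝ) →L[ℝ] ℂ) (j : Fin 2) (c : ℂ) (ξ ζ : C2 →L[ℝ] ℝ) (v : C2) :
    W T j c (ξ, ζ) v = c * (T ξ + Complex.I * T ζ) * dZb j v := rfl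

end Lm

open Lm

theorem lam : StLam := by
  intro X P h hh hP hc e11
  have h0 := P290.H445.Om_ne_zero X
  have h1 := P290.H445.Reg0_Om X
  refine ⟨fun x => ?_,
    fun u v => ⟨0, fun x j => (bt P u + Complex.I • bt P v) x j / P290.H445.Om X x⟩,
    fun e y => ∑ j, (W (pz 0) j ((loc0 1 e (P290.H445.Om X) y)⁻¹ * loc11 e P.f11 y 1 j) -
      W (pz 1) j ((loc0 1 e (P290.H445.Om X) y)⁻¹ * loc11 e P.f11 y 0 j) +
      W (pzb j) j ((loc0 1 e (P290.H445.Om X) y)⁻¹ * loc0 1 e P.f20 y)),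
    fun e he y hy => ?_, fun u v hu hv => ⟨fun e he y hy => ?_, fun x => ?_⟩⟩
  · change (Qc h (fun _ => 1) x).re = 0
    rw [Qc, ← dbar_bt hh hP hc e11 ck_one, bt_one, H469.dbar1_zero]
    simp
  · have h2 := (h1.contDiffAt he hy).inv (loc_ne h0 he hy)
    have h3 := fun i j => (hP.s11 e he i j).contDiffAt (e.open_target.mem_nhds hy)
    exact ContDiffAt.sum fun j _ =>
      ((contDiffAt_W _ j (h2.mul (h3 1 j))).sub (contDiffAt_W _ j (h2.mul (h3 0 j)))).add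
        (contDiffAt_W _ j (h2.mul (hP.s20.contDiffAt he hy)))
  · have h2 := fun j => (eq_inv_mul_iff_mul_eq₀ (loc_ne h0 he hy)).2
      (loc_div h0 (bt P u + Complex.I • bt P v) e y j).symm
    ext w
    simp only [E1, ev1_apply, h2, H469.loc1_add, H469.loc1_smul, loc_bt hu he hy, loc_bt hv he hy,
      loc10, add_apply, sub_apply, W_apply, dZb_apply, Fin.sum_univ_two, smul_eq_mul,
      Pi.zero_apply]
    ring
  · have h2 := reg_bt hP hu
    have h3 := reg_bt hP hv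
    have h4 : Reg1 ∞ 1 (Complex.I • bt P v) := (H469.S21 X.X).smul_mem _ h3
    have h5 := dbar_div h0 h1 (P290.H445.HolOn_Om X) ((H469.S21 X.X).add_mem h2 h4) x
    rw [H469.dbar1_add h2 h4, H469.dbar1_smul h3, dbar_bt hh hP hc e11 hu,
      dbar_bt hh hP hc e11 hv] at h5
    have h6 : ∀ u, CkFn C2 ∞ u → Complex.I * (h x).det * ((gLOp hh).Q u x : ℂ) = ddu h u x :=
      fun u hu => by
        have := det_h_ne hh x
        change _ * ((Qc h u x).re : ℂ) = _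
        rw [Complex.conj_eq_iff_re.1 (Qc_real hh (hu.of_le H469.two_le_infty) x), Qc]
        field_simp
        simp
    rw [mul_add, mul_left_comm _ Complex.I, h6 u hu, h6 v hv]
    simpa [TwoF.wedge, omF, OneF.d] using h5

end Vale.Agent.P290Z.Kur
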