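import Vale.Agent.P290Z.K.SpecL

/-!
# P290Z, part III (K): the foliation by graphs and the normal form (LEAF A, LEAF B)
-/

open scoped ContDiff Topology ComplexConjugate
open Set Filter Complex

noncomputable section

namespace Vale.Agent.P290Z.Kur

namespace LeafAB

section calculus

variable {P E F : Type} [NormedAddCommGroup P] [NormedSpace ℝ P] [NormedAddCommGroup E]
  [NormedSpace ℝ E] [NormedAddCommGroup F] [NormedSpace ℝ F] {f g : P × E → F} {q : P × E}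

theorem diff {G : Type} [NormedAddCommGroup G] [NormedSpace ℝ G] {f : G → F} {q : G}
    (h : ContDiffAt ℝ ∞ f q) : DifferentiableAt ℝ f q := h.differentiableAt (by simp)

theorem has_full (h : DifferentiableAt ℝ f q) : HasFDerivAt (fun y => f (q.1, y))
    ((fderiv ℝ f q).comp (ContinuousLinearMap.inr ℝ P E)) q.2 :=
  HasFDerivAt.comp (f := fun y => (q.1, y)) q.2 h.hasFDerivAt (hasFDerivAt_prodMk_right q.1 q.2)

theorem has_Dv (h : DifferentiableAt ℝ f q) : HasFDerivAt (fun y => f (q.1, y)) (Dv f q) q.2 :=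
  (has_full h).differentiableAt.hasFDerivAt

theorem contDiffAt_Dv (h : ContDiffAt ℝ ∞ f q) : ContDiffAt ℝ ∞ (Dv f) q := by
  have h1 : ContDiffAt ℝ ∞ (fun q => (fderiv ℝ f q).comp (ContinuousLinearMap.inr ℝ P E)) q :=
    (h.fderiv_right (m := ∞) le_rfl).clm_comp contDiffAt_const
  refine h1.congr_of_eventuallyEq ?_
  filter_upwards [(h.of_le (show (1 : WithTop ℕ∞) ≤ ∞ by exact_mod_cast le_top)).eventually
    (by simp)] with r hr
  exact (has_full (hr.differentiableAt (by simp))).fderiv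

theorem has_eval {lam : P × E → E →L[ℝ] ℂ} (h : DifferentiableAt ℝ lam q) (v : E) :
    HasFDerivAt (fun y => lam (q.1, y) v) ((Dv lam q).flip v) q.2 := by
  simpa using (has_Dv h).clm_apply (hasFDerivAt_const v q.2)

theorem symm_Dv {g : P × E → ℂ} (h : ContDiffAt ℝ ∞ g q) (u v : E) :
    Dv (Dv g) q u v = Dv (Dv g) q v u :=
  ((h.comp (f := fun y => (q.1, y)) q.2 (contDiffAt_const.prodMk contDiffAt_id)).isSymmSndFDerivAt
    (by simpa using (show (2 : WithTop ℕ∞) ≤ ∞ from WithTop.coe_le_coe.2 le_top))).eq u v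

theorem contDiffAt_sg {G : Type} [NormedAddCommGroup G] [NormedSpace ℝ G]
    {lam : P × E → E →L[ℝ] ℂ} {r : G} {ρ : G → P × E} {u v : G → E}
    (h : ContDiffAt ℝ ∞ lam (ρ r)) (hρ : ContDiffAt ℝ ∞ ρ r) (hu : ContDiffAt ℝ ∞ u r)
    (hv : ContDiffAt ℝ ∞ v r) : ContDiffAt ℝ ∞ (fun r => sg lam (ρ r) (u r) (v r)) r :=
  have h1 := (contDiffAt_Dv h).comp r hρ
  ((h1.clm_apply hu).clm_apply hv).sub ((h1.clm_apply hv).clm_apply hu)

theorem map_c (l : ℂ →L[ℝ] F) (w : ℂ) : l w = w.re • l 1 + w.im • l I := by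
  rw [← map_smul, ← map_smul, ← map_add]
  congr 1
  simp

omit [NormedAddCommGroup P] [NormedSpace ℝ P] in
theorem sg_plane (lam : P × E → E →L[ℝ] ℂ) (q : P × E) (i : ℂ →L[ℝ] E) (u v : ℂ) :
    sg lam q (i u) (i v) = (u.re * v.im - u.im * v.re) * sg lam q (i 1) (i I) := by
  rw [map_c i u, map_c i v]
  simp only [sg, map_add, map_smul, add_apply, smul_apply, real_smul]
  ring

end calculus

variable {P : Type} [NormedAddCommGroup P] [NormedSpace ℝ P]

/-- the normal form without the normalisation -/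
theorem exists_ab (h1 : StPoin1) [FiniteDimensional ℝ P] {lam : P × CC → CC →L[ℝ] ℂ} {x₀ : P}
    {y₀ : CC} (h : ∀ᶠ q in 𝓝 (x₀, y₀), ContDiffAt ℝ ∞ lam q)
    (h0 : ∀ᶠ q in 𝓝 (x₀, y₀), sg lam q (1, 0) (I, 0) = 0) :
    ∃ a b : P × CC → ℂ, ∀ᶠ q in 𝓝 (x₀, y₀), ContDiffAt ℝ ∞ a q ∧ ContDiffAt ℝ ∞ b q ∧
      ∀ u v, sg lam q u v = nf (Dv a q) (Dv b q) 0 u v := by
  set i := ContinuousLinearMap.inl ℝ ℂ ℂ
  have c1 : ContDiff ℝ ∞ (fun r : (P × ℂ) × ℂ => ((r.1.1, r.2, r.1.2) : P × CC)) := by fun_prop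
  have c2 : ContDiff ℝ ∞ (fun q : P × CC => (((q.1, q.2.2), q.2.1) : (P × ℂ) × ℂ)) := by fun_prop
  obtain ⟨g', hg⟩ := h1 (P × ℂ) ℂ (fun r => (lam (r.1.1, r.2, r.1.2)).comp i) (x₀, y₀.2) y₀.1 (by
    filter_upwards [(c1.continuous.tendsto ((x₀, y₀.2), y₀.1)).eventually (h.and h0)] with r hr
    refine ⟨(hr.1.comp r c1.contDiffAt).clm_comp contDiffAt_const, fun u v => ?_⟩
    have e : ∀ u v, Dv (fun r : (P × ℂ) × ℂ => (lam (r.1.1, r.2, r.1.2)).comp i) r u v =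
        Dv lam (r.1.1, r.2, r.1.2) (i u) (i v) := by
      intro u v
      have a1 := (HasFDerivAt.comp (f := fun z : ℂ => ((z, r.1.2) : CC)) r.2 (has_Dv (diff hr.1))
        (hasFDerivAt_prodMk_left r.2 r.1.2)).clm_comp (hasFDerivAt_const i r.2)
      refine (congrArg (fun L : ℂ →L[ℝ] ℂ →L[ℝ] ℂ => L u v) a1.fderiv).trans ?_
      simp [i]
    rw [sg, e, e, ← sg, sg_plane]
    exact mul_eq_zero_of_right _ hr.2)
  set g : P × CC → ℂ := fun q => g' ((q.1, q.2.2), q.2.1)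
  set ν : P × CC → CC →L[ℝ] ℂ := fun q => Dv g q - lam q
  set a : P × CC → ℂ := fun q => (ν q (0, 1) - I * ν q (0, I)) / 2
  set b : P × CC → ℂ := fun q => (ν q (0, 1) + I * ν q (0, I)) / 2
  have H : ∀ᶠ q in 𝓝 (x₀, y₀), ContDiffAt ℝ ∞ lam q ∧ ContDiffAt ℝ ∞ g q ∧
      ∀ v, lam q v = Dv g q v - (a q * v.2 + b q * conj v.2) := by
    filter_upwards [(c2.continuous.tendsto (x₀, y₀)).eventually hg, h] with q hq hl
    have a0 : ContDiffAt ℝ ∞ g q := hq.1.comp q c2.contDiffAt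
    refine ⟨hl, a0, fun v => ?_⟩
    have a1 := HasFDerivAt.comp (f := fun z : ℂ => ((z, q.2.2) : CC)) q.2.1 (has_Dv (diff a0))
      (hasFDerivAt_prodMk_left q.2.1 q.2.2)
    have a2 : Dv g q (v.1, 0) = lam q (v.1, 0) :=
      congrArg (fun L : ℂ →L[ℝ] ℂ => L v.1) (a1.fderiv.symm.trans hq.2)
    have a3 : ν q v = ν q (v.1, 0) + ν q (0, v.2) := by
      rw [← map_add]
      simp
    have a4 : ν q (0, v.2) = v.2.re • ν q (0, 1) + v.2.im • ν q (0, I) :=
      map_c ((ν q).comp (ContinuousLinearMap.inr ℝ ℂ ℂ)) v.2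
    have a5 : ν q (v.1, 0) = 0 := sub_eq_zero.2 a2
    have a6 : ν q v = Dv g q v - lam q v := rfl
    have a7 := re_add_im v.2
    have a8 : conj v.2 = v.2.re - v.2.im * I := by
      apply Complex.ext <;> simp
    rw [real_smul, real_smul] at a4
    simp only [a, b]
    rw [a8]
    linear_combination a6 - a3 - a5 - a4 - (ν q (0, 1) - I * ν q (0, I)) / 2 * a7 -
      v.2.im * ν q (0, I) * I_mul_I
  refine ⟨a, b, ?_⟩
  filter_upwards [H.eventually_nhds] with q hq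
  obtain ⟨hl, a0, -⟩ := hq.self_of_nhds
  have a1 : ContDiffAt ℝ ∞ ν q := (contDiffAt_Dv a0).sub hl
  have a2 := a1.clm_apply (contDiffAt_const (c := ((0, 1) : CC)))
  have a3 := (contDiffAt_const (c := I)).mul (a1.clm_apply (contDiffAt_const (c := ((0, I) : CC))))
  have ha : ContDiffAt ℝ ∞ a q := (a2.sub a3).div_const 2
  have hb : ContDiffAt ℝ ∞ b q := (a2.add a3).div_const 2
  refine ⟨ha, hb, fun u v => ?_⟩
  have e : ∀ u v, Dv lam q u v = Dv (Dv g) q u v - (Dv a q u * v.2 + Dv b q u * conj v.2) := by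
    intro u v
    have b1 := ((has_eval (diff (contDiffAt_Dv a0)) v).sub (((has_Dv (diff ha)).mul_const v.2).add
      ((has_Dv (diff hb)).mul_const (conj v.2)))).congr_of_eventuallyEq
      (f₁ := fun y => lam (q.1, y) v)
      (((Continuous.prodMk_right q.1).continuousAt (x := q.2)).tendsto.eventually
        (hq.mono fun r hr => hr.2.2 v))
    have b2 := congrArg (fun L : CC →L[ℝ] ℂ => L u) ((has_eval (diff hl) v).unique b1)
    simpa [mul_comm] using b2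
  rw [sg, e, e, symm_Dv a0 u v]
  simp only [nf, Wd]
  ring

end LeafAB

open LeafAB

theorem leafA (hG : StGraph) : StLeafA := by
  intro P _ _ _ lam x₀ y₀ p ⟨hp, h⟩
  set p' : CC → ℂ := fun y => sg lam (x₀, y) (1, 0) (0, 1)
  have c0 : Continuous fun y : CC => (x₀, y) := Continuous.prodMk_right x₀
  have hp' : ∀ᶠ y in 𝓝 y₀, ContDiffAt ℝ ∞ p' y ∧ p' y = p y := by
    filter_upwards [(c0.tendsto y₀).eventually h] with y hy
    exact ⟨contDiffAt_sg (ρ := fun y => (x₀, y)) hy.1 (by fun_prop) contDiffAt_const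
      contDiffAt_const, by simpa [dt] using hy.2 rfl (1, 0) (0, 1)⟩
  have hn : ∀ᶠ y in 𝓝 y₀, p' y ≠ 0 := hp'.self_of_nhds.1.continuousAt.eventually_ne
    (by rw [hp'.self_of_nhds.2]; exact hp)
  have c1 : ContDiff ℝ ∞ (fun r : P × ℂ × ℂ × ℂ × ℂ => ((r.1, r.2.1, r.2.2.1) : P × CC)) := by
    fun_prop
  obtain ⟨k, hk⟩ := hG P (fun r => r.2.2.2.1 + I * r.2.2.2.2 -
    sg lam (r.1, r.2.1, r.2.2.1) (1, r.2.2.2.1) (I, r.2.2.2.2) * (-I * p' (r.2.1, r.2.2.1))⁻¹)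
    x₀ y₀.1 y₀.2 ∅ (by
      filter_upwards [(c1.continuous.tendsto (x₀, y₀.1, y₀.2, 0, 0)).eventually h,
        (c1.snd.continuous.tendsto (x₀, y₀.1, y₀.2, 0, 0)).eventually (hp'.and hn)] with r hr hr'
      have hne := mul_ne_zero (neg_ne_zero.2 I_ne_zero) hr'.2
      have b1 := contDiffAt_sg (u := fun r => ((1, r.2.2.2.1) : CC))
        (v := fun r => ((I, r.2.2.2.2) : CC)) (r := r) hr.1 c1.contDiffAt (by fun_prop)
        (by fun_prop)
      have b0 : ContDiffAt ℝ ∞ (fun r : P × ℂ × ℂ × ℂ × ℂ => p' (r.2.1, r.2.2.1)) r :=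
        ContDiffAt.comp (g := p') r hr'.1.1 c1.snd.contDiffAt
      have b2 := ((contDiffAt_const (c := -I)).mul b0).inv hne
      have b3 : ContDiffAt ℝ ∞ (fun r : P × ℂ × ℂ × ℂ × ℂ => r.2.2.2.1 + I * r.2.2.2.2) r := by
        fun_prop
      refine ⟨b3.sub (b1.mul b2), fun e => ?_, fun e => e.elim⟩
      rw [hr.2 e, sub_eq_zero, eq_mul_inv_iff_mul_eq₀ hne, hr'.1.2, dt]
      linear_combination (-p (r.2.1, r.2.2.1) * r.2.2.2.2) * I_mul_I)
  have c2 : Tendsto (fun q : P × CC => ((q.2.1, k q) : CC)) (𝓝 (x₀, y₀)) (𝓝 y₀) := by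
    have := (continuous_snd.fst.continuousAt (x := (x₀, y₀))).prodMk
      hk.self_of_nhds.1.continuousAt
    rwa [ContinuousAt, hk.self_of_nhds.2.1 rfl] at this
  refine ⟨fun q => (q.2.1, k q), ?_⟩
  filter_upwards [hk, c2.eventually hn] with q hq h2
  refine ⟨ContDiffAt.prodMk (by fun_prop) hq.1, fun e => Prod.ext rfl (hq.2.1 e), ?_⟩
  have e : ∀ u, Dv (fun q : P × CC => ((q.2.1, k q) : CC)) q u = (u.1, fderiv ℝ k q (0, u)) :=
    fun u => by
      have := ((hasFDerivAt_fst (𝕜 := ℝ) (p := q.2)).prodMk (has_full (diff hq.1))).fderiv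
      exact congrArg (fun L : CC →L[ℝ] CC => L u) this
  have h3 := sub_eq_self.1 hq.2.2.1.symm
  rw [e, e]
  exact (mul_eq_zero.1 h3).resolve_right (inv_ne_zero (mul_ne_zero (neg_ne_zero.2 I_ne_zero) h2))

theorem leafB (h1 : StPoin1) : StLeafB := by
  intro P _ _ _ lam x₀ y₀ p ⟨_, h⟩ h0
  obtain ⟨a, b, hab⟩ := exists_ab h1 (h.mono fun q hq => hq.1) h0
  set ρ : P × CC → P × CC := fun q => (q.1, y₀.1, q.2.2)
  have c1 : ContDiff ℝ ∞ ρ := by fun_prop
  have eρ : ∀ (f : P × CC → ℂ) q, DifferentiableAt ℝ f q → DifferentiableAt ℝ f (ρ q) → ∀ u,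
      Dv (fun q => f q - f (ρ q)) q u = Dv f q u - Dv f (ρ q) (0, u.2) := by
    intro f q a1 a2 u
    have a3 := HasFDerivAt.comp (f := fun y : CC => ((y₀.1, y.2) : CC)) q.2 (has_Dv a2)
      ((hasFDerivAt_const y₀.1 q.2).prodMk hasFDerivAt_snd)
    exact congrArg (fun L : CC →L[ℝ] ℂ => L u) ((has_Dv a1).sub a3).fderiv
  have hx : ∀ᶠ q in 𝓝 (x₀, y₀), q.1 = x₀ →
      ∀ w, Dv a q (w, 0) = -p q.2 * w ∧ Dv b q (w, 0) = 0 := by
    filter_upwards [h, hab] with q a1 a2 e w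
    have a3 := (a1.2 e (w, 0) (0, 1)).symm.trans (a2.2.2 _ _)
    have a4 := (a1.2 e (w, 0) (0, I)).symm.trans (a2.2.2 _ _)
    simp only [dt, nf, Wd, map_zero, map_one, conj_I] at a3 a4
    constructor
    · linear_combination (1 / 2) * a3 - (I / 2) * a4 +
        (p q.2 * w + Dv a q (w, 0) - Dv b q (w, 0)) / 2 * I_mul_I
    · linear_combination (1 / 2) * a3 + (I / 2) * a4 -
        (p q.2 * w + Dv a q (w, 0) - Dv b q (w, 0)) / 2 * I_mul_I
  obtain ⟨r, hr, hb⟩ := Metric.eventually_nhds_iff_ball.1 (hab.and hx)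
  refine ⟨fun q => a q - a (ρ q), fun q => b q - b (ρ q),
    fun s => sg lam (s.1, y₀.1, s.2) (0, 1) (0, I) / (-2 * I), fun u => ?_, ?_⟩
  · have a1 := diff hab.self_of_nhds.1
    rw [eρ a _ a1 a1, ← (hx.self_of_nhds rfl u.1).1]
    exact (map_sub _ _ _).symm.trans (congrArg _ (Prod.ext (sub_zero _) (sub_self _)))
  filter_upwards [Metric.ball_mem_nhds (x₀, y₀) hr, hab,
    (c1.continuous.tendsto (x₀, y₀)).eventually (h.and hab)] with q hq a1 a2
  refine ⟨a1.1.sub (a2.2.1.comp q c1.contDiffAt), a1.2.1.sub (a2.2.2.1.comp q c1.contDiffAt),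
    (contDiffAt_sg (ρ := fun s : P × ℂ => (s.1, y₀.1, s.2)) a2.1.1 (by fun_prop)
      contDiffAt_const contDiffAt_const).div_const _, fun e => ⟨?_, ?_⟩, fun u v => ?_⟩
  · rw [← ball_prod_same, ← ball_prod_same] at hq hb
    have a3 : ∀ z ∈ Metric.ball y₀.1 r, HasFDerivAt (fun z => b (q.1, z, q.2.2))
        (0 : ℂ →L[ℝ] ℂ) z := by
      intro z hz
      have a4 := hb (q.1, z, q.2.2) ⟨hq.1, hz, hq.2.2⟩
      have a5 := HasFDerivAt.comp (f := fun z : ℂ => ((z, q.2.2) : CC)) z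
        (has_Dv (diff a4.1.2.1)) (hasFDerivAt_prodMk_left z q.2.2)
      exact a5.congr_fderiv (ContinuousLinearMap.ext fun w => (a4.2 e w).2)
    exact sub_eq_zero.2 (Metric.isOpen_ball.is_const_of_fderiv_eq_zero (𝕜 := ℝ)
      (convex_ball y₀.1 r).isPreconnected
      (fun z hz => (a3 z hz).differentiableAt.differentiableWithinAt)
      (fun z hz => (a3 z hz).fderiv) hq.2.1 (Metric.mem_ball_self hr))
  · have a3 := a2.1.2 e (0, 1) (0, I)
    simp only [dt, zero_mul, mul_zero, sub_zero] at a3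
    exact div_eq_zero_iff.2 (Or.inl a3)
  · have a3 := (a2.2.2.2 (0, u.2) (0, v.2)).symm.trans
      (sg_plane lam (ρ q) (ContinuousLinearMap.inr ℝ ℂ ℂ) u.2 v.2)
    have a4 : u.2 * conj v.2 - v.2 * conj u.2 =
        (u.2.re * v.2.im - u.2.im * v.2.re) * (-2 * I) := by
      apply Complex.ext <;> simp <;> ring
    rw [a1.2.2 u v]
    simp only [nf, Wd, eρ a q (diff a1.1) (diff a2.2.1), eρ b q (diff a1.2.1) (diff a2.2.2.1),
      ContinuousLinearMap.inr_apply] at a3 ⊢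
    rw [a4] at a3 ⊢
    linear_combination a3 - (u.2.re * v.2.im - u.2.im * v.2.re) *
      div_mul_cancel₀ (sg lam (ρ q) (0, 1) (0, I)) (show -2 * I ≠ 0 by simp)

end Vale.Agent.P290Z.Kur
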