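import Vale.Agent.P290Z.K.SpecL

/-!
# P290Z, part III (K): LEAF C, a first integral for the normal form
-/

open scoped ContDiff Topology ComplexConjugate
open Set Filter Complex

noncomputable section

namespace Vale.Agent.P290Z.Kur

namespace LC

/-- real linear maps on the complex line -/
theorem dec {F : Type} [NormedAddCommGroup F] [NormedSpace ℝ F] (g : F →L[ℝ] ℂ) (j : ℂ →L[ℝ] F)
    (c : ℂ) : g (j c) = c * ((g (j 1) - I * g (j I)) / 2) +
      conj c * ((g (j 1) + I * g (j I)) / 2) := by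
  have h1 : c = c.re • (1 : ℂ) + c.im • I := by simp
  have h2 : g (j c) = c.re * g (j 1) + c.im * g (j I) := by
    conv_lhs => rw [h1]
    simp only [map_add, map_smul]
    simp only [real_smul]
  have h3 : conj c = c.re - c.im * I := by
    apply Complex.ext <;> simp
  rw [h2, h3]
  conv_rhs => rw [← re_add_im c]
  simp only [add_re, ofReal_re, mul_re, I_re, mul_zero, ofReal_im, I_im, mul_one, sub_self,
    add_zero, add_im, mul_im, zero_add]
  linear_combination (c.im : ℂ) * g (j I) * I_mul_I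

theorem dec' {F : Type} [NormedAddCommGroup F] [NormedSpace ℝ F] (g : F →L[ℝ] ℂ) (j : ℂ →L[ℝ] F)
    (h : g (j I) = I * g (j 1)) (c : ℂ) : g (j c) = c * g (j 1) := by
  rw [dec g j c, h]
  linear_combination (-c * g (j 1) / 2 + conj c * g (j 1) / 2) * I_mul_I

theorem cr_of_null {β : CC → ℂ} {e : ℂ} (h : Null (nf (fun u => u.1) β e)) :
    β (I, 0) = I * β (1, 0) := by
  have h1 := h (1, 0) (I, 0) (0, 1) (0, I)
  simp only [nf, Wd, map_zero, map_one, conj_I] at h1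
  linear_combination (-I / 2) * h1 + (β (I, 0) - I * β (1, 0)) * I_mul_I

theorem kills_of {l β : CC → ℂ} {e K hc bA bc bd : ℂ} (hK : K ≠ 0)
    (hβ : ∀ u, β u = u.1 * bA + u.2 * bc + conj u.2 * bd)
    (hl : ∀ u, l u * K = u.1 - u.2 * hc - conj u.2 * (bA * hc + bc - e)) :
    Kills l (nf (fun u => u.1) β e) := by
  intro u v w
  refine mul_right_cancel₀ hK ?_
  simp only [nf, Wd, hβ]
  linear_combination
    (v.2 * w.1 - w.2 * v.1 + (conj v.2 * (w.1 * bA + w.2 * bc + conj w.2 * bd) -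
      conj w.2 * (v.1 * bA + v.2 * bc + conj v.2 * bd)) +
      e * (v.2 * conj w.2 - w.2 * conj v.2)) * hl u -
    (u.2 * w.1 - w.2 * u.1 + (conj u.2 * (w.1 * bA + w.2 * bc + conj w.2 * bd) -
      conj w.2 * (u.1 * bA + u.2 * bc + conj u.2 * bd)) +
      e * (u.2 * conj w.2 - w.2 * conj u.2)) * hl v +
    (u.2 * v.1 - v.2 * u.1 + (conj u.2 * (v.1 * bA + v.2 * bc + conj v.2 * bd) -
      conj v.2 * (u.1 * bA + u.2 * bc + conj u.2 * bd)) +
      e * (u.2 * conj v.2 - v.2 * conj u.2)) * hl w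

/-- the derivatives of a function which is holomorphic in the first variable -/
theorem hol_fderiv {f : CC → ℂ} {y : CC} (hf : ContDiffAt ℝ ∞ f y)
    (h : ∀ᶠ y' in 𝓝 y, fderiv ℝ f y' (I, 0) = I * fderiv ℝ f y' (1, 0)) (v : CC) :
    DifferentiableAt ℂ (fun k : ℂ => fderiv ℝ f (k, y.2) v) y.1 := by
  have hd : HasFDerivAt (fderiv ℝ f) (fderiv ℝ (fderiv ℝ f) y) y :=
    ((hf.fderiv_right (m := ∞) le_rfl).differentiableAt (by simp)).hasFDerivAt
  have hs := hf.isSymmSndFDerivAt (by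
    rw [minSmoothness_of_isRCLikeNormedField]
    exact WithTop.coe_le_coe.2 (le_top (a := (2 : ℕ∞))))
  have ha : ∀ w : CC, HasFDerivAt (fun y' => fderiv ℝ f y' w)
      ((ContinuousLinearMap.apply ℝ ℂ w).comp (fderiv ℝ (fderiv ℝ f) y)) y := fun w =>
    (ContinuousLinearMap.apply ℝ ℂ w).hasFDerivAt.comp y hd
  have h1 := ((ha (1, 0)).const_mul I).congr_of_eventuallyEq h
  have h2 := DFunLike.congr_fun ((ha (I, 0)).unique h1) v
  have h3 : HasFDerivAt (fun k : ℂ => fderiv ℝ f (k, y.2) v)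
      (((ContinuousLinearMap.apply ℝ ℂ v).comp (fderiv ℝ (fderiv ℝ f) y)).comp
        (ContinuousLinearMap.inl ℝ ℂ ℂ)) y.1 :=
    HasFDerivAt.comp (f := fun k : ℂ => ((k, y.2) : CC)) y.1 (ha v)
      (hasFDerivAt_prodMk_left y.1 y.2)
  rw [differentiableAt_complex_iff_differentiableAt_real, h3.fderiv]
  refine ⟨h3.differentiableAt, ?_⟩
  show fderiv ℝ (fderiv ℝ f) y (I, 0) v = I • fderiv ℝ (fderiv ℝ f) y (1, 0) v
  rw [hs.eq (I, 0) v, hs.eq (1, 0) v]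
  exact h2

variable {P : Type} [NormedAddCommGroup P] [NormedSpace ℝ P]

theorem slice {E F : Type} [NormedAddCommGroup E] [NormedSpace ℝ E] [NormedAddCommGroup F]
    [NormedSpace ℝ F] {b : P × E → F} {q : P × E} (h : ContDiffAt ℝ ∞ b q) :
    ContDiffAt ℝ ∞ (fun y => b (q.1, y)) q.2 :=
  ContDiffAt.comp (f := fun y : E => (q.1, y)) q.2 h (contDiffAt_const.prodMk contDiffAt_id)

theorem dv_smooth {b : P × CC → ℂ} {q : P × CC} (h : ContDiffAt ℝ ∞ b q) :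
    ContDiffAt ℝ ∞ (Dv b) q :=
  ContDiffAt.fderiv (f := fun (q : P × CC) y => b (q.1, y)) (g := fun q => q.2) (n := ∞)
    (ContDiffAt.comp (f := fun r : (P × CC) × CC => (r.1.1, r.2)) (q, q.2) h (by fun_prop))
    contDiffAt_snd le_rfl

omit [NormedSpace ℝ P] in
theorem ev_slice {E : Type} [TopologicalSpace E] {p : P × E → Prop} {q : P × E}
    (h : ∀ᶠ r in 𝓝 q, p r) : ∀ᶠ y in 𝓝 q.2, p (q.1, y) :=
  (Continuous.tendsto' (f := fun y : E => (q.1, y)) (by fun_prop) q.2 q rfl).eventually h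

/-- the right hand side of the graph equation -/
def N (b : P × CC → ℂ) (e : P × ℂ → ℂ) (r : P × ℂ × ℂ × ℂ × ℂ) : ℂ :=
  Dv b (r.1, r.2.2.1, r.2.1) (1, 0) * (r.2.2.2.1 - I * r.2.2.2.2) +
    (Dv b (r.1, r.2.2.1, r.2.1) (0, 1) - I * Dv b (r.1, r.2.2.1, r.2.1) (0, I)) -
    2 * e (r.1, r.2.1)

theorem N_good {b : P × CC → ℂ} {e : P × ℂ → ℂ} {x₀ : P} {T : Set P} {r : P × ℂ × ℂ × ℂ × ℂ}
    (h : ∀ᶠ q in 𝓝 ((r.1, r.2.2.1, r.2.1) : P × CC), ContDiffAt ℝ ∞ b q ∧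
      ContDiffAt ℝ ∞ e (q.1, q.2.2) ∧ (q.1 = x₀ → b q = 0 ∧ e (q.1, q.2.2) = 0) ∧
      (q.1 ∈ T → Null (nf (fun u => u.1) (Dv b q) (e (q.1, q.2.2))))) :
    ContDiffAt ℝ ∞ (N b e) r ∧ (r.1 = x₀ → N b e r = 0) ∧
      (r.1 ∈ T → DifferentiableAt ℂ (fun u : ℂ × ℂ × ℂ => N b e (r.1, r.2.1, u)) r.2.2) := by
  obtain ⟨h1, h2, h3, -⟩ := h.self_of_nhds
  refine ⟨?_, fun hx => ?_, fun hx => ?_⟩
  · have hD : ∀ v : CC, ContDiffAt ℝ ∞
        (fun r : P × ℂ × ℂ × ℂ × ℂ => Dv b (r.1, r.2.2.1, r.2.1) v) r := fun v =>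
      (ContDiffAt.comp (f := fun r : P × ℂ × ℂ × ℂ × ℂ => ((r.1, r.2.2.1, r.2.1) : P × CC)) r
        (dv_smooth h1) (by fun_prop)).clm_apply contDiffAt_const
    have he : ContDiffAt ℝ ∞ (fun r : P × ℂ × ℂ × ℂ × ℂ => e (r.1, r.2.1)) r :=
      ContDiffAt.comp (f := fun r : P × ℂ × ℂ × ℂ × ℂ => (r.1, r.2.1)) r h2 (by fun_prop)
    exact (((hD _).mul (by fun_prop)).add ((hD _).sub (contDiffAt_const.mul (hD _)))).sub
      (contDiffAt_const.mul he)
  · have h4 : (fun y => b (r.1, y)) =ᶠ[𝓝 (r.2.2.1, r.2.1)] fun _ => 0 :=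
      (ev_slice h).mono fun y hy => (hy.2.2.1 hx).1
    have h5 : Dv b (r.1, r.2.2.1, r.2.1) = 0 := by
      rw [Dv, h4.fderiv_eq, fderiv_fun_const]
      rfl
    have h6 : e (r.1, r.2.1) = 0 := (h3 hx).2
    simp [N, h5, h6]
  · have hD : ∀ v : CC, DifferentiableAt ℂ
        (fun u : ℂ × ℂ × ℂ => Dv b (r.1, u.1, r.2.1) v) r.2.2 := fun v =>
      DifferentiableAt.comp (g := fun k : ℂ => fderiv ℝ (fun y => b (r.1, y)) (k, r.2.1) v)
        (f := fun u : ℂ × ℂ × ℂ => u.1) r.2.2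
        (hol_fderiv (slice h1) ((ev_slice h).mono fun y hy => cr_of_null (hy.2.2.2 hx)) v)
        differentiableAt_fst
    have hp : DifferentiableAt ℂ (fun u : ℂ × ℂ × ℂ => u.2.1 - I * u.2.2) r.2.2 := by fun_prop
    exact (((hD (1, 0)).fun_mul hp).fun_add
      ((hD (0, 1)).fun_sub ((hD (0, I)).const_mul I))).sub_const (2 * e (r.1, r.2.1))

end LC

open LC in
/-- **LEAF C** -/
theorem leafC (hG : StGraph) (hI : StInvP) : StLeafC := by
  intro P _ _ _ b e x₀ y₀ T h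
  obtain ⟨k, hk⟩ := hG P (N b e) x₀ y₀.2 y₀.1 T (by
    have h1 : Tendsto (fun r : P × ℂ × ℂ × ℂ × ℂ => ((r.1, r.2.2.1, r.2.1) : P × CC))
        (𝓝 (x₀, y₀.2, y₀.1, 0, 0)) (𝓝 (x₀, y₀)) :=
      Continuous.tendsto' (by fun_prop) _ _ rfl
    exact (h1.eventually h.eventually_nhds).mono fun r hr => N_good hr)
  set Φ : P × CC → CC := fun q => (k (q.1, q.2.2, q.2.1), q.2.2) with hΦ
  have hsw : Tendsto (fun q : P × CC => ((q.1, q.2.2, q.2.1) : P × ℂ × ℂ)) (𝓝 (x₀, y₀))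
      (𝓝 (x₀, y₀.2, y₀.1)) := Continuous.tendsto' (by fun_prop) _ _ rfl
  have hk' := hsw.eventually hk
  have hid : (fun y => Φ (x₀, y)) =ᶠ[𝓝 y₀] id :=
    (ev_slice hk').mono fun y hy => Prod.ext (hy.2.1 rfl) rfl
  obtain ⟨H, h0, hO, hH, -, hsymm⟩ := hI P CC CC Φ (x₀, y₀) _ hk'
    (hk'.mono fun q hq => (ContDiffAt.comp
      (f := fun q : P × CC => ((q.1, q.2.2, q.2.1) : P × ℂ × ℂ)) q hq.1 (by fun_prop)).prodMk
        (by fun_prop))
    (by
      rw [Dv, hid.fderiv_eq, fderiv_id]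
      exact Function.bijective_id)
  have ht : H.target ∈ 𝓝 (x₀, y₀) := by
    refine H.open_target.mem_nhds ?_
    have := H.map_source h0
    rwa [hH, show Φ (x₀, y₀) = y₀ from hid.self_of_nhds] at this
  have hinv : ∀ r ∈ H.target, (H.symm r).1 = r.1 ∧ (H.symm r).2.2 = r.2.2 ∧
      k (r.1, r.2.2, (H.symm r).2.1) = r.2.1 := fun r hr => by
    have h1 := H.right_inv hr
    rw [hH] at h1
    have h2 : (H.symm r).1 = r.1 := (Prod.ext_iff.1 h1).1
    have h3 : (H.symm r).2.2 = r.2.2 := (Prod.ext_iff.1 (Prod.ext_iff.1 h1).2).2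
    have h4 : k ((H.symm r).1, (H.symm r).2.2, (H.symm r).2.1) = r.2.1 :=
      (Prod.ext_iff.1 (Prod.ext_iff.1 h1).2).1
    rw [h2, h3] at h4
    exact ⟨h2, h3, h4⟩
  refine ⟨fun r => (H.symm r).2.1, ?_⟩
  filter_upwards [ht, h] with r hr hb
  obtain ⟨e1, e2, e3⟩ := hinv r hr
  have hq := hO (H.map_target hr)
  simp only [mem_ofPred_eq, e1, e2] at hq
  obtain ⟨q1, q2, q3, q4⟩ := hq
  have hs : ContDiffAt ℝ ∞ (fun r => (H.symm r).2.1) r := (hsymm r hr).1.snd.fst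
  refine ⟨hs, fun hx => (q2 hx).symm.trans e3, fun hx => ?_⟩
  set K := fderiv ℝ k (r.1, r.2.2, (H.symm r).2.1) with hK
  have hl : ∀ u : CC, K (0, u.2, Dv (fun r => (H.symm r).2.1) r u) = u.1 := by
    have h1 : HasFDerivAt (fun y : CC => ((r.1, y.2, (H.symm (r.1, y)).2.1) : P × ℂ × ℂ))
        ((0 : CC →L[ℝ] P).prod ((ContinuousLinearMap.snd ℝ ℂ ℂ).prod
          (Dv (fun r => (H.symm r).2.1) r))) r.2 :=
      (hasFDerivAt_const _ _).prodMk (hasFDerivAt_snd.prodMk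
        ((slice hs).differentiableAt (by simp)).hasFDerivAt)
    have h2 := HasFDerivAt.comp r.2 (q1.differentiableAt (by simp)).hasFDerivAt h1
    have h3 := (hasFDerivAt_fst (𝕜 := ℝ) (p := r.2)).congr_of_eventuallyEq (f₁ := k ∘ fun y : CC =>
      ((r.1, y.2, (H.symm (r.1, y)).2.1) : P × ℂ × ℂ))
      ((ev_slice (H.open_target.mem_nhds hr)).mono fun y hy => (hinv _ hy).2.2)
    exact fun u => DFunLike.congr_fun (h2.unique h3) u
  have hsplit : ∀ c w : ℂ, K (0, c, w) = c * ((K (0, 1, 0) - I * K (0, I, 0)) / 2) +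
      conj c * ((K (0, 1, 0) + I * K (0, I, 0)) / 2) + w * K (0, 0, 1) := fun c w => by
    have h1 : K (0, c, 0) = _ := dec K
      ((ContinuousLinearMap.inr ℝ P (ℂ × ℂ)).comp (ContinuousLinearMap.inl ℝ ℂ ℂ)) c
    have h2 : K (0, 0, w) = w * K (0, 0, 1) := dec' K
      ((ContinuousLinearMap.inr ℝ P (ℂ × ℂ)).comp (ContinuousLinearMap.inr ℝ ℂ ℂ)) (q4 hx) w
    rw [show ((0, c, w) : P × ℂ × ℂ) = (0, c, 0) + (0, 0, w) by simp, map_add, h1, h2]
    rfl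
  have hβ : ∀ u : CC, Dv b r u = u.1 * Dv b r (1, 0) +
      u.2 * ((Dv b r (0, 1) - I * Dv b r (0, I)) / 2) +
      conj u.2 * ((Dv b r (0, 1) + I * Dv b r (0, I)) / 2) := fun u => by
    have h1 : Dv b r (u.1, 0) = u.1 * Dv b r (1, 0) :=
      dec' (Dv b r) (ContinuousLinearMap.inl ℝ ℂ ℂ) (cr_of_null (hb.2.2.2 hx)) u.1
    have h2 : Dv b r (0, u.2) = _ := dec (Dv b r) (ContinuousLinearMap.inr ℝ ℂ ℂ) u.2
    rw [show u = (u.1, 0) + (0, u.2) by simp, map_add, h1, h2, ← add_assoc]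
    simp
  refine kills_of (K := K (0, 0, 1)) (hc := (K (0, 1, 0) - I * K (0, I, 0)) / 2) (fun h0 => ?_) hβ
    fun u => ?_
  · have h1 := hl (1, 0)
    rw [hsplit, h0] at h1
    simp at h1
  · have h1 := hl u
    rw [hsplit, q3, e3] at h1
    simp only [N] at h1
    linear_combination h1

end Vale.Agent.P290Z.Kur
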