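import Vale.Agent.P290Z.K.SpecL
import Vale.Agent.P267.H734.ParInt

/-! P290Z (K): the Poincaré lemma with parameters -/

open scoped ContDiff Topology
open Set Filter MeasureTheory Metric

namespace Vale.Agent.P290Z.Kur

namespace Poin

variable {P E G : Type} [NormedAddCommGroup P] [NormedSpace ℝ P] [NormedAddCommGroup E]
  [NormedSpace ℝ E] [NormedAddCommGroup G] [NormedSpace ℝ G] {x₀ : P} {y₀ : E} {r : ℝ}

/-- the segment from the centre -/
def cc (y₀ : E) (q : P × E) (t : ℝ) : P × E := (q.1, y₀ + t • (q.2 - y₀))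

omit [NormedSpace ℝ P] in
theorem cc_mem {q : P × E} (hq : q ∈ ball (x₀, y₀) r) {t : ℝ} (ht : t ∈ Icc (0 : ℝ) 1) :
    cc y₀ q t ∈ ball (x₀, y₀) r := by
  rw [← ball_prod_same] at hq ⊢
  refine ⟨hq.1, ?_⟩
  have h : ‖q.2 - y₀‖ < r := mem_ball_iff_norm.1 hq.2
  rw [mem_ball_iff_norm, cc, add_sub_cancel_left, norm_smul, Real.norm_of_nonneg ht.1]
  exact (mul_le_of_le_one_left (norm_nonneg _) ht.2).trans_lt h

theorem hasF {F : P × E → G} {q : P × E} (h : ContDiffAt ℝ ∞ F q) :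
    HasFDerivAt (fun y => F (q.1, y)) ((fderiv ℝ F q).comp (ContinuousLinearMap.inr ℝ P E)) q.2 :=
  HasFDerivAt.comp q.2 (f := fun y => (q.1, y)) (h.differentiableAt (by simp)).hasFDerivAt
    (hasFDerivAt_prodMk_right q.1 q.2)

theorem hasDv {F : P × E → G} {q : P × E} (h : ContDiffAt ℝ ∞ F q) :
    HasFDerivAt (fun y => F (q.1, y)) (Dv F q) q.2 := (hasF h).differentiableAt.hasFDerivAt

theorem dv_app {E' : Type} [NormedAddCommGroup E'] [NormedSpace ℝ E'] {F : P × E → E' →L[ℝ] G}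
    {q : P × E} (h : ContDiffAt ℝ ∞ F q) (u : E') (w : E) :
    Dv (fun q => F q u) q w = Dv F q w u := by
  rw [Dv, ((hasDv h).clm_apply (hasFDerivAt_const u q.2)).fderiv]
  simp

theorem cont_cc {F : P × E → G} (hF : ∀ q ∈ ball (x₀, y₀) r, ContDiffAt ℝ ∞ F q) {q : P × E}
    (hq : q ∈ ball (x₀, y₀) r) : ContinuousOn (fun t => F (cc y₀ q t)) (uIcc 0 1) ∧
      ContinuousOn (fun t => Dv F (cc y₀ q t)) (uIcc 0 1) := by
  rw [uIcc_of_le zero_le_one]
  have hc : Continuous (cc y₀ q) := by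
    unfold cc
    fun_prop
  have h : ContDiffOn ℝ ∞ F (ball (x₀, y₀) r) := fun p hp => (hF p hp).contDiffWithinAt
  refine ⟨h.continuousOn.comp hc.continuousOn fun t ht => cc_mem hq ht, ?_⟩
  refine (((h.continuousOn_fderiv_of_isOpen isOpen_ball (by simp)).clm_comp
    (continuousOn_const (c := ContinuousLinearMap.inr ℝ P E))).comp hc.continuousOn
      fun t ht => cc_mem hq ht).congr fun t ht => ?_
  exact (hasF (hF _ (cc_mem hq ht))).fderiv

/-- the fundamental theorem of calculus along the segment -/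
theorem ftc [CompleteSpace G] {F : P × E → G} (hF : ∀ q ∈ ball (x₀, y₀) r, ContDiffAt ℝ ∞ F q)
    {q : P × E} (hq : q ∈ ball (x₀, y₀) r) (k : ℕ) :
    ∫ t in (0 : ℝ)..1, (t ^ (k + 1) • Dv F (cc y₀ q t) (q.2 - y₀) +
      (((k + 1 : ℕ) : ℝ) * t ^ k) • F (cc y₀ q t)) = F q := by
  obtain ⟨h1, h2⟩ := cont_cc hF hq
  rw [intervalIntegral.integral_eq_sub_of_hasDerivAt (f := fun t => t ^ (k + 1) • F (cc y₀ q t))]
  · simp [cc]
  · intro t ht
    rw [uIcc_of_le zero_le_one] at ht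
    have h3 : HasDerivAt (fun t : ℝ => y₀ + t • (q.2 - y₀)) (q.2 - y₀) t := by
      simpa using ((hasDerivAt_id t).smul_const (q.2 - y₀)).const_add y₀
    exact (hasDerivAt_pow (k + 1) t).smul (HasFDerivAt.comp_hasDerivAt
      (l := fun y => F (q.1, y)) t (hasDv (hF _ (cc_mem hq ht))) h3)
  · exact ((ContinuousOn.smul (by fun_prop) (h2.clm_apply continuousOn_const)).add
      (ContinuousOn.smul (by fun_prop) h1)).intervalIntegrable

/-- the cone operator -/
theorem cone [CompleteSpace G] {F : P × E → E →L[ℝ] G}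
    (hF : ∀ q ∈ ball (x₀, y₀) r, ContDiffAt ℝ ∞ F q) (k : ℕ) :
    ∃ I : P × E → G, ∀ q ∈ ball (x₀, y₀) r, ContDiffAt ℝ ∞ I q ∧ ∀ u, Dv I q u =
      ∫ t in (0 : ℝ)..1, t ^ k • (t • Dv F (cc y₀ q t) u (q.2 - y₀) + F (cc y₀ q t) u) := by
  have hc : ContDiff ℝ ∞ fun z : (P × E) × ℝ => cc y₀ z.1 z.2 := by
    unfold cc
    fun_prop
  have hW : IsOpen {z : (P × E) × ℝ | cc y₀ z.1 z.2 ∈ ball (x₀, y₀) r} :=
    isOpen_ball.preimage hc.continuous
  have hf : ContDiffOn ℝ ∞ (fun z : (P × E) × ℝ => z.2 ^ k • F (cc y₀ z.1 z.2) (z.1.2 - y₀))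
      {z : (P × E) × ℝ | cc y₀ z.1 z.2 ∈ ball (x₀, y₀) r} := fun z hz =>
    (ContDiffAt.smul (by fun_prop) (((hF _ hz).comp z hc.contDiffAt).clm_apply
      (by fun_prop))).contDiffWithinAt
  refine ⟨fun q => ∫ t in (0 : ℝ)..1, t ^ k • F (cc y₀ q t) (q.2 - y₀), fun q hq => ?_⟩
  have hI := (P267.H734.contDiffOn_integral hW isOpen_ball (fun p hp t ht => cc_mem hp ht)
    hf).contDiffAt (isOpen_ball.mem_nhds hq)
  refine ⟨hI, fun u => ?_⟩
  have h1 := (P267.H734.hasFDerivAt_integral hW (hf.of_le (by simp))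
    (fun t ht => cc_mem hq ht)).fderiv
  have h2 := P267.H734.intervalIntegrable_section
    ((hf.continuousOn_fderiv_of_isOpen hW (by simp)).clm_comp
      (continuousOn_const (c := ContinuousLinearMap.inl ℝ (P × E) ℝ))) fun t ht => cc_mem hq ht
  rw [Dv, (hasF hI).fderiv, h1, ContinuousLinearMap.comp_apply,
    ContinuousLinearMap.intervalIntegral_apply h2]
  refine intervalIntegral.integral_congr fun t ht => ?_
  rw [uIcc_of_le zero_le_one] at ht
  have h3 : HasFDerivAt (fun y : E => y₀ + t • (y - y₀)) (t • ContinuousLinearMap.id ℝ E) q.2 :=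
    (((hasFDerivAt_id q.2).sub_const y₀).const_smul t).const_add y₀
  have h4 := (((hasDv (hF _ (cc_mem hq ht))).comp q.2 h3).clm_apply
    ((hasFDerivAt_id q.2).sub_const y₀)).const_smul (t ^ k)
  have h5 := HasFDerivAt.comp q.2 (f := fun y : E => ((q.1, y), t))
    ((hf.contDiffAt (hW.mem_nhds (x := (q, t)) (cc_mem hq ht))).differentiableAt
      (by simp)).hasFDerivAt
    ((hasFDerivAt_prodMk_right q.1 q.2).prodMk (hasFDerivAt_const t q.2))
  have h6 := DFunLike.congr_fun (h5.unique h4) u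
  refine h6.trans ?_
  simp [cc, add_comm]

end Poin

open Poin

theorem poin1 : StPoin1 := by
  intro P E _ _ _ _ _ _ lam x₀ y₀ h
  obtain ⟨r, hr, h⟩ := Metric.eventually_nhds_iff_ball.1 h
  obtain ⟨g, hg⟩ := cone (fun q hq => (h q hq).1) 0
  refine ⟨g, Metric.eventually_nhds_iff_ball.2 ⟨r, hr, fun q hq => ⟨(hg q hq).1, ?_⟩⟩⟩
  ext u
  rw [(hg q hq).2, ← ftc (F := fun q => lam q u) (fun p hp => (h p hp).1.clm_apply contDiffAt_const)
    hq 0]
  refine intervalIntegral.integral_congr fun t ht => ?_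
  rw [uIcc_of_le zero_le_one] at ht
  have h1 := h _ (cc_mem hq ht)
  have h2 := sub_eq_zero.1 (h1.2 u (q.2 - y₀))
  simp [dv_app h1.1, h2]

theorem poin2 : StPoin2 := by
  intro P E _ _ _ _ _ _ σ x₀ y₀ h
  obtain ⟨r, hr, h⟩ := Metric.eventually_nhds_iff_ball.1 h
  obtain ⟨lam, hl⟩ := cone (fun q hq => (h q hq).1) 1
  refine ⟨lam, Metric.eventually_nhds_iff_ball.2 ⟨r, hr, fun q hq => ⟨(hl q hq).1, fun u v => ?_⟩⟩⟩
  have hs : ∀ u v, ∀ p ∈ ball (x₀, y₀) r, ContDiffAt ℝ ∞ (fun q => σ q u) p ∧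
      ContDiffAt ℝ ∞ (fun q => σ q u v) p := fun u v p hp =>
    ⟨(h p hp).1.clm_apply contDiffAt_const,
      ((h p hp).1.clm_apply contDiffAt_const).clm_apply contDiffAt_const⟩
  have hd : ∀ u v w, ∀ p ∈ ball (x₀, y₀) r, Dv (fun q => σ q u v) p w = Dv σ p w u v :=
    fun u v w p hp => by
      rw [dv_app (F := fun q => σ q u) (hs u v p hp).1, dv_app (h p hp).1]
  have ha : ∀ u v w, ∀ p ∈ ball (x₀, y₀) r, Dv σ p w u v = -Dv σ p w v u := fun u v w p hp => by
    have e : (fun y => σ (p.1, y) u v) =ᶠ[𝓝 p.2] fun y => -σ (p.1, y) v u :=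
      ((Continuous.prodMk_right p.1).continuousAt.eventually
        (isOpen_ball.mem_nhds (x := (p.1, p.2)) hp)).mono fun y hy => (h _ hy).2.1 u v
    rw [← hd u v w p hp, ← hd v u w p hp, Dv, e.fderiv_eq, fderiv_fun_neg]
    rfl
  obtain ⟨h1, h2⟩ := cont_cc (fun q hq => (h q hq).1) hq
  have hi : ∀ u, IntervalIntegrable (fun t : ℝ => t ^ 1 • (t • Dv σ (cc y₀ q t) u (q.2 - y₀) +
      σ (cc y₀ q t) u)) volume 0 1 := fun u =>
    (ContinuousOn.smul (continuousOn_pow 1) ((ContinuousOn.smul continuousOn_id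
      ((h2.clm_apply continuousOn_const).clm_apply continuousOn_const)).add
        (h1.clm_apply continuousOn_const))).intervalIntegrable
  rw [sg, (hl q hq).2, (hl q hq).2, ContinuousLinearMap.intervalIntegral_apply (hi u),
    ContinuousLinearMap.intervalIntegral_apply (hi v), ← intervalIntegral.integral_sub,
    ← ftc (F := fun q => σ q u v) (fun p hp => (hs u v p hp).2) hq 1]
  · refine intervalIntegral.integral_congr fun t ht => ?_
    rw [uIcc_of_le zero_le_one] at ht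
    have h3 := cc_mem hq ht
    have h4 := (h _ h3).2.2 u v (q.2 - y₀)
    have h5 := (h _ h3).2.1 v u
    have h6 := ha (q.2 - y₀) v u _ h3
    simp only [hd _ _ _ _ h3, smul_apply, add_apply, h5, h6, Complex.real_smul]
    push_cast
    linear_combination (-(t : ℂ) ^ 2) * h4
  · exact ⟨(hi u).1.apply_continuousLinearMap v, (hi u).2.apply_continuousLinearMap v⟩
  · exact ⟨(hi v).1.apply_continuousLinearMap u, (hi v).2.apply_continuousLinearMap u⟩

end Vale.Agent.P290Z.Kur
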