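import Vale.Agent.P290Z.K.InvP
import Vale.Agent.P290Z.K.Poin
import Vale.Agent.P290Z.K.Graph0
import Vale.Agent.P290Z.K.Graph
import Vale.Agent.P290Z.K.LeafAB
import Vale.Agent.P290Z.K.LeafC
import Vale.Agent.P290Z.K.NNP

/-!
# P290Z, part III (K): Newlander-Nirenberg in dimension two with parameters
-/

namespace Vale.Agent.P290Z.Kur

theorem graph_main : StGraph := graph graph0

theorem holFn_main : StHolFn :=
  holFn (leafA graph_main) (leafB poin1) (leafC graph_main invP) pull_sg invP

theorem nnp_main : StNNP := nnp holFn_main pull_sg invP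

end Vale.Agent.P290Z.Kur
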