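import Vale.Agent.P290Z.K.SpecG

/-!
# P290Z, part III (K): OPR, the operator defined by an expression
-/

open scoped ContDiff Topology NNReal
open Set Filter Metric

set_option maxSynthPendingDepth 3

noncomputable section

namespace Vale.Agent.P290Z.Kur

open Vale.Agent.P272.K.LIN Vale.Agent.P272.K.N ContinuousLinearMap

namespace Opr

/-- constants, as a continuous linear map -/
def constL {Y : Type} (w : Y → Y → ℝ≥0) (V : Type) [NormedAddCommGroup V] [NormedSpace ℝ V] :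
    V →L[ℝ] Hol w V :=
  LinearMap.mkContinuous
    { toFun := Hol.const
      map_add' := fun _ _ => rfl
      map_smul' := fun _ _ => rfl } 1 fun c => (Hol.norm_const_le c).trans_eq (one_mul _).symm

variable {E : Type} [NormedAddCommGroup E] [NormedSpace ℝ E] [FiniteDimensional ℝ E] {X : Type}
  [TopologicalSpace X] [ChartedSpace E X] {P W : Type} [NormedAddCommGroup P] [NormedSpace ℝ P]
  [NormedAddCommGroup W] [NormedSpace ℝ W] {G : Expr E X P W} (𝒞 : Cov E X)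

theorem contDiff_cut (hG : G.Sm) (i : Fin 𝒞.N) :
    ContDiff ℝ ∞ fun r : P × E × J2 E × J2 E => 𝒞.bump i r.2.1 • G (𝒞.e i) r := by
  refine contDiff_iff_contDiffAt.2 fun r => ?_
  by_cases h : r.2.1 ∈ closedBall (𝒞.c i) (3 * 𝒞.r i)
  · exact (((𝒞.bump i).contDiffAt (n := ⊤)).comp r contDiffAt_snd.fst).smul
      (hG _ (𝒞.mem i) r (𝒞.sub i h))
  · refine (contDiffAt_const (c := (0 : W))).congr_of_eventuallyEq ?_
    filter_upwards [continuous_snd.fst.continuousAt.preimage_mem_nhds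
      (isClosed_closedBall.isOpen_compl.mem_nhds h)] with s hs
    rw [(𝒞.bump i).zero_of_le_dist (not_le.1 fun h => hs (mem_closedBall.2 h)).le, zero_smul]

variable [CompactSpace X] [T2Space X] [RSm E X] {α : ℝ} (h0 : 0 < α) (h1 : α ≤ 1)

/-- the argument of the expression in the `i`-th chart -/
def inp (i : Fin 𝒞.N) (z : P × 𝒞.C2 α × 𝒞.C2 α) : Hol (𝒞.w α) (P × E × J2 E × J2 E) :=
  Hol.map (inl ℝ _ _) (constL _ P z.1) +
    Hol.map (inr ℝ _ _ ∘L inl ℝ _ _) (cutH 𝒞 h0 h1 i (fun y => y) fun _ _ => contDiffAt_id) +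
    Hol.map (inr ℝ _ _ ∘L inr ℝ _ _ ∘L inl ℝ _ _ ∘L snd ℝ _ _) (𝒞.J α i z.2.1) +
    Hol.map (inr ℝ _ _ ∘L inr ℝ _ _ ∘L inr ℝ _ _ ∘L snd ℝ _ _) (𝒞.J α i z.2.2)

theorem contDiff_inp (i : Fin 𝒞.N) : ContDiff ℝ ∞ (inp (P := P) 𝒞 h0 h1 i) := by
  have a1 : ContDiff ℝ ∞ fun z : P × 𝒞.C2 α × 𝒞.C2 α => constL (𝒞.w α) P z.1 :=
    (constL (𝒞.w α) P).contDiff.comp contDiff_fst
  have a2 : ContDiff ℝ ∞ fun z : P × 𝒞.C2 α × 𝒞.C2 α => 𝒞.J α i z.2.1 :=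
    (𝒞.J α i).contDiff.comp contDiff_snd.fst
  have a3 : ContDiff ℝ ∞ fun z : P × 𝒞.C2 α × 𝒞.C2 α => 𝒞.J α i z.2.2 :=
    (𝒞.J α i).contDiff.comp contDiff_snd.snd
  exact (((a1.continuousLinearMap_comp _).add contDiff_const).add
    (a2.continuousLinearMap_comp _)).add (a3.continuousLinearMap_comp _)

theorem inp_apply {i : Fin 𝒞.N} {x : X} (hx : x ∈ (𝒞.e i).source)
    (hb : 𝒞.e i x ∈ ball (𝒞.c i) (2 * 𝒞.r i)) (p : P) (u v : 𝒞.C2 α) :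
    inp 𝒞 h0 h1 i (p, u, v) x =
      (p, 𝒞.e i x, j2 (𝒞.e i) (𝒞.fn u) x, j2 (𝒞.e i) (𝒞.fn v) x) := by
  have e : constL (𝒞.w α) P p x = p := rfl
  simp [inp, e, 𝒞.J_apply, 𝒞.Jf_of_ball hx hb, 𝒞.η_eq_one hx (ball_subset_closedBall hb), j2]

end Opr

theorem opr (hN : StNem) (hJ : StJet) : StOpr := by
  intro E _ _ _ X _ _ _ _ _ P W _ _ _ _ _ G 𝒞 α h0 h1 hS hC
  choose N hN1 hN2 using fun i => hN X (𝒞.w α) _ W _ (Opr.contDiff_cut 𝒞 hS i)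
  refine ⟨fun z => ∑ i, Hol.bilL (lsmul ℝ ℝ) (puH 𝒞 h0 h1 i) (N i (Opr.inp 𝒞 h0 h1 i z)),
    ContDiff.sum fun i _ => ((hN1 i).comp (Opr.contDiff_inp 𝒞 h0 h1 i)).continuousLinearMap_comp _,
    fun p u v e he x hx => ?_⟩
  obtain ⟨u', a1, a2⟩ := hJ E X (𝒞.fn u) x (𝒞.fn_ck u)
  obtain ⟨v', b1, b2⟩ := hJ E X (𝒞.fn v) x (𝒞.fn_ck v)
  rw [Hol.sum_apply, ← one_smul ℝ (G.val e p _ _ x), ← pu_sum 𝒞 x, Finset.sum_smul]
  refine Finset.sum_congr rfl fun i _ => ?_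
  rw [Hol.bilL_apply, lsmul_apply, puH_apply]
  rcases eq_or_ne (pu 𝒞 i x) 0 with h | h
  · rw [h, zero_smul, zero_smul]
  obtain ⟨c1, c2⟩ := pu_ne_zero 𝒞 h
  have c3 := hC p u' v' a1 b1 _ (𝒞.mem i) e he x c1 hx
  rw [Expr.val, Expr.val, a2 _ (𝒞.mem i) c1, b2 _ (𝒞.mem i) c1, a2 e he hx, b2 e he hx] at c3
  rw [hN2, Opr.inp_apply 𝒞 h0 h1 c1 c2, (𝒞.bump i).one_of_mem_closedBall
    (ball_subset_closedBall c2), one_smul, c3, Expr.val]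

end Vale.Agent.P290Z.Kur
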