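import Vale.Agent.P290Z.K.SpecG
import Vale.Agent.P290.H686.LBPull

/-!
# P290Z, part III (K): forms whose square is proportional to the volume form
-/

open scoped Manifold ContDiff Topology
open Set Filter Asymptotics

set_option maxSynthPendingDepth 3
set_option linter.unusedSectionVars false

noncomputable section

namespace Vale.Agent.P290Z.Kur

open Vale.Agent.P272.K.LIN Vale.Agent.P290.H158 Vale.Agent.P290 Vale.Agent.P267
open Vale.Agent.P290.H686 Vale.Agent.P290.H722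
open Vale.Agent.P267.FL (TwoF OneF IsHerm Ch loc2 loc11)

namespace Sig

/-- the coefficients of a first order operator -/
abbrev Co : Type := ((FL.C2 →L[ℝ] ℝ) × (FL.C2 →L[ℝ] ℝ)) →L[ℝ] (FL.C2 →L[ℝ] ℂ)

/-- the derivative of the one-form in terms of the jets -/
def d0 (Λ : FL.C2 → Co) (y : FL.C2) (a b : J2 FL.C2) (u v : FL.C2) : ℂ :=
  fderiv ℝ Λ y u (a.1, b.1) v + Λ y (a.2 u, b.2 u) v

/-- its alternation -/
def dl (Λ : FL.C2 → Co) (y : FL.C2) (a b : J2 FL.C2) (u v : FL.C2) : ℂ :=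
  d0 Λ y a b u v - d0 Λ y a b v u

/-- four times the wedge product -/
def W (T S : FL.C2 → FL.C2 → ℂ) : ℂ :=
  T (Pi.single 0 1) (Pi.single 0 Complex.I) * S (Pi.single 1 1) (Pi.single 1 Complex.I) +
    T (Pi.single 1 1) (Pi.single 1 Complex.I) * S (Pi.single 0 1) (Pi.single 0 Complex.I) -
    T (Pi.single 0 1) (Pi.single 1 1) * S (Pi.single 0 Complex.I) (Pi.single 1 Complex.I) -
    T (Pi.single 0 Complex.I) (Pi.single 1 Complex.I) * S (Pi.single 0 1) (Pi.single 1 1) +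
    T (Pi.single 0 1) (Pi.single 1 Complex.I) * S (Pi.single 0 Complex.I) (Pi.single 1 1) +
    T (Pi.single 0 Complex.I) (Pi.single 1 1) * S (Pi.single 0 1) (Pi.single 1 Complex.I)

section calculus

variable {Z : Type} [NormedAddCommGroup Z] [NormedSpace ℝ Z] {z : Z}

theorem cd_dl {Λ : FL.C2 → Co} {y : Z → FL.C2} {a b : Z → J2 FL.C2}
    (hΛ : ContDiffAt ℝ ∞ Λ (y z)) (hy : ContDiffAt ℝ ∞ y z) (ha : ContDiffAt ℝ ∞ a z)
    (hb : ContDiffAt ℝ ∞ b z) (u v : FL.C2) :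
    ContDiffAt ℝ ∞ (fun r => dl Λ (y r) (a r) (b r) u v) z := by
  have h1 : ContDiffAt ℝ ∞ (fun r => Λ (y r)) z := hΛ.comp z hy
  have h2 : ContDiffAt ℝ ∞ (fun r => fderiv ℝ Λ (y r)) z :=
    (hΛ.fderiv_right (m := ∞) (by simp)).comp z hy
  have key : ∀ u v, ContDiffAt ℝ ∞ (fun r => d0 Λ (y r) (a r) (b r) u v) z := fun u v =>
    (((h2.clm_apply contDiffAt_const).clm_apply (ha.fst.prodMk hb.fst)).clm_apply
      contDiffAt_const).add ((h1.clm_apply ((ha.snd.clm_apply contDiffAt_const).prodMk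
        (hb.snd.clm_apply contDiffAt_const))).clm_apply contDiffAt_const)
  exact (key u v).sub (key v u)

theorem cd_W {T S : Z → FL.C2 → FL.C2 → ℂ} (hT : ∀ u v, ContDiffAt ℝ ∞ (fun r => T r u v) z)
    (hS : ∀ u v, ContDiffAt ℝ ∞ (fun r => S r u v) z) :
    ContDiffAt ℝ ∞ (fun r => W (T r) (S r)) z :=
  ((((((hT _ _).mul (hS _ _)).add ((hT _ _).mul (hS _ _))).sub ((hT _ _).mul (hS _ _))).sub
    ((hT _ _).mul (hS _ _))).add ((hT _ _).mul (hS _ _))).add ((hT _ _).mul (hS _ _))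

theorem mul_o {f g : Z → ℂ} (hf : ContDiffAt ℝ ∞ f 0) (hg : ContDiffAt ℝ ∞ g 0) (f0 : f 0 = 0)
    (g0 : g 0 = 0) : (fun j => f j * g j) =o[𝓝 0] fun j => j := by
  have h := (hf.differentiableAt (by simp)).hasFDerivAt.mul
    (hg.differentiableAt (by simp)).hasFDerivAt
  rw [f0, g0, zero_smul, zero_smul, add_zero, hasFDerivAt_iff_isLittleO_nhds_zero] at h
  simpa [f0] using h

theorem W_o {T : Z → FL.C2 → FL.C2 → ℂ} (hT : ∀ u v, ContDiffAt ℝ ∞ (fun r => T r u v) 0)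
    (h0 : ∀ u v, T 0 u v = 0) : (fun r => W (T r) (T r)) =o[𝓝 0] fun j => j := by
  have k := fun a b c d => mul_o (hT a b) (hT c d) (h0 a b) (h0 c d)
  exact (((((k _ _ _ _).add (k _ _ _ _)).sub (k _ _ _ _)).sub (k _ _ _ _)).add (k _ _ _ _)).add
    (k _ _ _ _)

theorem dl_zero (Λ : FL.C2 → Co) (y u v : FL.C2) : dl Λ y 0 0 u v = 0 := by
  have h : ∀ u v, d0 Λ y 0 0 u v = 0 := fun u v => by
    have e1 : (((0 : J2 FL.C2).1, (0 : J2 FL.C2).1) : _ × _) = 0 := rfl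
    have e2 : (((0 : J2 FL.C2).2 u, (0 : J2 FL.C2).2 u) : _ × _) = 0 := rfl
    rw [d0, e1, e2, map_zero, map_zero]
    simp
  rw [dl, h, h, sub_zero]

theorem cd_part {E F : Type} [NormedAddCommGroup E] [NormedSpace ℝ E] [NormedAddCommGroup F]
    [NormedSpace ℝ F] {U : Z × E → F} {y : E} (h : ContDiffAt ℝ ∞ U (z, y)) :
    ContDiffAt ℝ ∞ (fun r : Z × E => fderiv ℝ (fun w => U (r.1, w)) r.2) (z, y) :=
  ContDiffAt.fderiv (f := fun (r : Z × E) w => U (r.1, w)) (n := ∞)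
    (ContDiffAt.comp (g := U) (f := fun p : (Z × E) × E => (p.1.1, p.2)) _ h (by fun_prop))
    contDiffAt_snd (by simp)

end calculus

variable {X : Type} [TopologicalSpace X] [ChartedSpace FL.C2 X] [IsManifold 𝓘(ℂ, FL.C2) ω X]

theorem W_eq {e : Ch X} (he : e ∈ atlas FL.C2 X) {x : X} (hx : x ∈ e.source) (F G : TwoF X) :
    W (fun u v => E2 e F (e x) u v) (fun u v => E2 e G (e x) u v) =
      4 * loc2 1 e (F.wedge G) (e x) := (H686.loc2_wedge he hx F G).symm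

theorem E2_add {e : Ch X} (he : e ∈ atlas FL.C2 X) {x : X} (hx : x ∈ e.source) (F G : TwoF X)
    (u v : FL.C2) : E2 e (F + G) (e x) u v = E2 e F (e x) u v + E2 e G (e x) u v := by
  rw [E2_apply he _ hx, E2_apply he _ hx, E2_apply he _ hx, val2_add']

theorem E2_zero (e : Ch X) (y u v : FL.C2) : E2 e (0 : TwoF X) y u v = 0 := by
  simp [H686.E2, ev2_apply, FL.loc0, loc11, loc2]

variable {al : (X → ℝ) → (X → ℝ) → OneF X} {Λ : Ch X → FL.C2 → Co}
  (hΛ : ∀ e ∈ atlas FL.C2 X, ∀ y ∈ e.target, ContDiffAt ℝ ∞ (Λ e) y)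
  (hal : ∀ u v, CkFn FL.C2 ∞ u → CkFn FL.C2 ∞ v → ∀ e ∈ atlas FL.C2 X, ∀ y ∈ e.target,
    E1 e (al u v) y =
      Λ e y (fderiv ℝ (fun z => u (e.symm z)) y, fderiv ℝ (fun z => v (e.symm z)) y))
  {u v : X → ℝ} (hu : CkFn FL.C2 ∞ u) (hv : CkFn FL.C2 ∞ v)

include hΛ hal hu hv

theorem al_smooth : (al u v).Smooth := by
  rw [smooth1_iff]
  intro e he z hz
  refine ContDiffAt.congr_of_eventuallyEq (f := fun y => Λ e y
    (fderiv ℝ (fun z => u (e.symm z)) y, fderiv ℝ (fun z => v (e.symm z)) y)) ?_ ?_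
  · exact (hΛ e he z hz).clm_apply (((hu.at_target he hz).fderiv_right (by simp)).prodMk
      ((hv.at_target he hz).fderiv_right (by simp)))
  · filter_upwards [e.open_target.mem_nhds hz] with y hy using hal u v hu hv e he y hy

theorem E2_dal {e : Ch X} (he : e ∈ atlas FL.C2 X) {x : X} (hx : x ∈ e.source) (a b : FL.C2) :
    E2 e (al u v).d (e x) a b = dl (Λ e) (e x) (j2 e u x) (j2 e v x) a b := by
  have hz := e.map_source hx
  have h1 : E1 e (al u v) =ᶠ[𝓝 (e x)] fun y => Λ e y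
      (fderiv ℝ (fun z => u (e.symm z)) y, fderiv ℝ (fun z => v (e.symm z)) y) := by
    filter_upwards [e.open_target.mem_nhds hz] with y hy using hal u v hu hv e he y hy
  have k1 := (((hu.at_target he hz).fderiv_right (m := ∞) (by simp)).differentiableAt
    (by simp)).hasFDerivAt
  have k2 := (((hv.at_target he hz).fderiv_right (m := ∞) (by simp)).differentiableAt
    (by simp)).hasFDerivAt
  have h2 := ((hΛ e he _ hz).differentiableAt (by simp)).hasFDerivAt.clm_apply (k1.prodMk k2)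
  have h3 : ∀ a b, fderiv ℝ (E1 e (al u v)) (e x) a b =
      d0 (Λ e) (e x) (j2 e u x) (j2 e v x) a b := fun a b => by
    rw [h1.fderiv_eq, h2.fderiv, d0, add_comm]
    rfl
  rw [E2_d (al_smooth hΛ hal hu hv) he hx, alt1, h3, h3, dl]

theorem d_zero (u0 : ∀ x, u x = 0) (v0 : ∀ x, v x = 0) : (al u v).d = 0 := by
  refine val2_inj fun x => ?_
  ext a b
  have e0 : ∀ {w : X → ℝ}, (∀ x, w x = 0) → j2 (chartAt FL.C2 x) w x = 0 := fun {w} hw => by
    simp [j2, jet, hw]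
  rw [val2_eq_E2, val2_eq_E2, E2_dal hΛ hal hu hv (chart_mem_atlas _ x) (mem_chart_source _ x),
    e0 u0, e0 v0, dl_zero, E2_zero]

omit hΛ hal hu hv

variable {V : Type} [NormedAddCommGroup V] [NormedSpace ℝ V]

theorem jsm_ck {w : V → X → ℝ} {N : Set V} (hw : JSm FL.C2 w N) {t : V} (ht : t ∈ N) :
    CkFn FL.C2 ∞ (w t) := fun e he _ hx =>
  ContDiffAt.comp (g := fun r : V × FL.C2 => w r.1 (e.symm r.2)) (f := fun y => (t, y)) _
    (hw t ht e he _ (e.map_source hx)) (contDiffAt_const.prodMk contDiffAt_id)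

include hΛ hal in
theorem smFam_d {u v : V → X → ℝ} {N : Set V} (hN : IsOpen N) (ju : JSm FL.C2 u N)
    (jv : JSm FL.C2 v N) : SmFam (fun t => (al (u t) (v t)).d) N := by
  intro t ht e he z hz
  refine ContDiffOn.contDiffAt (s := N ×ˢ e.target) ?_
    ((hN.prod e.open_target).mem_nhds (mk_mem_prod ht hz))
  refine contDiffOn_clm_apply.2 fun a => contDiffOn_clm_apply.2 fun b r hr => ?_
  have jj : ∀ {w : V → X → ℝ}, JSm FL.C2 w N → ContDiffAt ℝ ∞ (fun r : V × FL.C2 =>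
      (jet (fun y => w r.1 (e.symm y)) r.2).2) r := fun {w} hw =>
    (cd_part (hw _ hr.1 e he _ hr.2)).prodMk (cd_part (cd_part (hw _ hr.1 e he _ hr.2)))
  have k : ∀ r ∈ N ×ˢ e.target, E2 e (al (u r.1) (v r.1)).d r.2 a b = dl (Λ e) r.2
      (jet (fun y => u r.1 (e.symm y)) r.2).2 (jet (fun y => v r.1 (e.symm y)) r.2).2 a b := by
    intro r hr
    have k := E2_dal hΛ hal (jsm_ck ju hr.1) (jsm_ck jv hr.1) he (e.map_target hr.2) a b
    simpa only [j2, e.right_inv hr.2] using k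
  exact (cd_dl (y := fun r : V × FL.C2 => r.2) (hΛ e he _ hr.2) contDiffAt_snd (jj ju) (jj jv) a
    b).contDiffWithinAt.congr k (k r hr)

/-- the form `η + d al` in terms of the jets -/
def S (η : V → TwoF X) (Λ : Ch X → FL.C2 → Co) (e : Ch X)
    (r : V × FL.C2 × J2 FL.C2 × J2 FL.C2) (a b : FL.C2) : ℂ :=
  E2 e (η r.1) r.2.1 a b + dl (Λ e) r.2.1 r.2.2.1 r.2.2.2 a b

/-- the nonlinear part of the equation -/
def q (σ : TwoF X) (h : X → Matrix (Fin 2) (Fin 2) ℂ) (η : V → TwoF X) (Λ : Ch X → FL.C2 → Co) :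
    Expr FL.C2 X V (ℝ × ℝ) := fun e r => Complex.equivRealProdCLM
  ((2 * W (fun a b => E2 e σ r.2.1 a b) (fun a b => E2 e (η r.1) r.2.1 a b) +
    W (S η Λ e r) (S η Λ e r)) * (8 * Complex.I * (loc11 e h r.2.1).det)⁻¹)

variable {σ : TwoF X} {h : X → Matrix (Fin 2) (Fin 2) ℂ} {η : V → TwoF X}

include hΛ hal hu hv in
theorem q_val (hh : IsHerm h) (t : V) {e : Ch X} (he : e ∈ atlas FL.C2 X) {x : X}
    (hx : x ∈ e.source) : (q σ h η Λ).val e t u v x = Complex.equivRealProdCLM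
      ((2 * σ.wedge (η t) x + (η t + (al u v).d).wedge (η t + (al u v).d) x) /
        (2 * Complex.I * (h x).det)) := by
  have hz := e.map_source hx
  have h1 : S η Λ e (t, e x, j2 e u x, j2 e v x) =
      fun a b => E2 e (η t + (al u v).d) (e x) a b := by
    funext a b
    rw [E2_add he hx, E2_dal hΛ hal hu hv he hx, S]
  have h2 := quot_law hh (σ.wedge (η t)) he hz
  have h3 := quot_law hh ((η t + (al u v).d).wedge (η t + (al u v).d)) he hz
  rw [e.left_inv hx] at h2 h3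
  have h4 := detH_ne hh he hz
  have h5 := det_h_ne hh x
  simp only [Expr.val, q]
  rw [h1, W_eq he hx, W_eq he hx]
  congr 1
  rw [div_eq_div_iff h5 h4] at h2 h3
  field_simp
  linear_combination -16 * h2 - 8 * h3

theorem cd_q {Z : Type} [NormedAddCommGroup Z] [NormedSpace ℝ Z] {z : Z}
    {A B C : Z → FL.C2 → FL.C2 → ℂ} {d : Z → ℂ} (hA : ∀ u v, ContDiffAt ℝ ∞ (fun r => A r u v) z)
    (hB : ∀ u v, ContDiffAt ℝ ∞ (fun r => B r u v) z)
    (hC : ∀ u v, ContDiffAt ℝ ∞ (fun r => C r u v) z) (hd : ContDiffAt ℝ ∞ d z) (d0 : d z ≠ 0) :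
    ContDiffAt ℝ ∞ (fun r => Complex.equivRealProdCLM
      ((2 * W (A r) (B r) + W (C r) (C r)) * (8 * Complex.I * d r)⁻¹)) z := by
  have k4 : ContDiffAt ℝ ∞ (fun r => (8 * Complex.I * d r)⁻¹) z :=
    (contDiffAt_const.mul hd).inv (mul_ne_zero (mul_ne_zero (by norm_num) Complex.I_ne_zero) d0)
  exact Complex.equivRealProdCLM.contDiff.contDiffAt.comp z
    (((contDiffAt_const.mul (cd_W hA hB)).add (cd_W hC hC)).mul k4)

include hΛ in
theorem q_sm (hσ : σ.Smooth) (hh : IsHerm h) (hη : SmFam η univ) : (q σ h η Λ).Sm := by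
  intro e he r hr
  have k0 : ContDiffAt ℝ ∞ (fun r : V × FL.C2 × J2 FL.C2 × J2 FL.C2 => r.2.1) r :=
    contDiffAt_snd.fst
  have k1 : ∀ a b, ContDiffAt ℝ ∞ (fun r : V × FL.C2 × J2 FL.C2 × J2 FL.C2 =>
      E2 e (η r.1) r.2.1 a b) r := fun a b =>
    ((ContDiffAt.comp (g := fun p : V × FL.C2 => E2 e (η p.1) p.2)
      (f := fun r : V × FL.C2 × J2 FL.C2 × J2 FL.C2 => (r.1, r.2.1)) r
      (hη r.1 trivial e he _ hr) (contDiffAt_fst.prodMk k0)).clm_apply
        contDiffAt_const).clm_apply contDiffAt_const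
  have k2 : ∀ a b, ContDiffAt ℝ ∞ (fun r => S η Λ e r a b) r := fun a b =>
    (k1 a b).add (cd_dl (y := fun r : V × FL.C2 × J2 FL.C2 × J2 FL.C2 => r.2.1)
      (a := fun r => r.2.2.1) (b := fun r => r.2.2.2) (hΛ e he _ hr) k0
      contDiffAt_snd.snd.fst contDiffAt_snd.snd.snd a b)
  have k3 : ∀ a b, ContDiffAt ℝ ∞ (fun r : V × FL.C2 × J2 FL.C2 × J2 FL.C2 =>
      E2 e σ r.2.1 a b) r := fun a b =>
    ((ContDiffAt.comp (g := E2 e σ) r (smooth2_iff.1 hσ e he _ hr) k0).clm_apply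
      contDiffAt_const).clm_apply contDiffAt_const
  exact cd_q (d := fun r : V × FL.C2 × J2 FL.C2 × J2 FL.C2 => (loc11 e h r.2.1).det) k3 k1 k2
    (ContDiffAt.comp (g := fun z => (loc11 e h z).det) r (detH_cd hh he hr) k0) (detH_ne hh he hr)

include hΛ in
theorem q_o (η0 : η 0 = 0) {e : Ch X} (he : e ∈ atlas FL.C2 X) {y : FL.C2} (hy : y ∈ e.target) :
    (fun j : J2 FL.C2 × J2 FL.C2 => q σ h η Λ e (0, y, j)) =o[𝓝 0] fun j => j := by
  have k := (W_o (T := fun j : J2 FL.C2 × J2 FL.C2 => dl (Λ e) y j.1 j.2) (fun a b =>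
    cd_dl (y := fun _ => y) (hΛ e he y hy) contDiffAt_const contDiffAt_fst contDiffAt_snd a b)
    (dl_zero _ y)).const_mul_left (8 * Complex.I * (loc11 e h y).det)⁻¹
  refine ((Complex.equivRealProdCLM : ℂ →L[ℝ] ℝ × ℝ).isBigO_comp _ _).trans_isLittleO
    (k.congr_left fun j => ?_)
  simp only [S, η0, E2_zero, zero_add, W, mul_zero, add_zero, sub_zero]
  ring

theorem alg {F G A : TwoF X} {x : X} {d : ℂ} {a b : ℝ} {c : ℝ × ℝ} (hd : d ≠ 0)
    (k3 : F.wedge F x = 0) (k2 : F.wedge A x = Complex.I * d * (a + Complex.I * b))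
    (k : (a, b) + Complex.equivRealProdCLM ((2 * F.wedge G x + (G + A).wedge (G + A) x) /
      (2 * Complex.I * d)) = c) :
    (F + G + A).wedge (F + G + A) x = 2 * Complex.I * (c.1 + Complex.I * c.2) * d := by
  set z := (2 * F.wedge G x + (G + A).wedge (G + A) x) / (2 * Complex.I * d) with hz
  have k4 : (c.1 + Complex.I * c.2 : ℂ) = a + Complex.I * b + z := by
    rw [← k]
    conv_rhs => rw [← Complex.re_add_im z]
    simp only [Prod.fst_add, Prod.snd_add, Complex.equivRealProdCLM_apply, Complex.ofReal_add]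
    ring
  rw [eq_div_iff (mul_ne_zero (mul_ne_zero two_ne_zero Complex.I_ne_zero) hd)] at hz
  rw [k4]
  simp only [TwoF.wedge, TwoF.f20_add, TwoF.f11_add, TwoF.f02_add, Pi.add_apply,
    Matrix.add_apply] at k2 k3 hz ⊢
  linear_combination k3 + 2 * k2 - hz

end Sig

open Sig in
/-- the statement `StSig` on a compact complex surface -/
theorem sig_core (hA : StAB) {X : Type} [TopologicalSpace X] [ChartedSpace FL.C2 X]
    [IsManifold 𝓘(ℂ, FL.C2) ω X] [CompactSpace X] [T2Space X] [ConnectedSpace X] {σ : TwoF X}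
    (hσ : σ.Smooth) (h0 : ∀ x, σ.wedge σ x = 0) {h : X → Matrix (Fin 2) (Fin 2) ℂ} (hh : IsHerm h)
    (hc : ∀ x, (gLOp hh).c x = 0) {al : (X → ℝ) → (X → ℝ) → OneF X} {Λ : Ch X → FL.C2 → Co}
    (hΛ : ∀ e ∈ atlas FL.C2 X, ∀ y ∈ e.target, ContDiffAt ℝ ∞ (Λ e) y)
    (hal : ∀ u v, CkFn FL.C2 ∞ u → CkFn FL.C2 ∞ v →
      (∀ e ∈ atlas FL.C2 X, ∀ y ∈ e.target, E1 e (al u v) y =
        Λ e y (fderiv ℝ (fun z => u (e.symm z)) y, fderiv ℝ (fun z => v (e.symm z)) y)) ∧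
      ∀ x, σ.wedge (al u v).d x =
        Complex.I * (h x).det * ((gLOp hh).Q u x + Complex.I * (gLOp hh).Q v x))
    (V : Type) [NormedAddCommGroup V] [NormedSpace ℝ V] [FiniteDimensional ℝ V]
    (η : V → TwoF X) (hη : SmFam η univ) (η0 : η 0 = 0) :
    ∃ (N : Set V) (A : V → OneF X) (c : V → ℂ), IsOpen N ∧ 0 ∈ N ∧
      (∀ t ∈ N, (A t).Smooth) ∧ SmFam (fun t => (A t).d) N ∧ (A 0).d = 0 ∧
      ∀ t ∈ N, ∀ x, (σ + η t + (A t).d).wedge (σ + η t + (A t).d) x = c t * (h x).det := by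
  have hal1 := fun u v hu hv => (hal u v hu hv).1
  obtain ⟨N, u, v, c, hN, N0, u0, ju, jv, hs⟩ := hA FL.C2 X V (gLOp hh) (q σ h η Λ) hc
    (q_sm hΛ hσ hh hη) (fun t u v hu hv e he e' he' x hx hx' => by
      rw [q_val hΛ hal1 hu hv hh t he hx, q_val hΛ hal1 hu hv hh t he' hx'])
    fun e he y hy => q_o hΛ η0 he hy
  refine ⟨N, fun t => al (u t) (v t), fun t => 2 * Complex.I * ((c t).1 + Complex.I * (c t).2), hN,
    N0, fun t ht => al_smooth hΛ hal1 (jsm_ck ju ht) (jsm_ck jv ht), smFam_d hΛ hal1 hN ju jv,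
    d_zero hΛ hal1 (jsm_ck ju N0) (jsm_ck jv N0) (fun x => (u0 x).1) fun x => (u0 x).2,
    fun t ht x => ?_⟩
  have k := hs t ht _ (chart_mem_atlas _ x) x (mem_chart_source _ x)
  rw [q_val hΛ hal1 (jsm_ck ju ht) (jsm_ck jv ht) hh t (chart_mem_atlas _ x)
    (mem_chart_source _ x)] at k
  exact alg (det_h_ne hh x) (h0 x) ((hal _ _ (jsm_ck ju ht) (jsm_ck jv ht)).2 x) k

/-- SIG -/
theorem sigS (hL : StLam) (hA : StAB) : StSig := by
  intro X P h hh h1 h2 h3 V _ _ _ η hη η0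
  obtain ⟨hc, al, Λ, hΛ, hal⟩ := hL X P h hh h1 h2 h3
  refine sig_core hA ⟨H445.Reg0_Om X, fun e _ i j => ?_, fun e _ => ?_⟩ (fun x => ?_) hh hc hΛ hal
    V η hη η0
  · simpa [omF, loc11] using contDiffOn_const
  · have : loc2 0 e (omF X).f02 = fun _ => 0 := by
      funext z
      simp [omF, loc2]
    rw [this]
    exact contDiffOn_const
  · simp [omF, TwoF.wedge]

end Vale.Agent.P290Z.Kur
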