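import Vale.Agent.P290.H158.GOp
import Vale.Agent.P290Z.K.Defs
import Vale.Agent.P290Z.K.SpecL

/-!
# P290Z, part III (K): the global part, statements

`A`: a nonlinear elliptic system for two real functions on a compact manifold, with parameters.
`B`: the closed forms of square zero. `C`: the family.
-/

open scoped Manifold ContDiff Topology NNReal
open Set Filter

noncomputable section

namespace Vale.Agent.P290Z.Kur

open Vale.Agent.P272.K Vale.Agent.P272.K.LIN Vale.Agent.P290.H158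

/-! ### A. the analytic part -/

/-- first and second derivatives -/
abbrev J2 (E : Type) [NormedAddCommGroup E] [NormedSpace ℝ E] : Type :=
  (E →L[ℝ] ℝ) × (E →L[ℝ] E →L[ℝ] ℝ)

section defs

variable {E : Type} [NormedAddCommGroup E] [NormedSpace ℝ E] {X : Type} [TopologicalSpace X]
  [ChartedSpace E X] {P W : Type} [NormedAddCommGroup P] [NormedSpace ℝ P] [NormedAddCommGroup W]
  [NormedSpace ℝ W]

/-- the first and second derivatives of `u` at `x` in the chart `e` -/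
def j2 (e : OpenPartialHomeomorph X E) (u : X → ℝ) (x : X) : J2 E :=
  (jet (fun y => u (e.symm y)) (e x)).2

/-- a second order expression in two functions, given in all charts -/
abbrev Expr (E X P W : Type) [NormedAddCommGroup E] [NormedSpace ℝ E] [TopologicalSpace X] :
    Type :=
  OpenPartialHomeomorph X E → P × E × J2 E × J2 E → W

/-- the value of the expression -/
def Expr.val (G : Expr E X P W) (e : OpenPartialHomeomorph X E) (p : P) (u v : X → ℝ) (x : X) :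
    W := G e (p, e x, j2 e u x, j2 e v x)

/-- the expression is smooth -/
def Expr.Sm (G : Expr E X P W) : Prop :=
  ∀ e ∈ atlas E X, ∀ r : P × E × J2 E × J2 E, r.2.1 ∈ e.target → ContDiffAt ℝ ∞ (G e) r

/-- the value on smooth functions does not depend on the chart -/
def Expr.Compat (G : Expr E X P W) : Prop :=
  ∀ p u v, CkFn E ∞ u → CkFn E ∞ v → ∀ e ∈ atlas E X, ∀ e' ∈ atlas E X, ∀ x ∈ e.source,
    x ∈ e'.source → G.val e p u v x = G.val e' p u v x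

variable [FiniteDimensional ℝ E]

/-- the operator `𝒢` between Hölder spaces is given by the expression -/
def Expr.Rep (G : Expr E X P W) (𝒞 : Cov E X) (α : ℝ)
    (𝒢 : P × 𝒞.C2 α × 𝒞.C2 α → Hol (𝒞.w α) W) : Prop :=
  ∀ p u v, ∀ e ∈ atlas E X, ∀ x ∈ e.source, 𝒢 (p, u, v) x = G.val e p (𝒞.fn u) (𝒞.fn v) x

/-- the functions `u p`, `p ∈ N`, are smooth in `(p, y)` jointly -/
def JSm (E : Type) [NormedAddCommGroup E] [NormedSpace ℝ E] [ChartedSpace E X] (u : P → X → ℝ)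
    (N : Set P) : Prop :=
  ∀ p ∈ N, ∀ e ∈ atlas E X, ∀ y ∈ e.target,
    ContDiffAt ℝ ∞ (fun r : P × E => u r.1 (e.symm r.2)) (p, y)

/-- the cut off function of the translations -/
def chi (𝒞 : Cov E X) (i : Fin 𝒞.N) : ContDiffBump (𝒞.c i) where
  rIn := 𝒞.r i
  rOut := 3 / 2 * 𝒞.r i
  rIn_pos := 𝒞.r_pos i
  rIn_lt_rOut := by have := 𝒞.r_pos i; linarith

/-- the translation by `s`, cut off -/
def th (𝒞 : Cov E X) (i : Fin 𝒞.N) (s y : E) : E := y + chi 𝒞 i y • s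

open Classical in
/-- the translation by `s` in the `i`-th chart, as a map of `X` -/
def Th (𝒞 : Cov E X) (i : Fin 𝒞.N) (s : E) (x : X) : X :=
  if x ∈ (𝒞.e i).source then (𝒞.e i).symm (th 𝒞 i s (𝒞.e i x)) else x

end defs

/-- INVB: the inverse function theorem with parameters in Banach spaces -/
def StInvB : Prop :=
  ∀ (P E F : Type) [NormedAddCommGroup P] [NormedSpace ℝ P] [CompleteSpace P]
    [NormedAddCommGroup E] [NormedSpace ℝ E] [CompleteSpace E]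
    [NormedAddCommGroup F] [NormedSpace ℝ F] [CompleteSpace F]
    (Φ : P × E → F) (q₀ : P × E), ContDiff ℝ ∞ Φ → Function.Bijective (Dv Φ q₀) →
    ∃ H : OpenPartialHomeomorph (P × E) (P × F), q₀ ∈ H.source ∧ (∀ q, H q = (q.1, Φ q)) ∧
      ∀ r ∈ H.target, ContDiffAt ℝ ∞ H.symm r

/-- JET: the jet of a `C²` function at a point is the jet of a smooth function -/
def StJet : Prop :=
  ∀ (E : Type) [NormedAddCommGroup E] [NormedSpace ℝ E] [FiniteDimensional ℝ E] (X : Type)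
    [TopologicalSpace X] [ChartedSpace E X] [T2Space X] [RSm E X] (u : X → ℝ) (x : X),
    CkFn E 2 u → ∃ u' : X → ℝ, CkFn E ∞ u' ∧ ∀ e ∈ atlas E X, x ∈ e.source → j2 e u' x = j2 e u x

/-- NEM: superposition operators are smooth on Hölder spaces -/
def StNem : Prop :=
  ∀ (Y : Type) (w : Y → Y → ℝ≥0) (V : Type) [NormedAddCommGroup V] [NormedSpace ℝ V]
    [FiniteDimensional ℝ V] (W : Type) [NormedAddCommGroup W] [NormedSpace ℝ W] (Φ : V → W),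
    ContDiff ℝ ∞ Φ → ∃ 𝒩 : Hol w V → Hol w W, ContDiff ℝ ∞ 𝒩 ∧ ∀ a x, 𝒩 a x = Φ (a x)

/-- BIJ: `v ↦ Q v + v x₀` is bijective -/
def StBij : Prop :=
  ∀ (E : Type) [NormedAddCommGroup E] [NormedSpace ℝ E] [FiniteDimensional ℝ E] (X : Type)
    [TopologicalSpace X] [ChartedSpace E X] [CompactSpace X] [T2Space X] [ConnectedSpace X]
    [RSm E X] (D : LOp E X) (𝒞 : Cov E X) (α : ℝ), 0 < α → α < 1 → (∀ x, D.c x = 0) →
    ∀ x₀ : X, ∃ T : 𝒞.C2 α →L[ℝ] Hol (𝒞.w α) ℝ, Function.Bijective T ∧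
      ∀ v x, T v x = D.Q (𝒞.fn v) x + 𝒞.fn v x₀

/-- OPR: the operator defined by an expression -/
def StOpr : Prop :=
  ∀ (E : Type) [NormedAddCommGroup E] [NormedSpace ℝ E] [FiniteDimensional ℝ E] (X : Type)
    [TopologicalSpace X] [ChartedSpace E X] [CompactSpace X] [T2Space X] [RSm E X]
    (P W : Type) [NormedAddCommGroup P] [NormedSpace ℝ P] [FiniteDimensional ℝ P]
    [NormedAddCommGroup W] [NormedSpace ℝ W] (G : Expr E X P W) (𝒞 : Cov E X) (α : ℝ),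
    0 < α → α ≤ 1 → G.Sm → G.Compat →
    ∃ 𝒢 : P × 𝒞.C2 α × 𝒞.C2 α → Hol (𝒞.w α) W, ContDiff ℝ ∞ 𝒢 ∧ G.Rep 𝒞 α 𝒢

/-- PULLC2: composition with the translations is bounded on `C^{2,α}` -/
def StPullC2 : Prop :=
  ∀ (E : Type) [NormedAddCommGroup E] [NormedSpace ℝ E] [FiniteDimensional ℝ E] (X : Type)
    [TopologicalSpace X] [ChartedSpace E X] [CompactSpace X] [T2Space X] [RSm E X]
    (𝒞 : Cov E X) (α : ℝ), 0 < α → α ≤ 1 → ∀ i : Fin 𝒞.N, ∃ δ > (0 : ℝ), ∃ C : ℝ,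
      ∀ s : E, ‖s‖ < δ → ∀ v : 𝒞.C2 α, ∃ w : 𝒞.C2 α,
        (∀ x, 𝒞.fn w x = 𝒞.fn v (Th 𝒞 i s x)) ∧ ‖w‖ ≤ C * ‖v‖

/-- TRANS: the translated operator depends smoothly on the translation -/
def StTrans : Prop :=
  ∀ (E : Type) [NormedAddCommGroup E] [NormedSpace ℝ E] [FiniteDimensional ℝ E] (X : Type)
    [TopologicalSpace X] [ChartedSpace E X] [CompactSpace X] [T2Space X] [RSm E X]
    (P W : Type) [NormedAddCommGroup P] [NormedSpace ℝ P] [FiniteDimensional ℝ P]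
    [NormedAddCommGroup W] [NormedSpace ℝ W] (G : Expr E X P W) (𝒞 : Cov E X) (α : ℝ)
    (𝒢 : P × 𝒞.C2 α × 𝒞.C2 α → Hol (𝒞.w α) W), 0 < α → α ≤ 1 → G.Sm → ContDiff ℝ ∞ 𝒢 →
    G.Rep 𝒞 α 𝒢 → ∀ i : Fin 𝒞.N, ∃ δ > (0 : ℝ),
      ∃ 𝒢' : (P × E) × 𝒞.C2 α × 𝒞.C2 α → Hol (𝒞.w α) W, ContDiff ℝ ∞ 𝒢' ∧
        (∀ p w, 𝒢' ((p, 0), w) = 𝒢 (p, w)) ∧
        ∀ (p : P) (s : E), ‖s‖ < δ → ∀ (u v u' v' : 𝒞.C2 α) (a b : ℝ),
          (∀ x, 𝒞.fn u' x = 𝒞.fn u (Th 𝒞 i s x) + a) →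
          (∀ x, 𝒞.fn v' x = 𝒞.fn v (Th 𝒞 i s x) + b) →
          ∀ x, 𝒢' ((p, s), u', v') x = 𝒢 (p, u, v) (Th 𝒞 i s x)

/-- AB: the system `(Q u, Q v) + q (p, u, v) = constant` has small solutions, smooth in all
variables -/
def StAB : Prop :=
  ∀ (E : Type) [NormedAddCommGroup E] [NormedSpace ℝ E] [FiniteDimensional ℝ E] [Nontrivial E]
    (X : Type) [TopologicalSpace X] [ChartedSpace E X] [CompactSpace X] [T2Space X]
    [ConnectedSpace X] [RSm E X] (P : Type) [NormedAddCommGroup P] [NormedSpace ℝ P]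
    [FiniteDimensional ℝ P] (D : LOp E X) (q : Expr E X P (ℝ × ℝ)), (∀ x, D.c x = 0) →
    q.Sm → q.Compat →
    (∀ e ∈ atlas E X, ∀ y ∈ e.target,
      (fun j : J2 E × J2 E => q e (0, y, j)) =o[𝓝 0] fun j => j) →
    ∃ (N : Set P) (u v : P → X → ℝ) (c : P → ℝ × ℝ), IsOpen N ∧ 0 ∈ N ∧
      (∀ x, u 0 x = 0 ∧ v 0 x = 0) ∧ JSm E u N ∧ JSm E v N ∧
      ∀ p ∈ N, ∀ e ∈ atlas E X, ∀ x ∈ e.source,
        (D.Q (u p) x, D.Q (v p) x) + q.val e p (u p) (v p) x = c p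

/-! ### B. the forms -/

open Vale.Agent.P290 Vale.Agent.P267 Vale.Agent.P290.H686 Vale.Agent.P290.H722
open Vale.Agent.P267.FL (TwoF OneF IsHerm)

/-- LAM: a first order operator `al` from pairs of real functions to one-forms with
`σ ∧ d (al u v) = i det h (Q u + i Q v)` -/
def StLam : Prop :=
  ∀ (X : All.K3) (P : TwoF X.X) (h : X.X → Matrix (Fin 2) (Fin 2) ℂ) (hh : IsHerm h),
    P.Smooth → P.Closed → (P.f11 = fun y => Complex.I • h y) →
    (∀ x, (gLOp hh).c x = 0) ∧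
    ∃ (al : (X.X → ℝ) → (X.X → ℝ) → OneF X.X)
      (Λ : FL.Ch X.X → FL.C2 → ((FL.C2 →L[ℝ] ℝ) × (FL.C2 →L[ℝ] ℝ)) →L[ℝ] (FL.C2 →L[ℝ] ℂ)),
      (∀ e ∈ atlas FL.C2 X.X, ∀ y ∈ e.target, ContDiffAt ℝ ∞ (Λ e) y) ∧
      ∀ u v, CkFn FL.C2 ∞ u → CkFn FL.C2 ∞ v →
        (∀ e ∈ atlas FL.C2 X.X, ∀ y ∈ e.target, E1 e (al u v) y =
          Λ e y (fderiv ℝ (fun z => u (e.symm z)) y, fderiv ℝ (fun z => v (e.symm z)) y)) ∧
        ∀ x, (omF X).wedge (al u v).d x =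
          Complex.I * (h x).det * ((gLOp hh).Q u x + Complex.I * (gLOp hh).Q v x)

/-- SIG: the forms `σ + η t + d (A t)` have squares proportional to the volume form -/
def StSig : Prop :=
  ∀ (X : All.K3) (P : TwoF X.X) (h : X.X → Matrix (Fin 2) (Fin 2) ℂ), IsHerm h →
    P.Smooth → P.Closed → (P.f11 = fun y => Complex.I • h y) →
    ∀ (V : Type) [NormedAddCommGroup V] [NormedSpace ℝ V] [FiniteDimensional ℝ V]
      (η : V → TwoF X.X), SmFam η univ → η 0 = 0 →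
      ∃ (N : Set V) (A : V → OneF X.X) (c : V → ℂ), IsOpen N ∧ 0 ∈ N ∧
        (∀ t ∈ N, (A t).Smooth) ∧ SmFam (fun t => (A t).d) N ∧ (A 0).d = 0 ∧
        ∀ t ∈ N, ∀ x, (omF X + η t + (A t).d).wedge (omF X + η t + (A t).d) x = c t * (h x).det

/-! ### C. the family -/

/-- coordinates which are holomorphic for the forms `sig t`, `t ∈ T₀` -/
structure NNChart (X : All.K3) {V : Type} [NormedAddCommGroup V] [NormedSpace ℝ V]
    (sig : V → TwoF X.X) (T₀ : Set V) where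
  e : FL.Ch X.X
  mem : e ∈ atlas FL.C2 X.X
  H : OpenPartialHomeomorph (V × FL.C2) (V × CC)
  g : V × CC → ℂ
  src : ∀ q ∈ H.source, q.2 ∈ e.target ∧ (H q).1 = q.1 ∧ ContDiffAt ℝ ∞ H q ∧
    0 < (Dv (fun q => H445.φ (H q).2) q).det ∧
    (q.1 ∈ T₀ → ∀ u v, E2 e (sig q.1) q.2 u v =
      g (H q) * dt (Dv (fun q => (H q).2) q u) (Dv (fun q => (H q).2) q v))
  tgt : ∀ r ∈ H.target, ContDiffAt ℝ ∞ H.symm r ∧ ContDiffAt ℝ ∞ g r ∧ g r ≠ 0 ∧
    (r.1 ∈ T₀ → DifferentiableAt ℂ (fun w => g (r.1, w)) r.2)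

/-- CHART: such coordinates exist near every point -/
def StChart : Prop :=
  ∀ (X : All.K3) (V : Type) [NormedAddCommGroup V] [NormedSpace ℝ V] [FiniteDimensional ℝ V]
    (sig : V → TwoF X.X) (N T₀ : Set V) (v₀ : V), IsOpen N → v₀ ∈ N → SmFam sig N →
    (∀ t ∈ N, (sig t).Closed) → sig v₀ = omF X →
    (∀ t ∈ N, t ∈ T₀ → ∀ x, (sig t).wedge (sig t) x = 0) →
    ∀ x : X.X, ∃ C : NNChart X sig T₀, x ∈ C.e.source ∧ (v₀, C.e x) ∈ C.H.source

/-- ASM: the family defined by the coordinates -/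
def StAsm : Prop :=
  ∀ (X : All.K3) (V : Type) [NormedAddCommGroup V] [NormedSpace ℝ V] [FiniteDimensional ℝ V]
    (sig : V → TwoF X.X) (N T₀ : Set V) (v₀ : V), IsOpen N → v₀ ∈ N → v₀ ∈ T₀ → SmFam sig N →
    sig v₀ = omF X →
    (∀ x : X.X, ∃ C : NNChart X sig T₀, x ∈ C.e.source ∧ (v₀, C.e x) ∈ C.H.source) →
    ∃ r > (0 : ℝ), ∃ (M : MFam X V {t | t ∈ T₀ ∧ ‖t - v₀‖ < r})
      (h₀ : v₀ ∈ {t | t ∈ T₀ ∧ ‖t - v₀‖ < r}), M.sig = sig ∧ M.N = N ∧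
      (∀ x, All.Hol (M.homeo ⟨v₀, h₀⟩) x) ∧ ∀ y, All.Hol (M.homeo ⟨v₀, h₀⟩).symm y

end Vale.Agent.P290Z.Kur
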