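import Vale.Agent.P290Z.K.SpecG
import Vale.Agent.P290Z.K.Trans.A

/-!
# P290Z, part III (K): the translated operator depends smoothly on the translation
-/

set_option linter.all false
set_option maxSynthPendingDepth 3

open scoped ContDiff Topology NNReal
open Set Filter Metric

noncomputable section

namespace Vale.Agent.P290Z.Kur

open Vale.Agent.P272.K.LIN

namespace Tr

variable {E : Type} [NormedAddCommGroup E] [NormedSpace ℝ E] [FiniteDimensional ℝ E] {X : Type}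
  [TopologicalSpace X] [ChartedSpace E X] {P W : Type} [NormedAddCommGroup P] [NormedSpace ℝ P]
  [NormedAddCommGroup W] [NormedSpace ℝ W] (𝒞 : Cov E X) (i : Fin 𝒞.N)

theorem contDiff_th : ContDiff ℝ ∞ fun q : E × E => th 𝒞 i q.1 q.2 :=
  contDiff_snd.add (((chi 𝒞 i).contDiff.comp contDiff_snd).smul contDiff_fst)

theorem th_zero : th 𝒞 i 0 = id := funext fun y => by simp [th]

variable {𝒞 i}

theorem th_out {y : E} (hy : y ∉ closedBall (𝒞.c i) (3 / 2 * 𝒞.r i)) (s : E) : th 𝒞 i s y = y := by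
  rw [th, (chi 𝒞 i).zero_of_le_dist (not_le.1 hy).le, zero_smul, add_zero]

theorem th_ev {y : E} (hy : y ∉ closedBall (𝒞.c i) (3 / 2 * 𝒞.r i)) (s : E) :
    th 𝒞 i s =ᶠ[𝓝 y] id := by
  filter_upwards [isClosed_closedBall.isOpen_compl.mem_nhds hy] with z hz using th_out hz s

theorem th_mem {s y : E} (hs : ‖s‖ ≤ 𝒞.r i) (hy : y ∈ closedBall (𝒞.c i) (3 * 𝒞.r i)) :
    th 𝒞 i s y ∈ (𝒞.e i).target := by
  refine 𝒞.sub i ?_
  by_cases h : y ∈ closedBall (𝒞.c i) (3 / 2 * 𝒞.r i)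
  · have h1 : ‖chi 𝒞 i y • s‖ ≤ 1 * ‖s‖ := by
      rw [norm_smul, Real.norm_of_nonneg (chi 𝒞 i).nonneg]
      exact mul_le_mul_of_nonneg_right (chi 𝒞 i).le_one (norm_nonneg _)
    have h2 := norm_add_le (y - 𝒞.c i) (chi 𝒞 i y • s)
    have := 𝒞.r_pos i
    rw [mem_closedBall_iff_norm] at h ⊢
    rw [th, add_sub_right_comm]
    linarith
  · rwa [th_out h]

theorem Th_ev [T2Space X] {x : X}
    (hx : ¬(x ∈ (𝒞.e i).source ∧ 𝒞.e i x ∈ closedBall (𝒞.c i) (3 / 2 * 𝒞.r i))) (s : E) :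
    ∀ᶠ z in 𝓝 x, Th 𝒞 i s z = z := by
  have hr := 𝒞.r_pos i
  have hK : closedBall (𝒞.c i) (3 / 2 * 𝒞.r i) ⊆ (𝒞.e i).target :=
    (closedBall_subset_closedBall (by linarith)).trans (𝒞.sub i)
  have hc := ((isCompact_closedBall _ _).image_of_continuousOn
    ((𝒞.e i).continuousOn_symm.mono hK)).isClosed
  have hx' : x ∉ (𝒞.e i).symm '' closedBall (𝒞.c i) (3 / 2 * 𝒞.r i) := by
    rintro ⟨y, hy, rfl⟩
    exact hx ⟨(𝒞.e i).map_target (hK hy), by rwa [(𝒞.e i).right_inv (hK hy)]⟩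
  filter_upwards [hc.isOpen_compl.mem_nhds hx'] with z hz
  rw [Th]
  split_ifs with h
  · rw [th_out fun hy => hz ⟨_, hy, (𝒞.e i).left_inv h⟩, (𝒞.e i).left_inv h]
  · rfl

theorem j2_out {x : X} {u u' : X → ℝ} {a : ℝ} (h : ∀ᶠ z in 𝓝 x, u' z = u z + a) :
    j2 (chartAt E x) u' x = j2 (chartAt E x) u x := by
  have h2 := (chartAt E x).symm.continuousAt (x := chartAt E x x) (mem_chart_target E x)
  rw [ContinuousAt, (chartAt E x).left_inv (mem_chart_source E x)] at h2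
  exact (congrArg Prod.snd (jet_congr (h2.eventually h))).trans (jet_add_const _ a _)

theorem j2_in {x : X} (hx : x ∈ (𝒞.e i).source) {s : E} (hs : th 𝒞 i s (𝒞.e i x) ∈ (𝒞.e i).target)
    (hu : IsUnit (TT (th 𝒞 i) s (𝒞.e i x))) {u u' : X → ℝ} (hc : CkFn E 2 u) {a : ℝ}
    (h : ∀ z, u' z = u (Th 𝒞 i s z) + a) :
    (Ring.inverse (TT (th 𝒞 i) s (𝒞.e i x)) (jet (fun y => u' ((𝒞.e i).symm y)) (𝒞.e i x))).2 =
      j2 (𝒞.e i) u ((𝒞.e i).symm (th 𝒞 i s (𝒞.e i x))) := by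
  rw [j2, (𝒞.e i).right_inv hs]
  refine inv_jet (a := a) hu ((((contDiff_th 𝒞 i).comp
    (contDiff_const.prodMk contDiff_id)).of_le two_le_inf).contDiffAt)
    (hc.at_target (𝒞.mem i) hs) ?_
  filter_upwards [(𝒞.e i).open_target.mem_nhds ((𝒞.e i).map_source hx)] with z hz
  rw [h, Th, if_pos ((𝒞.e i).map_target hz), (𝒞.e i).right_inv hz]

variable (𝒞 i)

/-- the change of the expression -/
def Df (G : Expr E X P W) (z : (P × E) × E × Jet E × Jet E) : W :=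
  G (𝒞.e i) (z.1.1, th 𝒞 i z.1.2 z.2.1, (Ring.inverse (TT (th 𝒞 i) z.1.2 z.2.1) z.2.2.1).2,
    (Ring.inverse (TT (th 𝒞 i) z.1.2 z.2.1) z.2.2.2).2) -
  G (𝒞.e i) (z.1.1, z.2.1, z.2.2.1.2, z.2.2.2.2)

/-- the cut off function of the correction -/
def kb : ContDiffBump (𝒞.c i) where
  rIn := 3 / 2 * 𝒞.r i
  rOut := 2 * 𝒞.r i
  rIn_pos := by have := 𝒞.r_pos i; positivity
  rIn_lt_rOut := by have := 𝒞.r_pos i; linarith

theorem kb_ck [T2Space X] [RSm E X] : CkFn E 1 (ext0 (𝒞.e i) (kb 𝒞 i)) :=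
  ext0_ck (by simp) (𝒞.mem i) (isCompact_closedBall _ _) (𝒞.sub i) (fun y hy => by
    have := 𝒞.r_pos i
    have h1 : 3 * 𝒞.r i < dist y (𝒞.c i) := not_le.1 hy
    refine (kb 𝒞 i).zero_of_le_dist ?_
    show 2 * 𝒞.r i ≤ _
    linarith) fun y _ => (kb 𝒞 i).contDiffAt (n := 1)

variable {𝒞 i}

theorem Df_zero (G : Expr E X P W) {s y : E} (h : th 𝒞 i s =ᶠ[𝓝 y] id) (p : P) (a b : Jet E) :
    Df 𝒞 i G ((p, s), y, a, b) = 0 := by
  simp only [Df, TT_id h, Ring.inverse_one, h.eq_of_nhds]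
  exact sub_self _

theorem Df_sm {G : Expr E X P W} (hG : G.Sm) {z : (P × E) × E × Jet E × Jet E}
    (h1 : z.2.1 ∈ (𝒞.e i).target) (h2 : th 𝒞 i z.1.2 z.2.1 ∈ (𝒞.e i).target)
    (h3 : IsUnit (TT (th 𝒞 i) z.1.2 z.2.1)) : ContDiffAt ℝ ∞ (Df 𝒞 i G) z := by
  have a0 : ContDiff ℝ ∞ fun z : (P × E) × E × Jet E × Jet E => (z.1.2, z.2.1) :=
    contDiff_fst.snd.prodMk contDiff_snd.fst
  have a1 := (contDiff_TT (contDiff_th 𝒞 i)).comp a0
  have a2 := contDiffAt_inv (z := z) a1.contDiffAt h3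
  have a3 := ((contDiff_th 𝒞 i).comp a0).contDiffAt (x := z)
  have a4 := (a2.clm_apply contDiffAt_snd.snd.fst).snd
  have a5 := (a2.clm_apply contDiffAt_snd.snd.snd).snd
  have a6 := (hG _ (𝒞.mem i) _ h2).comp z (contDiffAt_fst.fst.prodMk (a3.prodMk (a4.prodMk a5)))
  have a7 := (hG _ (𝒞.mem i) (z.1.1, z.2.1, z.2.2.1.2, z.2.2.2.2) h1).comp z
    (contDiffAt_fst.fst.prodMk (contDiffAt_snd.fst.prodMk
      (contDiffAt_snd.snd.fst.snd.prodMk contDiffAt_snd.snd.snd.snd)))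
  exact a6.sub a7

end Tr

open Tr

theorem transl (hN : StNem) : StTrans := by
  intro E _ _ _ X _ _ _ _ _ P W _ _ _ _ _ G 𝒞 α 𝒢 h0 h1 hG h𝒢 hR i
  have hr := 𝒞.r_pos i
  obtain ⟨δ, hδ, hu⟩ := exists_unit (contDiff_th 𝒞 i) (th_zero 𝒞 i)
    (isCompact_closedBall (𝒞.c i) (3 * 𝒞.r i))
  have hm : 0 < min δ (𝒞.r i) := lt_min hδ hr
  let β : ContDiffBump (0 : E) := ⟨_, _, half_pos hm, half_lt_self hm⟩
  obtain ⟨𝒩, h𝒩, e𝒩⟩ := hN X (𝒞.w α) ((P × E) × E × Jet E × Jet E) W _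
    (contDiff_cut (β := fun z => β z.1.2 * 𝒞.bump i z.2.1) (Φ := Df 𝒞 i G)
      (K := {z | z.1.2 ∈ closedBall 0 (min δ (𝒞.r i)) ∧ z.2.1 ∈ closedBall (𝒞.c i) (3 * 𝒞.r i)})
      ((isClosed_closedBall.preimage continuous_fst.snd).inter
        (isClosed_closedBall.preimage continuous_snd.fst))
      ((β.contDiff.comp contDiff_fst.snd).mul ((𝒞.bump i).contDiff.comp contDiff_snd.fst))
      (fun z hz => by
        rcases not_and_or.1 hz with h | h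
        · rw [β.zero_of_le_dist (not_le.1 h).le, zero_mul]
        · rw [(𝒞.bump i).zero_of_le_dist (not_le.1 h).le, mul_zero])
      fun z hz => Df_sm hG (𝒞.sub i hz.2)
        (th_mem ((mem_closedBall_zero_iff.1 hz.1).trans (min_le_right _ _)) hz.2)
        (hu _ (closedBall_subset_closedBall (min_le_left _ _) hz.1) _ hz.2))
  let 𝒢' : (P × E) × 𝒞.C2 α × 𝒞.C2 α → Hol (𝒞.w α) W := fun q => 𝒢 (q.1.1, q.2) +
    Hol.bilL (ContinuousLinearMap.lsmul ℝ ℝ) (𝒞.ofCk h0 h1 _ (kb_ck 𝒞 i))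
      (𝒩 (pair (constL _ _ q.1) (pair (𝒞.ofCk h0 h1 _ (𝒞.η_smul_ck i (k := 1) (by simp) (g := id)
        fun _ _ => contDiffAt_id)) (pair (𝒞.J α i q.2.1) (𝒞.J α i q.2.2)))))
  have ev : ∀ p s u v x, 𝒢' ((p, s), u, v) x = 𝒢 (p, u, v) x + ext0 (𝒞.e i) (kb 𝒞 i) x •
      (β s * 𝒞.bump i (𝒞.η i x • 𝒞.e i x)) • Df 𝒞 i G
        ((p, s), 𝒞.η i x • 𝒞.e i x, 𝒞.Jf i (𝒞.fn u) x, 𝒞.Jf i (𝒞.fn v) x) := by
    intro p s u v x
    simp only [𝒢', Hol.add_apply, Hol.bilL_apply, e𝒩, pair_apply, Cov.J_apply]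
    rfl
  refine ⟨_, half_pos hm, 𝒢', (h𝒢.comp (contDiff_fst.fst.prodMk contDiff_snd)).add
    ((ContinuousLinearMap.contDiff _).comp (h𝒩.comp (contDiff_pair
      ((constL (𝒞.w α) (P × E)).contDiff.comp contDiff_fst) (contDiff_pair contDiff_const
      (contDiff_pair
        ((𝒞.J α i).contDiff.comp contDiff_snd.fst) ((𝒞.J α i).contDiff.comp contDiff_snd.snd)))))),
    fun p w => Hol.ext fun x => ?_, fun p s hs u v u' v' a b hu' hv' x => ?_⟩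
  · rw [ev, Df_zero G (by rw [th_zero]), smul_zero, smul_zero, add_zero]
  rw [ev]
  by_cases hx : x ∈ (𝒞.e i).source ∧ 𝒞.e i x ∈ closedBall (𝒞.c i) (3 / 2 * 𝒞.r i)
  · have b2 : 𝒞.e i x ∈ ball (𝒞.c i) (2 * 𝒞.r i) := closedBall_subset_ball (by linarith) hx.2
    have b3 : 𝒞.e i x ∈ closedBall (𝒞.c i) (3 * 𝒞.r i) :=
      closedBall_subset_closedBall (by linarith) hx.2
    have s1 := hs.le.trans (half_lt_self hm).le
    have t1 := th_mem (s1.trans (min_le_right _ _)) b3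
    have t2 := hu s (mem_closedBall_zero_iff.2 (s1.trans (min_le_left _ _))) _ b3
    rw [ext0_of_mem hx.1, (kb 𝒞 i).one_of_mem_closedBall hx.2,
      𝒞.η_eq_one hx.1 (ball_subset_closedBall b2), one_smul, one_smul,
      β.one_of_mem_closedBall (mem_closedBall_zero_iff.2 hs.le),
      (𝒞.bump i).one_of_mem_closedBall (ball_subset_closedBall b2), one_mul, one_smul,
      𝒞.Jf_of_ball hx.1 b2, 𝒞.Jf_of_ball hx.1 b2, Th, if_pos hx.1,
      hR p u v _ (𝒞.mem i) _ ((𝒞.e i).map_target t1), hR p u' v' _ (𝒞.mem i) _ hx.1, Expr.val,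
      Expr.val, ← j2_in hx.1 t1 t2 (𝒞.fn_ck u) hu', ← j2_in hx.1 t1 t2 (𝒞.fn_ck v) hv',
      (𝒞.e i).right_inv t1]
    exact add_sub_cancel _ _
  · have t1 := Th_ev hx s
    rw [t1.self_of_nhds, hR p u v _ (chart_mem_atlas E x) _ (mem_chart_source E x),
      hR p u' v' _ (chart_mem_atlas E x) _ (mem_chart_source E x), Expr.val, Expr.val,
      j2_out (u := 𝒞.fn u) (u' := 𝒞.fn u') (a := a) (t1.mono fun z hz => by rw [hu', hz]),
      j2_out (u := 𝒞.fn v) (u' := 𝒞.fn v') (a := b) (t1.mono fun z hz => by rw [hv', hz]),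
      add_eq_left]
    by_cases h2 : x ∈ (𝒞.e i).source
    · by_cases h3 : 𝒞.e i x ∈ closedBall (𝒞.c i) (2 * 𝒞.r i)
      · rw [𝒞.η_eq_one h2 h3, one_smul, Df_zero G (th_ev (fun h => hx ⟨h2, h⟩) s), smul_zero,
          smul_zero]
      · rw [ext0_of_mem h2, (kb 𝒞 i).zero_of_le_dist (not_le.1 h3).le, zero_smul]
    · rw [ext0_of_notMem h2, zero_smul]

end Vale.Agent.P290Z.Kur
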